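/-
Row 59 (S0081), helper52: the ALL-INFINITY chart of the deflation formula (252 #15982 / 451 #15970), full q.
Third solution of the local law `φ(A,D) = q^D φ(A-1,D) + φ(A,D-1)`, supported on `A + D ≤ 0`.
-/
import Crest.Agent.R059.DeflEnd

set_option autoImplicit false

namespace Crest.Agent.R059.Defl

open Crest.Agent.R059.ThickAlg Finset

section inf

variable {F : Type*} [Field F]

/-- exponent `A(A+1)/2` on integers. -/
def tri (A : ℤ) : ℤ := A * (A + 1) / 2

theorem tri_two (A : ℤ) : 2 * tri A = A * (A + 1) := by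
  unfold tri
  exact Int.mul_ediv_cancel' (Int.even_mul_succ_self A).two_dvd

theorem tri_succ (A : ℤ) : tri A = tri (A - 1) + A := by
  have h1 := tri_two A
  have h2 := tri_two (A - 1)
  have : 2 * tri A = 2 * (tri (A - 1) + A) := by
    rw [mul_add, h1, h2]; ring
  omega

/-- sign `(-1)^A`. -/
noncomputable def sg (F : Type*) [Field F] (A : ℤ) : F := (-1 : F) ^ A

theorem sg_pred (A : ℤ) : sg F (A - 1) = - sg F A := by
  unfold sg
  rw [zpow_sub₀ (by norm_num : (-1 : F) ≠ 0), zpow_one, div_neg, div_one]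

/-- factor of a non-path vertex, chart infinity. -/
noncomputable def gi (q : F) (A D : ℤ) : F :=
  sg F A * q ^ (A * D + tri A) * gb q (-D) (-D - A)

/-- factor of a path vertex, chart infinity. -/
noncomputable def fi (q : F) (A D : ℤ) : F :=
  - (sg F A * q ^ ((A - 1) * D + tri (A - 1)) * gb q (-D - 1) (-D - A))

theorem gi_pascal {q : F} (g : Gen q) (A D : ℤ) :
    gi q A D = q ^ D * gi q (A - 1) D + gi q A (D - 1) := by
  unfold gi
  rw [sg_pred]
  have e1 : -D - (A - 1) = -D - A + 1 := by ring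
  have e2 : -(D - 1) = -D + 1 := by ring
  have e3 : -(D - 1) - A = -D - A + 1 := by ring
  rw [e1, e3, e2]
  have hp := pascal0 g (-D + 1) (-D - A + 1)
  have e4 : -D + 1 - (-D - A + 1) = A := by ring
  have e5 : -D - A + 1 - 1 = -D - A := by ring
  rw [e4, e5, add_sub_cancel_right] at hp
  rw [hp]
  have z1 : q ^ (A * D + tri A) = q ^ (A * (D - 1) + tri A) * q ^ A := by
    rw [← zpow_add₀ g.q0]; congr 1; ring
  have z2 : q ^ D * q ^ ((A - 1) * D + tri (A - 1)) = q ^ (A * (D - 1) + tri A) := by
    rw [← zpow_add₀ g.q0]; congr 1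
    rw [tri_succ A]; ring
  rw [z1]
  linear_combination (sg F A * gb q (-D) (-D - A + 1)) * z2

theorem fi_pascal {q : F} (g : Gen q) (A D : ℤ) :
    fi q A D = q ^ D * fi q (A - 1) D + fi q A (D - 1) := by
  unfold fi
  rw [sg_pred]
  have e1 : -D - (A - 1) = -D - A + 1 := by ring
  have e2 : -(D - 1) - 1 = -D := by ring
  have e3 : -(D - 1) - A = -D - A + 1 := by ring
  rw [e1, e3, e2]
  have hp := pascal0 g (-D) (-D - A + 1)
  have e4 : -D - (-D - A + 1) = A - 1 := by ring
  have e5 : -D - A + 1 - 1 = -D - A := by ring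
  rw [e4, e5] at hp
  rw [hp]
  have z1 : q ^ ((A - 1) * D + tri (A - 1)) = q ^ ((A - 1) * (D - 1) + tri (A - 1)) * q ^ (A - 1) := by
    rw [← zpow_add₀ g.q0]; congr 1; ring
  have z2 : q ^ D * q ^ ((A - 1 - 1) * D + tri (A - 1 - 1)) =
      q ^ ((A - 1) * (D - 1) + tri (A - 1)) := by
    rw [← zpow_add₀ g.q0]; congr 1
    rw [tri_succ (A - 1)]; ring
  rw [z1]
  linear_combination (-(sg F A * gb q (-D - 1) (-D - A + 1))) * z2

theorem fgi_rel {q : F} (g : Gen q) (A D : ℤ) :
    q ^ A * (q ^ D - 1) * fi q A D = (q ^ A - 1) * gi q A D := by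
  unfold fi gi
  -- gb(-D, m) (q^A - 1) = gb(-D-1, m) (q^(-D) - 1), m = -D-A
  have hr : gb q (-D) (-D - A) * (q ^ A - 1) = gb q (-D - 1) (-D - A) * (q ^ (-D) - 1) := by
    have p0 := pascal0 g (-D) (-D - A)
    have e : -D - (-D - A) = A := by ring
    rw [e] at p0
    have r0 := gb_ratio g (-D - 1) (-D - A)
    have e' : -D - 1 - (-D - A) + 1 = A := by ring
    rw [e'] at r0
    -- (q^m - 1) gb(n,m) = (q^A - 1) gb(n, m-1)
    have zz : q ^ (-D) = q ^ A * q ^ (-D - A) := by
      rw [← zpow_add₀ g.q0]; congr 1; ring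
    rw [p0, zz]
    linear_combination (- q ^ A) * r0
  have z1 : q ^ A * q ^ ((A - 1) * D + tri (A - 1)) * q ^ D = q ^ (A * D + tri A) := by
    rw [← zpow_add₀ g.q0, ← zpow_add₀ g.q0]; congr 1
    rw [tri_succ A]; ring
  have z2 : q ^ D * q ^ (-D) = 1 := by
    rw [← zpow_add₀ g.q0]; simp
  have z3 : q ^ (A * D + tri A) * (1 - q ^ (-D)) =
      q ^ A * q ^ ((A - 1) * D + tri (A - 1)) * (q ^ D - 1) := by
    rw [← z1]
    linear_combination (- (q ^ A * q ^ ((A - 1) * D + tri (A - 1)))) * z2
  calc q ^ A * (q ^ D - 1) * -(sg F A * q ^ ((A - 1) * D + tri (A - 1)) * gb q (-D - 1) (-D - A))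
      = - (sg F A * gb q (-D - 1) (-D - A)) *
          (q ^ A * q ^ ((A - 1) * D + tri (A - 1)) * (q ^ D - 1)) := by ring
    _ = - (sg F A * gb q (-D - 1) (-D - A)) * (q ^ (A * D + tri A) * (1 - q ^ (-D))) := by rw [z3]
    _ = sg F A * q ^ (A * D + tri A) * (gb q (-D - 1) (-D - A) * (q ^ (-D) - 1)) := by ring
    _ = sg F A * q ^ (A * D + tri A) * (gb q (-D) (-D - A) * (q ^ A - 1)) := by rw [hr]
    _ = _ := by ring

end inf

variable {ι : Type*} [LinearOrder ι] {R : ι → ι → Prop} [DecidableRel R]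
variable {F : Type*} [Field F]

section

variable [Fintype ι]

/-- degree 0 identity for the chart at infinity. -/
theorem base_inf (hR : UI R) {q : F} (hq : q ≠ 0) (hgen : ∀ m : ℤ, m ≠ 0 → q ^ m ≠ 1)
    (k : ι → ℤ) (hsum : ∑ j, k j = 0) (f g : ι → F)
    (hrel : ∀ j, q ^ k j * (q ^ nb R k j - 1) * f j = (q ^ k j - 1) * g j)
    (h0 : ∀ j, nb R k j = 0 → k j = 0 → f j = -1 ∧ g j = 1)
    (h1 : ∀ j, nb R k j = 0 → k j ≠ 0 → g j = 0)
    (V : Finset ι) (r : ι) (hrV : ∀ j ∈ V, r < j) (hfin : ∀ j, j ∉ V → ∀ i ∈ V, j < i)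
    (hk : ∀ j, j ∉ V → k j = 0) :
    T R f g r V = if k = 0 then T R (fun _ => -1) (fun _ => 1) r V else 0 := by
  induction hn : V.card using Nat.strong_induction_on generalizing V r with
  | _ n IH =>
  rcases V.eq_empty_or_nonempty with rfl | hne
  · rw [T_empty, T_empty, if_pos]
    funext j
    exact hk j (Finset.notMem_empty _)
  set b := V.min' hne with hb
  have hbV : b ∈ V := V.min'_mem hne
  set V' := V.erase b with hV'
  have hVins : V = insert b V' := (Finset.insert_erase hbV).symm
  have hlt : ∀ i ∈ V', b < i := fun i hi =>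
    lt_of_le_of_ne (V.min'_le i (Finset.mem_of_mem_erase hi)) (Finset.ne_of_mem_erase hi).symm
  have hrb : r < b := hrV b hbV
  have hcard : V'.card < n := by
    rw [← hn]; exact Finset.card_lt_card (Finset.erase_ssubset hbV)
  have hkb : ∀ i, i < b → k i = 0 := by
    intro i hi
    apply hk
    intro h
    exact not_lt.2 (V.min'_le i h) hi
  have hD : nb R k b = 0 := by
    unfold nb
    apply Finset.sum_eq_zero
    intro i _
    split_ifs with h
    · exact hkb i (hR.lt h)
    · rfl
  have hfull : V' = Jr b := by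
    ext j
    simp only [Jr, Finset.mem_filter, Finset.mem_univ, true_and]
    constructor
    · exact hlt j
    · intro h
      refine Finset.mem_erase.2 ⟨h.ne', ?_⟩
      by_contra h'
      exact absurd (hfin j h' b hbV) (not_lt.2 h.le)
  have hfin' : ∀ j, j ∉ V' → ∀ i ∈ V', j < i := by
    intro j hj i hi
    by_cases h : j = b
    · rw [h]; exact hlt i hi
    · exact hfin j (fun h' => hj (Finset.mem_erase.2 ⟨h, h'⟩)) i (Finset.mem_of_mem_erase hi)
  rw [hVins, T_min hR f g r V' b hlt hrb]
  by_cases hb0 : k b = 0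
  · have hk' : ∀ j, j ∉ V' → k j = 0 := by
      intro j hj
      by_cases h : j = b
      · rw [h]; exact hb0
      · exact hk j (fun h' => hj (Finset.mem_erase.2 ⟨h, h'⟩))
    obtain ⟨e1, e2⟩ := h0 b hD hb0
    rw [e1, e2, IH _ hcard V' r (fun j hj => hrb.trans (hlt j hj)) hfin' hk' rfl,
      IH _ hcard V' b hlt hfin' hk' rfl,
      T_min hR (fun _ => (-1 : F)) (fun _ => (1 : F)) r V' b hlt hrb]
    by_cases hk0 : k = 0
    · simp only [if_pos hk0]
    · simp only [if_neg hk0]; simp
  · have hk0 : k ≠ 0 := by rintro rfl; exact hb0 rfl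
    rw [h1 b hD hb0, if_neg hk0, hfull, T_full_zero hR hq hgen k b hkb hb0 hsum f g (fun j _ => hrel j)]
    simp

/-- the path kernel of the chart at infinity. -/
noncomputable def KerI (R : ι → ι → Prop) [DecidableRel R] (q : F) (o : ι) (A D : ι → ℤ) : F :=
  T R (fun j => fi q (A j) (D j)) (fun j => gi q (A j) (D j)) o (J o)

theorem Phi_eq_KerI (q : F) (o : ι) (A D : ι → ℤ) :
    Phi o ((J o).powerset.filter (fun p => Good R o p))
      (fun p j A D => if j ∈ p then fi q A D else gi q A D) A D = KerI R q o A D := by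
  unfold Phi KerI T
  rw [Finset.sum_filter]
  apply Finset.sum_congr rfl
  intro p hp
  rw [Finset.mem_powerset] at hp
  split_ifs with h
  · rw [← Finset.prod_sdiff hp, mul_comm]
    congr 1
    · apply Finset.prod_congr rfl
      intro j hj
      exact if_pos hj
    · apply Finset.prod_congr rfl
      intro j hj
      exact if_neg (Finset.mem_sdiff.1 hj).2
  · rfl

theorem KerI_base (hR : UI R) {q : F} (g : Gen q) (o : ι) (ho : ∀ j, o ≤ j)
    (hx : T R (fun _ => (-1 : F)) (fun _ => (1 : F)) o (J o) = 1)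
    (k : ι → ℤ) (hsum : ∑ j, k j = 0) :
    KerI R q o k (fun j => nb R k j) = if k = 0 then 1 else 0 := by
  have hJ : J o = Jr o := by
    ext j
    simp only [J, Jr, Finset.mem_erase, Finset.mem_univ, and_true, Finset.mem_filter, true_and]
    constructor
    · intro h; exact lt_of_le_of_ne (ho j) (Ne.symm h)
    · intro h; exact h.ne'
  by_cases hko : k o = 0
  · unfold KerI
    have := base_inf hR g.q0 (gen_ne g) k hsum (fun j => fi q (k j) (nb R k j))
      (fun j => gi q (k j) (nb R k j)) (fun j => fgi_rel g _ _)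
      (by
        intro j hD h0
        simp only [hD, h0, fi, gi, sg, tri]
        have e1 : gb q (-0 - 1) (-0 - 0) = 1 := by
          have : (-0 - 0 : ℤ) = 0 := by norm_num
          rw [this]; exact gb_zero q _
        have e2 : gb q (-0) (-0 - 0) = 1 := by
          have : (-0 - 0 : ℤ) = 0 := by norm_num
          rw [this]; exact gb_zero q _
        rw [e1, e2]
        simp)
      (by
        intro j hD h0
        simp only [hD, gi]
        have : gb q (-0) (-0 - k j) = 0 := by
          rcases lt_or_gt_of_ne h0 with h | h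
          · obtain ⟨m, hm⟩ : ∃ m : ℕ, -0 - k j = (m : ℤ) + 1 := ⟨(-0 - k j - 1).toNat, by omega⟩
            rw [hm, neg_zero]
            have := gb_nat q (0 : ℤ) (m + 1)
            push_cast at this
            rw [this, Finset.prod_eq_zero (i := 0) (by simp)]
            · rw [zero_div]
            · simp [qz_zero]
          · exact gb_neg q _ (by omega)
        rw [this, mul_zero])
      (J o) o
      (by intro j hj; rw [hJ] at hj; exact (Finset.mem_filter.1 hj).2)
      (by
        intro j hj i hi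
        have : j = o := by
          by_contra h
          exact hj (Finset.mem_erase.2 ⟨h, Finset.mem_univ _⟩)
        rw [this]
        rw [hJ] at hi
        exact (Finset.mem_filter.1 hi).2)
      (by
        intro j hj
        have : j = o := by
          by_contra h
          exact hj (Finset.mem_erase.2 ⟨h, Finset.mem_univ _⟩)
        rw [this]; exact hko)
    rw [this, hx]
  · have hne : k ≠ 0 := by rintro rfl; exact hko rfl
    rw [if_neg hne]
    unfold KerI
    rw [hJ]
    exact T_full_zero hR g.q0 (gen_ne g) k o (fun i hi => absurd (ho i) (not_le.2 hi)) hko hsum _ _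
      (fun j _ => fgi_rel g _ _)

/-- **The q-deflation formula, chart at infinity** (`hx`: the last vertex is in the greedy stable
set of `o`). -/
theorem defl_inf (hR : UI R) {q : F} (g : Gen q) (o : ι) (ho : ∀ j, o ≤ j) (x : ℕ → F)
    (hx : T R (fun _ => (-1 : F)) (fun _ => (1 : F)) o (J o) = 1)
    (N : ℕ) (k : ι → ℤ) (B : ℤ) (hB0 : 0 ≤ B) (hB : ∑ j, k j ≤ B) :
    W R q x N k = ∑ c ∈ box R o B, q ^ ex R c (k - c) * KerI R q o (k - c) (Dv R k c) *
      ee x N (∑ j, k j - ∑ j, c j) * W R q x N c := by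
  rw [defl hR o ho q g.q0 x ((J o).powerset.filter (fun p => Good R o p))
    (fun p j A D => if j ∈ p then fi q A D else gi q A D) ?_ ?_ N k B hB0 hB]
  · apply Finset.sum_congr rfl
    intro c _
    rw [Phi_eq_KerI]
  · intro p _ j _ A D
    by_cases h : j ∈ p
    · simp only [if_pos h]
      exact fi_pascal g A D
    · simp only [if_neg h]
      exact gi_pascal g A D
  · intro k hk
    rw [Phi_eq_KerI]
    exact KerI_base hR g o ho hx k hk

end

end Crest.Agent.R059.Defl
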