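import Crest.Agent.R059.Pieri

/-! Row 59: the rooted recursion ("first link") for the chromatic quasisymmetric function.  Part 1: the one
letter commutation lemma. -/

set_option autoImplicit false

open Crest.CombinatoricsR.UnitInterval

namespace Crest.Agent.R059.FL530

open Crest.Agent.R059.Pieri Finset

variable {n : ℕ} {A : Type*} [CommRing A]

/-- `(k)_q = 1 + q + … + q^(k-1)`. -/
def qi (q : A) (k : ℕ) : A := ∑ i ∈ range k, q ^ i

theorem qi_zero (q : A) : qi q 0 = 0 := by simp [qi]

theorem qi_succ (q : A) (k : ℕ) : qi q (k + 1) = qi q k + q ^ k := by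
  unfold qi; rw [sum_range_succ]

theorem qi_succ' (q : A) (k : ℕ) : qi q (k + 1) = 1 + q * qi q k := by
  unfold qi; rw [sum_range_succ', mul_sum]; simp [pow_succ, mul_comm, add_comm]

theorem qi_mul (q : A) (k : ℕ) : (q - 1) * qi q k = q ^ k - 1 := by
  induction k with
  | zero => simp [qi_zero]
  | succ k ih => rw [qi_succ, mul_add, ih]; ring

/-- left degree of `w` in `B`. -/
def dl (h : Fin n → ℕ) (B : Finset (Fin n)) (w : Fin n) : ℕ := (B.filter (fun u => Adj h u w)).card

/-- the weight `t(B)` of a block with least element `m`. -/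
def tm (q : A) (h : Fin n → ℕ) (m : Fin n) (B : Finset (Fin n)) : A :=
  ∏ w ∈ B.erase m, qi q (dl h B w)

theorem adj_lt {h : Fin n → ℕ} {a b : Fin n} (H : Adj h a b) : a < b := H.1

theorem adj_mid {h : Fin n → ℕ} (hh : IsHessenberg h) {a b c : Fin n} (H : Adj h a c)
    (hab : a < b) (hbc : b < c) : Adj h a b ∧ Adj h b c := by
  refine ⟨⟨hab, ?_⟩, hbc, le_trans H.2 (hh.1 hab.le)⟩
  have h1 := H.2
  have h2 : b.val < c.val := hbc
  omega

theorem cross_insert_right {h : Fin n → ℕ} {B S : Finset (Fin n)} {w : Fin n} (hw : w ∉ S) :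
    cross h B (insert w S) = cross h B S + dl h B w := by
  classical
  unfold cross dl
  have h1 : (B ×ˢ insert w S).filter (fun p => Adj h p.1 p.2) =
      (B ×ˢ S).filter (fun p => Adj h p.1 p.2) ∪
        (B.filter (fun u => Adj h u w)).image (fun u => (u, w)) := by
    ext ⟨a, b⟩
    simp only [mem_filter, mem_product, mem_insert, mem_union, mem_image, Prod.mk.injEq]
    constructor
    · rintro ⟨⟨ha, rfl | hb⟩, hab⟩
      · exact Or.inr ⟨a, ⟨ha, hab⟩, rfl, rfl⟩
      · exact Or.inl ⟨⟨ha, hb⟩, hab⟩
    · rintro (⟨⟨ha, hb⟩, hab⟩ | ⟨c, ⟨hc, hcw⟩, rfl, rfl⟩)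
      · exact ⟨⟨ha, Or.inr hb⟩, hab⟩
      · exact ⟨⟨hc, Or.inl rfl⟩, hcw⟩
  rw [h1, card_union_of_disjoint, card_image_of_injective]
  · intro a b hab
    exact (Prod.mk.injEq _ _ _ _ ▸ hab).1
  · rw [disjoint_left]
    rintro ⟨a, b⟩ h2 h3
    simp only [mem_filter, mem_product, mem_image, Prod.mk.injEq] at h2 h3
    obtain ⟨c, _, _, rfl⟩ := h3
    exact hw h2.1.2

/-- inserting a large element on the left changes nothing. -/
theorem cross_insert_left_max {h : Fin n → ℕ} {B S : Finset (Fin n)} {w : Fin n}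
    (hw : ∀ s ∈ S, s < w) : cross h (insert w B) S = cross h B S := by
  classical
  unfold cross
  congr 1
  ext ⟨a, b⟩
  simp only [mem_filter, mem_product, mem_insert]
  constructor
  · rintro ⟨⟨rfl | ha, hb⟩, hab⟩
    · exact absurd (adj_lt hab) (not_lt.2 (hw b hb).le)
    · exact ⟨⟨ha, hb⟩, hab⟩
  · rintro ⟨⟨ha, hb⟩, hab⟩
    exact ⟨⟨Or.inr ha, hb⟩, hab⟩

theorem dl_insert_max {h : Fin n → ℕ} {B : Finset (Fin n)} {w u : Fin n} (hw : u ≤ w) :
    dl h (insert w B) u = dl h B u := by
  classical
  unfold dl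
  congr 1
  ext a
  simp only [mem_filter, mem_insert]
  constructor
  · rintro ⟨rfl | ha, hab⟩
    · exact absurd (adj_lt hab) (not_lt.2 hw)
    · exact ⟨ha, hab⟩
  · rintro ⟨ha, hab⟩
    exact ⟨Or.inr ha, hab⟩

theorem tm_insert (q : A) {h : Fin n → ℕ} {m w : Fin n} {B : Finset (Fin n)}
    (hB : ∀ b ∈ B, b < w) (hm : m ≠ w) :
    tm q h m (insert w B) = tm q h m B * qi q (dl h B w) := by
  classical
  have hwB : w ∉ B := fun hh => lt_irrefl _ (hB w hh)
  unfold tm
  rw [erase_insert_of_ne (Ne.symm hm), prod_insert (fun hh => hwB (mem_of_mem_erase hh)),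
    dl_insert_max (le_refl w), mul_comm]
  congr 1
  apply prod_congr rfl
  intro u hu
  rw [dl_insert_max (hB u (mem_of_mem_erase hu)).le]

/-- the two generating functions. -/
noncomputable def GG (q z : A) (h : Fin n → ℕ) (m : Fin n) (C V : Finset (Fin n)) : A :=
  ∑ S ∈ (V.erase m).powerset.filter (fun S => Stable h S ∧ Disjoint S C),
    z ^ S.card * (tm q h m (V \ S) * q ^ cross h (V \ S) S)

noncomputable def KK (q z : A) (h : Fin n → ℕ) (m : Fin n) (C V : Finset (Fin n)) : A :=
  ∑ S ∈ (V.erase m).powerset.filter (fun S => Stable h S ∧ Disjoint S C),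
    z ^ S.card * (tm q h m (V \ S) * q ^ cross h S (V \ S))

theorem dl_sdiff {h : Fin n → ℕ} {V S : Finset (Fin n)} (hS : S ⊆ V) (w : Fin n) :
    dl h V w = dl h (V \ S) w + dl h S w := by
  classical
  unfold dl
  rw [← card_union_of_disjoint, ← filter_union, sdiff_union_of_subset hS]
  apply disjoint_filter_filter
  exact sdiff_disjoint

theorem dl_eq_zero {h : Fin n → ℕ} {V S : Finset (Fin n)} (hS : S ⊆ V) (w : Fin n) :
    dl h S w = 0 ↔ Disjoint S (V.filter (fun u => Adj h u w)) := by
  classical
  unfold dl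
  rw [card_eq_zero, disjoint_left, filter_eq_empty_iff]
  constructor
  · intro H a ha hb
    exact H ha (mem_filter.1 hb).2
  · intro H a ha hb
    exact H ha (mem_filter.2 ⟨hS ha, hb⟩)

theorem dl_le_one {h : Fin n → ℕ} (hh : IsHessenberg h) {S : Finset (Fin n)} (hS : Stable h S)
    (w : Fin n) : dl h S w ≤ 1 := by
  classical
  unfold dl
  rw [card_le_one]
  intro a ha b hb
  rw [mem_filter] at ha hb
  by_contra hne
  rcases lt_or_gt_of_ne hne with hab | hab
  · exact hS a ha.1 b hb.1 (adj_mid hh ha.2 hab (adj_lt hb.2)).1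
  · exact hS b hb.1 a ha.1 (adj_mid hh hb.2 hab (adj_lt ha.2)).1

theorem dl_cases {h : Fin n → ℕ} (hh : IsHessenberg h) {V S : Finset (Fin n)} {w : Fin n}
    {e : ℕ} (he : dl h V w = e + 1) (hS : S ⊆ V) (hst : Stable h S) :
    (Disjoint S (V.filter (fun u => Adj h u w)) ∧ dl h S w = 0 ∧ dl h (V \ S) w = e + 1) ∨
    (¬ Disjoint S (V.filter (fun u => Adj h u w)) ∧ dl h S w = 1 ∧ dl h (V \ S) w = e) := by
  have h1 := dl_sdiff (h := h) hS w
  have h2 := dl_le_one hh hst w
  have h3 := dl_eq_zero (h := h) hS w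
  by_cases h0 : dl h S w = 0
  · left
    exact ⟨h3.1 h0, h0, by omega⟩
  · right
    exact ⟨fun h4 => h0 (h3.2 h4), by omega, by omega⟩

theorem stable_insert_max {h : Fin n → ℕ} {V S : Finset (Fin n)} {w : Fin n}
    (hw : ∀ v ∈ V, v < w) (hS : S ⊆ V) :
    Stable h (insert w S) ↔ Stable h S ∧ Disjoint S (V.filter (fun u => Adj h u w)) := by
  classical
  constructor
  · intro H
    refine ⟨fun a ha b hb => H a (mem_insert_of_mem ha) b (mem_insert_of_mem hb), ?_⟩
    rw [disjoint_left]
    intro a ha hb
    exact H a (mem_insert_of_mem ha) w (mem_insert_self _ _) (mem_filter.1 hb).2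
  · rintro ⟨H1, H2⟩ a ha b hb hab
    rw [mem_insert] at ha hb
    rcases ha with rfl | ha
    · rcases hb with rfl | hb
      · exact lt_irrefl _ (adj_lt hab)
      · exact absurd (adj_lt hab) (not_lt.2 (hw b (hS hb)).le)
    · rcases hb with rfl | hb
      · exact (disjoint_left.1 H2) ha (mem_filter.2 ⟨hS ha, hab⟩)
      · exact H1 a ha b hb hab

section step

variable (q z : A) {h : Fin n → ℕ} (hh : IsHessenberg h) {m w : Fin n} {V : Finset (Fin n)}

include hh in
/-- large element in `C`. -/
theorem GG_step {e : ℕ} (hmV : m ∈ V) (hw : ∀ v ∈ V, v < w) (he : dl h V w = e + 1)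
    {C : Finset (Fin n)} (hC : C ⊆ V.filter (fun u => Adj h u w)) :
    GG q z h m (insert w C) (insert w V) =
      q ^ e * GG q z h m (V.filter (fun u => Adj h u w)) V + qi q e * GG q z h m C V := by
  classical
  have hmw : m ≠ w := (hw m hmV).ne
  have hwV : w ∉ V := fun h1 => lt_irrefl _ (hw w h1)
  unfold GG
  rw [erase_insert_of_ne (Ne.symm hmw), sum_filter, sum_filter, sum_filter,
    sum_powerset_insert (fun h1 => hwV (mem_of_mem_erase h1)), mul_sum, mul_sum]
  have hz : ∑ x ∈ (V.erase m).powerset, (if Stable h (insert w x) ∧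
      Disjoint (insert w x) (insert w C) then z ^ (insert w x).card *
      (tm q h m (insert w V \ insert w x) * q ^ cross h (insert w V \ insert w x) (insert w x))
      else 0) = 0 := by
    apply sum_eq_zero
    intro x _
    rw [if_neg]
    rintro ⟨_, h2⟩
    exact (disjoint_left.1 h2) (mem_insert_self _ _) (mem_insert_self _ _)
  rw [hz, add_zero, ← sum_add_distrib]
  apply sum_congr rfl
  intro S hS
  have hSV : S ⊆ V := (mem_powerset.1 hS).trans (erase_subset _ _)
  have hwS : w ∉ S := fun h1 => hwV (hSV h1)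
  have hd : Disjoint S (insert w C) ↔ Disjoint S C := by
    rw [disjoint_insert_right]; exact ⟨fun h1 => h1.2, fun h1 => ⟨hwS, h1⟩⟩
  rw [insert_sdiff_of_notMem _ hwS, tm_insert q (fun b hb => hw b (sdiff_subset hb)) hmw,
    cross_insert_left_max (fun s hs => hw s (hSV hs))]
  by_cases hst : Stable h S
  · rcases dl_cases hh he hSV hst with ⟨h1, _, h3⟩ | ⟨h1, _, h3⟩
    · rw [if_pos ⟨hst, hd.2 (disjoint_of_subset_right hC h1)⟩, if_pos ⟨hst, h1⟩,
        if_pos ⟨hst, disjoint_of_subset_right hC h1⟩, h3, qi_succ]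
      ring
    · by_cases h5 : Disjoint S C
      · rw [if_pos ⟨hst, hd.2 h5⟩, if_neg (fun h6 => h1 h6.2), if_pos ⟨hst, h5⟩, h3]
        ring
      · rw [if_neg (fun h6 => h5 (hd.1 h6.2)), if_neg (fun h6 => h1 h6.2),
          if_neg (fun h6 => h5 h6.2)]
        ring
  · rw [if_neg (fun h6 => hst h6.1), if_neg (fun h6 => hst h6.1), if_neg (fun h6 => hst h6.1)]
    ring

include hh in
theorem KK_step {e : ℕ} (hmV : m ∈ V) (hw : ∀ v ∈ V, v < w) (he : dl h V w = e + 1)
    {C : Finset (Fin n)} (hC : C ⊆ V.filter (fun u => Adj h u w)) :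
    KK q z h m (insert w C) (insert w V) =
      KK q z h m (V.filter (fun u => Adj h u w)) V + q * qi q e * KK q z h m C V := by
  classical
  have hmw : m ≠ w := (hw m hmV).ne
  have hwV : w ∉ V := fun h1 => lt_irrefl _ (hw w h1)
  unfold KK
  rw [erase_insert_of_ne (Ne.symm hmw), sum_filter, sum_filter, sum_filter,
    sum_powerset_insert (fun h1 => hwV (mem_of_mem_erase h1)), mul_sum]
  have hz : ∑ x ∈ (V.erase m).powerset, (if Stable h (insert w x) ∧
      Disjoint (insert w x) (insert w C) then z ^ (insert w x).card *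
      (tm q h m (insert w V \ insert w x) * q ^ cross h (insert w x) (insert w V \ insert w x))
      else 0) = 0 := by
    apply sum_eq_zero
    intro x _
    rw [if_neg]
    rintro ⟨_, h2⟩
    exact (disjoint_left.1 h2) (mem_insert_self _ _) (mem_insert_self _ _)
  rw [hz, add_zero, ← sum_add_distrib]
  apply sum_congr rfl
  intro S hS
  have hSV : S ⊆ V := (mem_powerset.1 hS).trans (erase_subset _ _)
  have hwS : w ∉ S := fun h1 => hwV (hSV h1)
  have hwVS : w ∉ V \ S := fun h1 => hwV (sdiff_subset h1)
  have hd : Disjoint S (insert w C) ↔ Disjoint S C := by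
    rw [disjoint_insert_right]; exact ⟨fun h1 => h1.2, fun h1 => ⟨hwS, h1⟩⟩
  rw [insert_sdiff_of_notMem _ hwS, tm_insert q (fun b hb => hw b (sdiff_subset hb)) hmw,
    cross_insert_right hwVS]
  by_cases hst : Stable h S
  · rcases dl_cases hh he hSV hst with ⟨h1, h2, h3⟩ | ⟨h1, h2, h3⟩
    · rw [if_pos ⟨hst, hd.2 (disjoint_of_subset_right hC h1)⟩, if_pos ⟨hst, h1⟩,
        if_pos ⟨hst, disjoint_of_subset_right hC h1⟩, h3, h2, qi_succ']
      ring
    · by_cases h5 : Disjoint S C
      · rw [if_pos ⟨hst, hd.2 h5⟩, if_neg (fun h6 => h1 h6.2), if_pos ⟨hst, h5⟩, h3, h2]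
        ring
      · rw [if_neg (fun h6 => h5 (hd.1 h6.2)), if_neg (fun h6 => h1 h6.2),
          if_neg (fun h6 => h5 h6.2)]
        ring
  · rw [if_neg (fun h6 => hst h6.1), if_neg (fun h6 => hst h6.1), if_neg (fun h6 => hst h6.1)]
    ring

include hh in
theorem GG_step0 {e : ℕ} (hmV : m ∈ V) (hw : ∀ v ∈ V, v < w) (he : dl h V w = e + 1) :
    GG q z h m ∅ (insert w V) =
      (q ^ e + z * q ^ (e + 1)) * GG q z h m (V.filter (fun u => Adj h u w)) V +
        qi q e * GG q z h m ∅ V := by
  classical
  have hmw : m ≠ w := (hw m hmV).ne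
  have hwV : w ∉ V := fun h1 => lt_irrefl _ (hw w h1)
  unfold GG
  rw [erase_insert_of_ne (Ne.symm hmw), sum_filter, sum_filter, sum_filter,
    sum_powerset_insert (fun h1 => hwV (mem_of_mem_erase h1)), mul_sum, mul_sum]
  rw [← sum_add_distrib, ← sum_add_distrib]
  apply sum_congr rfl
  intro S hS
  have hSV : S ⊆ V := (mem_powerset.1 hS).trans (erase_subset _ _)
  have hwS : w ∉ S := fun h1 => hwV (hSV h1)
  have hst2 := stable_insert_max (h := h) hw hSV
  have h7 : (insert w V) \ (insert w S) = V \ S := by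
    rw [insert_sdiff_insert, sdiff_insert_of_notMem hwV]
  rw [insert_sdiff_of_notMem _ hwS, tm_insert q (fun b hb => hw b (sdiff_subset hb)) hmw,
    cross_insert_left_max (fun s hs => hw s (hSV hs)), h7, cross_insert_right hwS,
    card_insert_of_notMem hwS]
  by_cases hst : Stable h S
  · rcases dl_cases hh he hSV hst with ⟨h1, _, h3⟩ | ⟨h1, _, h3⟩
    · rw [if_pos ⟨hst, disjoint_empty_right _⟩, if_pos ⟨hst2.2 ⟨hst, h1⟩, disjoint_empty_right _⟩,
        if_pos ⟨hst, h1⟩, if_pos ⟨hst, disjoint_empty_right _⟩, h3, qi_succ]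
      ring
    · rw [if_pos ⟨hst, disjoint_empty_right _⟩, if_neg (fun h6 => h1 (hst2.1 h6.1).2),
        if_neg (fun h6 => h1 h6.2), if_pos ⟨hst, disjoint_empty_right _⟩, h3]
      ring
  · rw [if_neg (fun h6 => hst h6.1), if_neg (fun h6 => hst (hst2.1 h6.1).1),
      if_neg (fun h6 => hst h6.1), if_neg (fun h6 => hst h6.1)]
    ring

include hh in
theorem KK_step0 {e : ℕ} (hmV : m ∈ V) (hw : ∀ v ∈ V, v < w) (he : dl h V w = e + 1) :
    KK q z h m ∅ (insert w V) =
      (1 + z) * KK q z h m (V.filter (fun u => Adj h u w)) V +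
        q * qi q e * KK q z h m ∅ V := by
  classical
  have hmw : m ≠ w := (hw m hmV).ne
  have hwV : w ∉ V := fun h1 => lt_irrefl _ (hw w h1)
  unfold KK
  rw [erase_insert_of_ne (Ne.symm hmw), sum_filter, sum_filter, sum_filter,
    sum_powerset_insert (fun h1 => hwV (mem_of_mem_erase h1)), mul_sum, mul_sum]
  rw [← sum_add_distrib, ← sum_add_distrib]
  apply sum_congr rfl
  intro S hS
  have hSV : S ⊆ V := (mem_powerset.1 hS).trans (erase_subset _ _)
  have hwS : w ∉ S := fun h1 => hwV (hSV h1)
  have hwVS : w ∉ V \ S := fun h1 => hwV (sdiff_subset h1)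
  have hst2 := stable_insert_max (h := h) hw hSV
  have h7 : (insert w V) \ (insert w S) = V \ S := by
    rw [insert_sdiff_insert, sdiff_insert_of_notMem hwV]
  rw [insert_sdiff_of_notMem _ hwS, tm_insert q (fun b hb => hw b (sdiff_subset hb)) hmw,
    cross_insert_right hwVS, h7, cross_insert_left_max (fun s hs => hw s (sdiff_subset hs)),
    card_insert_of_notMem hwS]
  by_cases hst : Stable h S
  · rcases dl_cases hh he hSV hst with ⟨h1, h2, h3⟩ | ⟨h1, h2, h3⟩
    · rw [if_pos ⟨hst, disjoint_empty_right _⟩, if_pos ⟨hst2.2 ⟨hst, h1⟩, disjoint_empty_right _⟩,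
        if_pos ⟨hst, h1⟩, if_pos ⟨hst, disjoint_empty_right _⟩, h3, h2, qi_succ']
      ring
    · rw [if_pos ⟨hst, disjoint_empty_right _⟩, if_neg (fun h6 => h1 (hst2.1 h6.1).2),
        if_neg (fun h6 => h1 h6.2), if_pos ⟨hst, disjoint_empty_right _⟩, h3, h2]
      ring
  · rw [if_neg (fun h6 => hst h6.1), if_neg (fun h6 => hst (hst2.1 h6.1).1),
      if_neg (fun h6 => hst h6.1), if_neg (fun h6 => hst h6.1)]
    ring

/-- no left neighbour. -/
theorem GG_step00 (hmV : m ∈ V) (hw : ∀ v ∈ V, v < w) (he : dl h V w = 0) :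
    GG q z h m ∅ (insert w V) = z * GG q z h m ∅ V ∧
    KK q z h m ∅ (insert w V) = z * KK q z h m ∅ V ∧
    (∀ C, C ⊆ V.filter (fun u => Adj h u w) → GG q z h m (insert w C) (insert w V) = 0 ∧
      KK q z h m (insert w C) (insert w V) = 0) := by
  classical
  have hmw : m ≠ w := (hw m hmV).ne
  have hwV : w ∉ V := fun h1 => lt_irrefl _ (hw w h1)
  have hD : V.filter (fun u => Adj h u w) = ∅ := card_eq_zero.1 he
  have hB : ∀ S ⊆ V, dl h S w = 0 := by
    intro S hS
    have := dl_sdiff (h := h) hS w
    omega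
  have hts : ∀ S ⊆ V, w ∉ S → tm q h m (insert w V \ S) = 0 := by
    intro S hS hwS
    rw [insert_sdiff_of_notMem _ hwS, tm_insert q (fun b hb => hw b (sdiff_subset hb)) hmw,
      hB _ sdiff_subset, qi_zero, mul_zero]
  have hst3 : ∀ S ⊆ V, (Stable h (insert w S) ↔ Stable h S) := by
    intro S hS
    rw [stable_insert_max (h := h) hw hS, hD]
    exact ⟨fun h1 => h1.1, fun h1 => ⟨h1, disjoint_empty_right _⟩⟩
  have h7 : ∀ S, (insert w V) \ (insert w S) = V \ S := by
    intro S
    rw [insert_sdiff_insert, sdiff_insert_of_notMem hwV]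
  refine ⟨?_, ?_, ?_⟩
  · unfold GG
    rw [erase_insert_of_ne (Ne.symm hmw), sum_filter, sum_filter,
      sum_powerset_insert (fun h1 => hwV (mem_of_mem_erase h1)), mul_sum, ← sum_add_distrib]
    apply sum_congr rfl
    intro S hS
    have hSV : S ⊆ V := (mem_powerset.1 hS).trans (erase_subset _ _)
    have hwS : w ∉ S := fun h1 => hwV (hSV h1)
    rw [hts S hSV hwS, h7, card_insert_of_notMem hwS, cross_insert_right hwS,
      hB _ sdiff_subset]
    by_cases hst : Stable h S
    · rw [if_pos ⟨hst, disjoint_empty_right _⟩,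
        if_pos ⟨(hst3 S hSV).2 hst, disjoint_empty_right _⟩,
        if_pos ⟨hst, disjoint_empty_right _⟩]
      ring
    · rw [if_neg (fun h6 => hst h6.1), if_neg (fun h6 => hst ((hst3 S hSV).1 h6.1)),
        if_neg (fun h6 => hst h6.1)]
      ring
  · unfold KK
    rw [erase_insert_of_ne (Ne.symm hmw), sum_filter, sum_filter,
      sum_powerset_insert (fun h1 => hwV (mem_of_mem_erase h1)), mul_sum, ← sum_add_distrib]
    apply sum_congr rfl
    intro S hS
    have hSV : S ⊆ V := (mem_powerset.1 hS).trans (erase_subset _ _)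
    have hwS : w ∉ S := fun h1 => hwV (hSV h1)
    rw [hts S hSV hwS, h7, card_insert_of_notMem hwS,
      cross_insert_left_max (fun s hs => hw s (sdiff_subset hs))]
    by_cases hst : Stable h S
    · rw [if_pos ⟨hst, disjoint_empty_right _⟩,
        if_pos ⟨(hst3 S hSV).2 hst, disjoint_empty_right _⟩,
        if_pos ⟨hst, disjoint_empty_right _⟩]
      ring
    · rw [if_neg (fun h6 => hst h6.1), if_neg (fun h6 => hst ((hst3 S hSV).1 h6.1)),
        if_neg (fun h6 => hst h6.1)]
      ring
  · intro C hC
    constructor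
    · unfold GG
      apply sum_eq_zero
      intro S hS
      rw [mem_filter, mem_powerset] at hS
      have hwS : w ∉ S := fun h1 => (disjoint_left.1 hS.2.2) h1 (mem_insert_self _ _)
      have hSV : S ⊆ V := fun a ha => by
        rcases mem_insert.1 (mem_of_mem_erase (hS.1 ha)) with h1 | h1
        · exact absurd (h1 ▸ ha) hwS
        · exact h1
      rw [hts S hSV hwS]; ring
    · unfold KK
      apply sum_eq_zero
      intro S hS
      rw [mem_filter, mem_powerset] at hS
      have hwS : w ∉ S := fun h1 => (disjoint_left.1 hS.2.2) h1 (mem_insert_self _ _)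
      have hSV : S ⊆ V := fun a ha => by
        rcases mem_insert.1 (mem_of_mem_erase (hS.1 ha)) with h1 | h1
        · exact absurd (h1 ▸ ha) hwS
        · exact h1
      rw [hts S hSV hwS]; ring

end step

theorem GG_base (q z : A) (h : Fin n → ℕ) (m : Fin n) (C : Finset (Fin n)) :
    GG q z h m C {m} = 1 ∧ KK q z h m C {m} = 1 := by
  classical
  have h1 : (({m} : Finset (Fin n)).erase m).powerset.filter
      (fun S => Stable h S ∧ Disjoint S C) = {∅} := by
    rw [erase_singleton, powerset_empty, filter_singleton, if_pos]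
    exact ⟨fun a ha => absurd ha (notMem_empty a), disjoint_empty_left _⟩
  have h2 : tm q h m ({m} \ ∅) = 1 := by
    rw [sdiff_empty]; unfold tm; rw [erase_singleton, prod_empty]
  constructor
  · unfold GG
    rw [h1, sum_singleton, h2]
    simp [cross]
  · unfold KK
    rw [h1, sum_singleton, h2]
    simp [cross]

/-- `C` is a final clique of `V`. -/
def UC (h : Fin n → ℕ) (C V : Finset (Fin n)) : Prop :=
  C ⊆ V ∧ (∀ a ∈ C, ∀ b ∈ V, a < b → b ∈ C) ∧ (∀ a ∈ C, ∀ b ∈ C, a < b → Adj h a b)

theorem uc_D {h : Fin n → ℕ} (hh : IsHessenberg h) {V : Finset (Fin n)} {w : Fin n}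
    (hw : ∀ v ∈ V, v < w) : UC h (V.filter (fun u => Adj h u w)) V := by
  refine ⟨filter_subset _ _, fun a ha b hb hab => ?_, fun a ha b hb hab => ?_⟩
  · rw [mem_filter] at ha ⊢
    exact ⟨hb, (adj_mid hh ha.2 hab (hw b hb)).2⟩
  · rw [mem_filter] at ha hb
    exact (adj_mid hh ha.2 hab (hw b hb.1)).1

/-- the main lemma. -/
theorem main_lemma (q z : A) {h : Fin n → ℕ} (hh : IsHessenberg h) (m : Fin n) :
    ∀ V : Finset (Fin n), m ∈ V → (∀ a ∈ V, m ≤ a) →
      (∀ C, UC h C V → C.Nonempty →
        (1 + q * z) * (q ^ (C.card - 1) * GG q z h m C V - KK q z h m C V) =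
          (q ^ (C.card - 1) - 1) * GG q z h m ∅ V) ∧
      (1 + z) * GG q z h m ∅ V - (1 + q * z) * KK q z h m ∅ V =
        (if Stable h V then (1 - q) * z ^ V.card else 0) := by
  classical
  intro V
  induction V using Finset.induction_on_max with
  | empty => intro h1; exact absurd h1 (notMem_empty m)
  | insert w V hw ih =>
    intro hm hmin
    by_cases hmV : m ∈ V
    swap
    · -- base case
      have hV : V = ∅ := by
        rw [eq_empty_iff_forall_notMem]
        intro a ha
        have h1 : m = w := by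
          rcases mem_insert.1 hm with h2 | h2
          · exact h2
          · exact absurd h2 hmV
        exact absurd (hw a ha) (not_lt.2 (h1 ▸ hmin a (mem_insert_of_mem ha)))
      subst hV
      have h1 : m = w := by
        rcases mem_insert.1 hm with h2 | h2
        · exact h2
        · exact absurd h2 hmV
      subst h1
      have hs : Stable h (insert m (∅ : Finset (Fin n))) := by
        intro a ha b hb hab
        have e1 : a = m := by simpa using ha
        have e2 : b = m := by simpa using hb
        subst e1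
        subst e2
        exact lt_irrefl _ (adj_lt hab)
      refine ⟨fun C hC hCne => ?_, ?_⟩
      · have hC1 : C = {m} := by
          apply Subset.antisymm
          · simpa using hC.1
          · obtain ⟨a, ha⟩ := hCne
            have e1 : a = m := by simpa using hC.1 ha
            subst e1
            simpa using ha
        subst hC1
        rw [insert_empty_eq, (GG_base q z h m _).1, (GG_base q z h m _).2,
          (GG_base q z h m _).1]
        simp
      · rw [if_pos hs, insert_empty_eq, (GG_base q z h m _).1, (GG_base q z h m _).2]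
        simp
        ring
    · obtain ⟨ih1, ih2⟩ := ih hmV (fun a ha => hmin a (mem_insert_of_mem ha))
      have hwV : w ∉ V := fun h1 => lt_irrefl _ (hw w h1)
      have hmw : m ≠ w := (hw m hmV).ne
      set D := V.filter (fun u => Adj h u w) with hDdef
      have hDc : D.card = dl h V w := rfl
      have hstV := stable_insert_max (h := h) hw (Subset.refl V)
      -- structure of the final cliques
      have hCC : ∀ C, UC h C (insert w V) → C.Nonempty →
          ∃ C', C = insert w C' ∧ w ∉ C' ∧ UC h C' V ∧ C' ⊆ D := by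
        intro C hC hCne
        have hwC : w ∈ C := by
          obtain ⟨a, ha⟩ := hCne
          rcases mem_insert.1 (hC.1 ha) with h1 | h1
          · exact h1 ▸ ha
          · exact hC.2.1 a ha w (mem_insert_self _ _) (hw a h1)
        refine ⟨C.erase w, (insert_erase hwC).symm, notMem_erase _ _, ⟨?_, ?_, ?_⟩, ?_⟩
        · intro a ha
          rcases mem_insert.1 (hC.1 (mem_of_mem_erase ha)) with h1 | h1
          · exact absurd h1 (ne_of_mem_erase ha)
          · exact h1
        · intro a ha b hb hab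
          exact mem_erase.2 ⟨(hw b hb).ne, hC.2.1 a (mem_of_mem_erase ha) b
            (mem_insert_of_mem hb) hab⟩
        · intro a ha b hb hab
          exact hC.2.2 a (mem_of_mem_erase ha) b (mem_of_mem_erase hb) hab
        · intro a ha
          rcases mem_insert.1 (hC.1 (mem_of_mem_erase ha)) with h1 | h1
          · exact absurd h1 (ne_of_mem_erase ha)
          · exact mem_filter.2 ⟨h1, hC.2.2 a (mem_of_mem_erase ha) w hwC (hw a h1)⟩
      rcases Nat.eq_zero_or_pos (dl h V w) with hd | hd
      · -- no left neighbour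
        obtain ⟨g1, g2, g3⟩ := GG_step00 q z hmV hw hd
        refine ⟨fun C hC hCne => ?_, ?_⟩
        · obtain ⟨C', rfl, hwC', _, hC'D⟩ := hCC C hC hCne
          have hC'0 : C' = ∅ := by
            rw [← subset_empty]
            have : D = ∅ := card_eq_zero.1 (hDc.trans hd)
            rw [← this]; exact hC'D
          subst hC'0
          rw [(g3 ∅ (empty_subset _)).1, (g3 ∅ (empty_subset _)).2]
          simp
        · rw [g1, g2]
          have hst : Stable h (insert w V) ↔ Stable h V := by
            rw [hstV]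
            refine ⟨fun h1 => h1.1, fun h1 => ⟨h1, ?_⟩⟩
            have : D = ∅ := card_eq_zero.1 (hDc.trans hd)
            rw [← hDdef, this]; exact disjoint_empty_right _
          rw [card_insert_of_notMem hwV]
          by_cases hs : Stable h V
          · rw [if_pos (hst.2 hs)]
            rw [if_pos hs] at ih2
            linear_combination z * ih2
          · rw [if_neg (fun h1 => hs (hst.1 h1))]
            rw [if_neg hs] at ih2
            linear_combination z * ih2
      · obtain ⟨e, he⟩ : ∃ e, dl h V w = e + 1 := ⟨dl h V w - 1, by omega⟩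
        have hDne : D.Nonempty := card_pos.1 (by omega)
        have hRD := ih1 D (uc_D hh hw) hDne
        rw [hDc, he, Nat.add_sub_cancel] at hRD
        have hqe := qi_mul q e
        -- the error term is killed
        have hrho : qi q e * ((1 + z) * GG q z h m ∅ V - (1 + q * z) * KK q z h m ∅ V) = 0 := by
          rw [ih2]
          by_cases hs : Stable h V
          · have : dl h V w ≤ 1 := dl_le_one hh hs w
            have he0 : e = 0 := by omega
            rw [he0, qi_zero, zero_mul]
          · rw [if_neg hs, mul_zero]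
        refine ⟨fun C hC hCne => ?_, ?_⟩
        · obtain ⟨C', rfl, hwC', hC'V, hC'D⟩ := hCC C hC hCne
          rw [card_insert_of_notMem hwC', Nat.add_sub_cancel,
            GG_step q z hh hmV hw he hC'D, KK_step q z hh hmV hw he hC'D,
            GG_step0 q z hh hmV hw he, ← hDdef]
          rcases C'.eq_empty_or_nonempty with hc | hc
          · subst hc
            rw [card_empty]
            linear_combination hRD + q * hrho - GG q z h m ∅ V * hqe
          · have hRC := ih1 C' hC'V hc
            obtain ⟨c, hc2⟩ : ∃ c, C'.card = c + 1 := ⟨C'.card - 1, by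
              have := card_pos.2 hc; omega⟩
            rw [hc2, Nat.add_sub_cancel] at hRC
            rw [hc2]
            linear_combination hRD + q * qi q e * hRC - GG q z h m ∅ V * hqe
        · rw [GG_step0 q z hh hmV hw he, KK_step0 q z hh hmV hw he, ← hDdef, if_neg]
          · linear_combination (1 + z) * hRD + q * hrho - (1 + z) * GG q z h m ∅ V * hqe
          · intro h1
            have h2 := (hstV.1 h1).2
            obtain ⟨a, ha⟩ := hDne
            exact (disjoint_left.1 h2) (mem_filter.1 ha).1 ha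

end Crest.Agent.R059.FL530
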