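import Crest.Agent.R059.FL530

/-! Row 59: the rooted recursion ("first link") for the chromatic quasisymmetric function.  Part 2: the twisted
convolution algebra. -/

set_option autoImplicit false

open Crest.CombinatoricsR.UnitInterval

namespace Crest.Agent.R059.FL530

open Crest.Agent.R059.Pieri Finset

variable {n : ℕ} {R : Type*} [CommRing R]

theorem qi_map {A B : Type*} [CommRing A] [CommRing B] (f : A →+* B) (q : A) (k : ℕ) :
    qi (f q) k = f (qi q k) := by
  unfold qi; rw [map_sum]; simp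

theorem tm_map {A B : Type*} [CommRing A] [CommRing B] (f : A →+* B) (q : A) (h : Fin n → ℕ)
    (m : Fin n) (V : Finset (Fin n)) : tm (f q) h m V = f (tm q h m V) := by
  unfold tm; rw [map_prod]; apply prod_congr rfl; intro w _; rw [qi_map]

/-- shift of a sequence. -/
def sh (c : ℕ → R) : ℕ → R
  | 0 => 0
  | k + 1 => c k

theorem sh_zero (c : ℕ → R) : sh c 0 = 0 := rfl
theorem sh_succ (c : ℕ → R) (k : ℕ) : sh c (k + 1) = c k := rfl

/-- the coefficientwise form of the commutation. -/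
theorem comm_sum (q y : R) {h : Fin n → ℕ} (hh : IsHessenberg h) {m : Fin n}
    {V : Finset (Fin n)} (hm : m ∈ V) (hmin : ∀ a ∈ V, m ≤ a) (c : ℕ → R) (hc : c 0 = 0) :
    ∑ S ∈ (V.erase m).powerset.filter (fun S => Stable h S),
      y ^ S.card * (tm q h m (V \ S) * (c (V \ S).card *
        (q ^ cross h S (V \ S) - q ^ cross h (V \ S) S))) =
    y * ∑ S ∈ (V.erase m).powerset.filter (fun S => Stable h S),
      y ^ S.card * (tm q h m (V \ S) * (sh c (V \ S).card *
        (q ^ cross h (V \ S) S - q * q ^ cross h S (V \ S)))) := by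
  classical
  have key := (main_lemma (Polynomial.C q) (Polynomial.X : Polynomial R) hh m V hm hmin).2
  have hfil : (V.erase m).powerset.filter (fun S => Stable h S ∧ Disjoint S ∅) =
      (V.erase m).powerset.filter (fun S => Stable h S) := by
    apply filter_congr
    intro S _
    exact ⟨fun h1 => h1.1, fun h1 => ⟨h1, disjoint_empty_right _⟩⟩
  unfold GG KK at key
  rw [hfil] at key
  let φ : Polynomial R →ₗ[R] R :=
    ∑ k ∈ range (V.card + 1), (y ^ k * c (V.card - k)) • Polynomial.lcoeff R k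
  have hφ : ∀ (k : ℕ) (a : R), k ≤ V.card →
      φ (Polynomial.X ^ k * Polynomial.C a) = a * (y ^ k * c (V.card - k)) := by
    intro k a hk
    simp only [φ, LinearMap.sum_apply, LinearMap.smul_apply, Polynomial.lcoeff_apply,
      Polynomial.coeff_mul_C, Polynomial.coeff_X_pow, smul_eq_mul]
    rw [sum_eq_single k]
    · simp; ring
    · intro j _ hj; simp [hj]
    · intro h1; exact absurd (mem_range.2 (by omega)) h1
  have hS : ∀ S ∈ (V.erase m).powerset.filter (fun S => Stable h S),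
      S.card + (V \ S).card = V.card ∧ 1 ≤ (V \ S).card := by
    intro S hS
    rw [mem_filter, mem_powerset] at hS
    have h1 : S ⊆ V := hS.1.trans (erase_subset _ _)
    have h2 := card_sdiff_add_card_eq_card h1
    refine ⟨by omega, card_pos.2 ⟨m, mem_sdiff.2 ⟨hm, fun h3 => ?_⟩⟩⟩
    exact (notMem_erase m V) (hS.1 h3)
  have hrhs : φ (if Stable h V then (1 - Polynomial.C q) * Polynomial.X ^ V.card else 0) = 0 := by
    split_ifs
    · have h1 : (1 - Polynomial.C q) * (Polynomial.X : Polynomial R) ^ V.card =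
          Polynomial.X ^ V.card * Polynomial.C (1 - q) := by
        rw [Polynomial.C_sub, Polynomial.C_1]; ring
      rw [h1, hφ _ _ le_rfl, Nat.sub_self, hc]; ring
    · exact map_zero φ
  have k2 := congrArg φ key
  rw [hrhs] at k2
  have e1 : (1 + (Polynomial.X : Polynomial R)) *
      ∑ S ∈ (V.erase m).powerset.filter (fun S => Stable h S), Polynomial.X ^ S.card *
        (tm (Polynomial.C q) h m (V \ S) * Polynomial.C q ^ cross h (V \ S) S) =
      ∑ S ∈ (V.erase m).powerset.filter (fun S => Stable h S),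
        (Polynomial.X ^ S.card * Polynomial.C (tm q h m (V \ S) * q ^ cross h (V \ S) S) +
        Polynomial.X ^ (S.card + 1) *
          Polynomial.C (tm q h m (V \ S) * q ^ cross h (V \ S) S)) := by
    rw [mul_sum]
    apply sum_congr rfl
    intro S _
    rw [tm_map, Polynomial.C_mul, Polynomial.C_pow]
    ring
  have e2 : (1 + Polynomial.C q * (Polynomial.X : Polynomial R)) *
      ∑ S ∈ (V.erase m).powerset.filter (fun S => Stable h S), Polynomial.X ^ S.card *
        (tm (Polynomial.C q) h m (V \ S) * Polynomial.C q ^ cross h S (V \ S)) =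
      ∑ S ∈ (V.erase m).powerset.filter (fun S => Stable h S),
        (Polynomial.X ^ S.card * Polynomial.C (tm q h m (V \ S) * q ^ cross h S (V \ S)) +
        Polynomial.X ^ (S.card + 1) *
          Polynomial.C (q * (tm q h m (V \ S) * q ^ cross h S (V \ S)))) := by
    rw [mul_sum]
    apply sum_congr rfl
    intro S _
    rw [tm_map, Polynomial.C_mul, Polynomial.C_mul, Polynomial.C_mul, Polynomial.C_pow]
    ring
  rw [e1, e2, map_sub, map_sum, map_sum, ← sum_sub_distrib] at k2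
  rw [← sub_eq_zero, mul_sum, ← sum_sub_distrib, ← neg_eq_zero, ← sum_neg_distrib]
  rw [← k2]
  apply sum_congr rfl
  intro S hS1
  obtain ⟨h1, h2⟩ := hS S hS1
  rw [map_add, map_add, hφ _ _ (by omega), hφ _ _ (by omega), hφ _ _ (by omega),
    hφ _ _ (by omega)]
  have h3 : V.card - S.card = (V \ S).card := by omega
  obtain ⟨j, hj⟩ : ∃ j, (V \ S).card = j + 1 := ⟨(V \ S).card - 1, by omega⟩
  have h4 : V.card - (S.card + 1) = j := by omega
  rw [h3, h4, hj, sh_succ]
  ring

/-! ### twisted convolution -/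

theorem cross_union_left {h : Fin n → ℕ} {B C S : Finset (Fin n)} (hd : Disjoint B C) :
    cross h (B ∪ C) S = cross h B S + cross h C S := by
  classical
  unfold cross
  rw [← card_union_of_disjoint, union_product, filter_union]
  apply disjoint_filter_filter
  rw [disjoint_product]
  exact Or.inl hd

theorem cross_union_right {h : Fin n → ℕ} {B C S : Finset (Fin n)} (hd : Disjoint B C) :
    cross h S (B ∪ C) = cross h S B + cross h S C := by
  classical
  unfold cross
  rw [← card_union_of_disjoint, product_union, filter_union]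
  apply disjoint_filter_filter
  rw [disjoint_product]
  exact Or.inr hd

/-- twisted convolution. -/
def tw (q : R) (h : Fin n → ℕ) (f g : Finset (Fin n) → R) (V : Finset (Fin n)) : R :=
  ∑ U ∈ V.powerset, q ^ cross h U (V \ U) * (f U * g (V \ U))

theorem tw_compl (q : R) (h : Fin n → ℕ) (f g : Finset (Fin n) → R) (V : Finset (Fin n)) :
    tw q h f g V = ∑ S ∈ V.powerset, q ^ cross h (V \ S) S * (f (V \ S) * g S) := by
  classical
  unfold tw
  apply sum_bij' (fun U _ => V \ U) (fun U _ => V \ U)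
  · intro U _; exact mem_powerset.2 sdiff_subset
  · intro U _; exact mem_powerset.2 sdiff_subset
  · intro U hU; exact Finset.sdiff_sdiff_eq_self (mem_powerset.1 hU)
  · intro U hU; exact Finset.sdiff_sdiff_eq_self (mem_powerset.1 hU)
  · intro U hU
    rw [Finset.sdiff_sdiff_eq_self (mem_powerset.1 hU)]

theorem tw_assoc (q : R) (h : Fin n → ℕ) (f g k : Finset (Fin n) → R) :
    tw q h (tw q h f g) k = tw q h f (tw q h g k) := by
  classical
  funext V
  unfold tw
  have e1 : ∀ U ∈ V.powerset, q ^ cross h U (V \ U) *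
      ((∑ W ∈ U.powerset, q ^ cross h W (U \ W) * (f W * g (U \ W))) * k (V \ U)) =
      ∑ W ∈ U.powerset, q ^ cross h U (V \ U) *
        (q ^ cross h W (U \ W) * (f W * g (U \ W)) * k (V \ U)) := by
    intro U _
    rw [sum_mul, mul_sum]
  have e2 : ∀ W ∈ V.powerset, q ^ cross h W (V \ W) *
      (f W * ∑ T ∈ (V \ W).powerset, q ^ cross h T ((V \ W) \ T) * (g T * k ((V \ W) \ T))) =
      ∑ T ∈ (V \ W).powerset, q ^ cross h W (V \ W) *
        (f W * (q ^ cross h T ((V \ W) \ T) * (g T * k ((V \ W) \ T)))) := by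
    intro W _
    rw [mul_sum, mul_sum]
  rw [sum_congr rfl e1, sum_congr rfl e2, sum_sigma', sum_sigma']
  apply sum_bij' (fun (p : (_ : Finset (Fin n)) × Finset (Fin n)) _ =>
      (⟨p.2, p.1 \ p.2⟩ : (_ : Finset (Fin n)) × Finset (Fin n)))
    (fun (p : (_ : Finset (Fin n)) × Finset (Fin n)) _ =>
      (⟨p.1 ∪ p.2, p.1⟩ : (_ : Finset (Fin n)) × Finset (Fin n)))
  · rintro ⟨U, W⟩ hp
    simp only [mem_sigma, mem_powerset] at hp ⊢
    exact ⟨hp.2.trans hp.1, sdiff_subset_sdiff hp.1 (Subset.refl _)⟩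
  · rintro ⟨W, T⟩ hp
    simp only [mem_sigma, mem_powerset] at hp ⊢
    exact ⟨union_subset hp.1 (hp.2.trans sdiff_subset), subset_union_left⟩
  · rintro ⟨U, W⟩ hp
    simp only [mem_sigma, mem_powerset] at hp
    simp only [union_sdiff_of_subset hp.2]
  · rintro ⟨W, T⟩ hp
    simp only [mem_sigma, mem_powerset] at hp
    have hd : Disjoint W T := disjoint_of_subset_right hp.2 disjoint_sdiff
    simp only [union_sdiff_cancel_left hd]
  · rintro ⟨U, W⟩ hp
    simp only [mem_sigma, mem_powerset] at hp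
    obtain ⟨hU, hW⟩ := hp
    have h1 : (V \ W) \ (U \ W) = V \ U := by
      ext a
      simp only [mem_sdiff]
      constructor
      · rintro ⟨⟨h1, h2⟩, h3⟩
        exact ⟨h1, fun h4 => h3 ⟨h4, h2⟩⟩
      · rintro ⟨h1, h2⟩
        exact ⟨⟨h1, fun h3 => h2 (hW h3)⟩, fun h3 => h2 h3.1⟩
    have h2 : V \ W = (U \ W) ∪ (V \ U) := by
      ext a
      simp only [mem_sdiff, mem_union]
      constructor
      · rintro ⟨h1, h2⟩
        by_cases h3 : a ∈ U
        · exact Or.inl ⟨h3, h2⟩
        · exact Or.inr ⟨h1, h3⟩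
      · rintro (⟨h1, h2⟩ | ⟨h1, h2⟩)
        · exact ⟨hU h1, h2⟩
        · exact ⟨h1, fun h3 => h2 (hW h3)⟩
    have hd1 : Disjoint (U \ W) (V \ U) :=
      disjoint_of_subset_left sdiff_subset disjoint_sdiff
    have h3 : cross h U (V \ U) = cross h W (V \ U) + cross h (U \ W) (V \ U) := by
      conv_lhs => rw [← union_sdiff_of_subset hW]
      rw [cross_union_left disjoint_sdiff]
      rw [union_sdiff_of_subset hW]
    have h4 : cross h W (V \ W) = cross h W (U \ W) + cross h W (V \ U) := by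
      rw [h2, cross_union_right hd1]
    simp only [h1, h3, h4, pow_add]
    ring

theorem tw_add_left (q : R) (h : Fin n → ℕ) (f f' g : Finset (Fin n) → R) :
    tw q h (f + f') g = tw q h f g + tw q h f' g := by
  funext V
  simp only [tw, Pi.add_apply, ← sum_add_distrib]
  apply sum_congr rfl
  intro U _
  ring

theorem tw_add_right (q : R) (h : Fin n → ℕ) (f g g' : Finset (Fin n) → R) :
    tw q h f (g + g') = tw q h f g + tw q h f g' := by
  funext V
  simp only [tw, Pi.add_apply, ← sum_add_distrib]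
  apply sum_congr rfl
  intro U _
  ring

theorem tw_smul_left (q : R) (h : Fin n → ℕ) (r : R) (f g : Finset (Fin n) → R) :
    tw q h (r • f) g = r • tw q h f g := by
  funext V
  simp only [tw, Pi.smul_apply, smul_eq_mul, mul_sum]
  apply sum_congr rfl
  intro U _
  ring

theorem tw_smul_right (q : R) (h : Fin n → ℕ) (r : R) (f g : Finset (Fin n) → R) :
    tw q h f (r • g) = r • tw q h f g := by
  funext V
  simp only [tw, Pi.smul_apply, smul_eq_mul, mul_sum]
  apply sum_congr rfl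
  intro U _
  ring

/-- the unit. -/
def one' : Finset (Fin n) → R := fun V => if V = ∅ then 1 else 0

theorem one_tw (q : R) (h : Fin n → ℕ) (f : Finset (Fin n) → R) : tw q h one' f = f := by
  classical
  funext V
  unfold tw one'
  rw [sum_eq_single ∅]
  · simp [cross]
  · intro U _ hU; rw [if_neg hU]; ring
  · intro h1; exact absurd (empty_mem_powerset V) h1

theorem tw_one (q : R) (h : Fin n → ℕ) (f : Finset (Fin n) → R) : tw q h f one' = f := by
  classical
  funext V
  rw [tw_compl]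
  unfold one'
  rw [sum_eq_single ∅]
  · simp [cross]
  · intro U _ hU; rw [if_neg hU]; ring
  · intro h1; exact absurd (empty_mem_powerset V) h1

/-! ### the functions -/

/-- stable sets to the right of `m`. -/
noncomputable def Hs (h : Fin n → ℕ) (m : Fin n) (y : R) (S : Finset (Fin n)) : R :=
  if Stable h S ∧ ∀ a ∈ S, m < a then y ^ S.card else 0

/-- stable sets containing `m` as least element. -/
noncomputable def Hm (h : Fin n → ℕ) (m : Fin n) (y : R) (S : Finset (Fin n)) : R :=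
  if Stable h S ∧ m ∈ S ∧ ∀ a ∈ S, m ≤ a then y ^ S.card else 0

/-- blocks containing `m` as least element. -/
noncomputable def Qf (q : R) (h : Fin n → ℕ) (m : Fin n) (c : ℕ → R) (B : Finset (Fin n)) : R :=
  if m ∈ B ∧ ∀ a ∈ B, m ≤ a then c B.card * tm q h m B else 0

theorem Hs_pos {h : Fin n → ℕ} {m : Fin n} (y : R) {S : Finset (Fin n)}
    (H : Stable h S ∧ ∀ a ∈ S, m < a) : Hs h m y S = y ^ S.card := if_pos H

theorem Hs_neg {h : Fin n → ℕ} {m : Fin n} (y : R) {S : Finset (Fin n)}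
    (H : ¬ (Stable h S ∧ ∀ a ∈ S, m < a)) : Hs h m y S = 0 := if_neg H

theorem Hm_pos {h : Fin n → ℕ} {m : Fin n} (y : R) {S : Finset (Fin n)}
    (H : Stable h S ∧ m ∈ S ∧ ∀ a ∈ S, m ≤ a) : Hm h m y S = y ^ S.card := if_pos H

theorem Hm_neg {h : Fin n → ℕ} {m : Fin n} (y : R) {S : Finset (Fin n)}
    (H : ¬ (Stable h S ∧ m ∈ S ∧ ∀ a ∈ S, m ≤ a)) : Hm h m y S = 0 := if_neg H

theorem Qf_pos (q : R) (h : Fin n → ℕ) {m : Fin n} (c : ℕ → R) {B : Finset (Fin n)}
    (H : m ∈ B ∧ ∀ a ∈ B, m ≤ a) : Qf q h m c B = c B.card * tm q h m B := if_pos H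

theorem Qf_neg (q : R) (h : Fin n → ℕ) {m : Fin n} (c : ℕ → R) {B : Finset (Fin n)}
    (H : ¬ (m ∈ B ∧ ∀ a ∈ B, m ≤ a)) : Qf q h m c B = 0 := if_neg H

theorem Qf_add (q : R) (h : Fin n → ℕ) (m : Fin n) (c d : ℕ → R) :
    Qf q h m (c + d) = Qf q h m c + Qf q h m d := by
  funext B
  simp only [Qf, Pi.add_apply]
  split_ifs <;> ring

theorem Qf_smul (q : R) (h : Fin n → ℕ) (m : Fin n) (r : R) (c : ℕ → R) :
    Qf q h m (r • c) = r • Qf q h m c := by
  funext B
  simp only [Qf, Pi.smul_apply, smul_eq_mul]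
  split_ifs <;> ring

theorem Qf_congr (q : R) (h : Fin n → ℕ) (m : Fin n) {c d : ℕ → R} (H : ∀ k, 1 ≤ k → c k = d k) :
    Qf q h m c = Qf q h m d := by
  funext B
  simp only [Qf]
  split_ifs with hB
  · rw [H _ (card_pos.2 ⟨m, hB.1⟩)]
  · rfl

/-- the chromatic sum to the right of `m`. -/
noncomputable def Fs (q : R) (x : ℕ → R) (h : Fin n → ℕ) (m : Fin n) (N : ℕ)
    (V : Finset (Fin n)) : R :=
  if ∀ a ∈ V, m < a then chr q x h V N else 0

/-- the chromatic sum of sets with least element `m`. -/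
noncomputable def Fm (q : R) (x : ℕ → R) (h : Fin n → ℕ) (m : Fin n) (N : ℕ)
    (V : Finset (Fin n)) : R :=
  if m ∈ V ∧ ∀ a ∈ V, m ≤ a then chr q x h V N else 0

theorem Fs_pos (q : R) (x : ℕ → R) (h : Fin n → ℕ) {m : Fin n} (N : ℕ) {V : Finset (Fin n)}
    (H : ∀ a ∈ V, m < a) : Fs q x h m N V = chr q x h V N := if_pos H

theorem Fs_neg (q : R) (x : ℕ → R) (h : Fin n → ℕ) {m : Fin n} (N : ℕ) {V : Finset (Fin n)}
    (H : ¬ ∀ a ∈ V, m < a) : Fs q x h m N V = 0 := if_neg H

theorem Fm_pos (q : R) (x : ℕ → R) (h : Fin n → ℕ) {m : Fin n} (N : ℕ) {V : Finset (Fin n)}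
    (H : m ∈ V ∧ ∀ a ∈ V, m ≤ a) : Fm q x h m N V = chr q x h V N := if_pos H

theorem Fm_neg (q : R) (x : ℕ → R) (h : Fin n → ℕ) {m : Fin n} (N : ℕ) {V : Finset (Fin n)}
    (H : ¬ (m ∈ V ∧ ∀ a ∈ V, m ≤ a)) : Fm q x h m N V = 0 := if_neg H

theorem Fs_zero (q : R) (x : ℕ → R) (h : Fin n → ℕ) (m : Fin n) :
    Fs q x h m 0 = one' := by
  classical
  funext V
  unfold Fs one'
  rw [chr_zero]
  by_cases hV : V = ∅
  · subst hV; simp
  · rw [if_neg hV]; split_ifs <;> rfl

theorem Fs_succ (q : R) (x : ℕ → R) (h : Fin n → ℕ) (m : Fin n) (N : ℕ) :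
    Fs q x h m (N + 1) = tw q h (Fs q x h m N) (Hs h m (x N)) := by
  classical
  funext V
  rw [tw_compl]
  by_cases hV : ∀ a ∈ V, m < a
  · rw [Fs_pos _ _ _ _ hV, chr_succ, sum_filter]
    apply sum_congr rfl
    intro S hS
    rw [mem_powerset] at hS
    rw [Fs_pos _ _ _ _ (fun a ha => hV a (sdiff_subset ha))]
    by_cases hst : Stable h S
    · rw [if_pos hst, Hs_pos _ ⟨hst, fun a ha => hV a (hS ha)⟩]; ring
    · rw [if_neg hst, Hs_neg _ (fun h1 => hst h1.1)]; ring
  · rw [Fs_neg _ _ _ _ hV]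
    symm
    apply sum_eq_zero
    intro S hS
    by_cases h1 : ∀ a ∈ S, m < a
    · rw [Fs_neg _ _ _ _ (fun h2 => hV (fun a ha => ?_))]
      · ring
      · by_cases h3 : a ∈ S
        · exact h1 a h3
        · exact h2 a (mem_sdiff.2 ⟨ha, h3⟩)
    · rw [Hs_neg _ (fun h2 => h1 h2.2)]; ring

theorem Fm_zero (q : R) (x : ℕ → R) (h : Fin n → ℕ) (m : Fin n) :
    Fm q x h m 0 = 0 := by
  classical
  funext V
  unfold Fm
  rw [chr_zero]
  split_ifs with h1 h2
  · subst h2; exact absurd h1.1 (notMem_empty _)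
  · rfl
  · rfl

theorem Fm_succ (q : R) (x : ℕ → R) (h : Fin n → ℕ) (m : Fin n) (N : ℕ) :
    Fm q x h m (N + 1) = tw q h (Fm q x h m N) (Hs h m (x N)) +
      tw q h (Fs q x h m N) (Hm h m (x N)) := by
  classical
  funext V
  rw [Pi.add_apply, tw_compl, tw_compl, ← sum_add_distrib]
  by_cases hV : m ∈ V ∧ ∀ a ∈ V, m ≤ a
  · rw [Fm_pos _ _ _ _ hV, chr_succ, sum_filter]
    apply sum_congr rfl
    intro S hS
    rw [mem_powerset] at hS
    by_cases hst : Stable h S
    · rw [if_pos hst]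
      by_cases hmS : m ∈ S
      · rw [Fm_neg _ _ _ _ (fun h1 => (mem_sdiff.1 h1.1).2 hmS),
          Fs_pos _ _ _ _ (fun a ha => lt_of_le_of_ne (hV.2 a (sdiff_subset ha))
            (fun h1 => (mem_sdiff.1 ha).2 (h1 ▸ hmS))),
          Hm_pos _ ⟨hst, hmS, fun a ha => hV.2 a (hS ha)⟩]
        ring
      · rw [Fm_pos _ _ _ _ ⟨mem_sdiff.2 ⟨hV.1, hmS⟩, fun a ha => hV.2 a (sdiff_subset ha)⟩,
          Hs_pos _ ⟨hst, fun a ha => lt_of_le_of_ne (hV.2 a (hS ha)) (fun h1 => hmS (h1 ▸ ha))⟩,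
          Hm_neg _ (fun h1 => hmS h1.2.1)]
        ring
    · rw [if_neg hst, Hs_neg _ (fun h1 => hst h1.1), Hm_neg _ (fun h1 => hst h1.1)]
      ring
  · rw [Fm_neg _ _ _ _ hV]
    symm
    apply sum_eq_zero
    intro S hS
    rw [mem_powerset] at hS
    have z1 : Fm q x h m N (V \ S) * Hs h m (x N) S = 0 := by
      by_cases h1 : m ∈ V \ S ∧ ∀ a ∈ V \ S, m ≤ a
      · rw [Hs_neg _ (fun h2 => hV ⟨sdiff_subset h1.1, fun a ha => ?_⟩), mul_zero]
        by_cases h3 : a ∈ S
        · exact (h2.2 a h3).le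
        · exact h1.2 a (mem_sdiff.2 ⟨ha, h3⟩)
      · rw [Fm_neg _ _ _ _ h1, zero_mul]
    have z2 : Fs q x h m N (V \ S) * Hm h m (x N) S = 0 := by
      by_cases h1 : Stable h S ∧ m ∈ S ∧ ∀ a ∈ S, m ≤ a
      · rw [Fs_neg _ _ _ _ (fun h2 => hV ⟨hS h1.2.1, fun a ha => ?_⟩), zero_mul]
        by_cases h3 : a ∈ S
        · exact h1.2.2 a h3
        · exact (h2 a (mem_sdiff.2 ⟨ha, h3⟩)).le
      · rw [Hm_neg _ h1, mul_zero]
    rw [z1, z2]
    ring

theorem tw_Hs_Qf (q y : R) (h : Fin n → ℕ) (m : Fin n) (c : ℕ → R) (V : Finset (Fin n)) :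
    tw q h (Hs h m y) (Qf q h m c) V = if m ∈ V ∧ ∀ a ∈ V, m ≤ a then
      ∑ S ∈ (V.erase m).powerset.filter (fun S => Stable h S),
        y ^ S.card * (tm q h m (V \ S) * (c (V \ S).card * q ^ cross h S (V \ S))) else 0 := by
  classical
  split_ifs with hV
  · unfold tw
    symm
    rw [sum_filter]
    apply sum_subset_zero_on_sdiff (powerset_mono.2 (erase_subset _ _))
    · intro S hS
      rw [mem_sdiff, mem_powerset, mem_powerset] at hS
      rw [Qf_neg]
      · ring
      · rintro ⟨h1, _⟩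
        exact hS.2 (fun a ha => mem_erase.2 ⟨fun h2 => (mem_sdiff.1 h1).2 (h2 ▸ ha), hS.1 ha⟩)
    · intro S hS
      rw [mem_powerset] at hS
      have hSV : S ⊆ V := hS.trans (erase_subset _ _)
      have hmS : m ∉ S := fun h1 => (notMem_erase m V) (hS h1)
      rw [Qf_pos _ _ _ ⟨mem_sdiff.2 ⟨hV.1, hmS⟩, fun a ha => hV.2 a (sdiff_subset ha)⟩]
      by_cases hst : Stable h S
      · rw [if_pos hst, Hs_pos _ ⟨hst, fun a ha => lt_of_le_of_ne (hV.2 a (hSV ha))
          (fun h1 => hmS (h1 ▸ ha))⟩]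
        ring
      · rw [if_neg hst, Hs_neg _ (fun h1 => hst h1.1)]
        ring
  · unfold tw
    apply sum_eq_zero
    intro S hS
    rw [mem_powerset] at hS
    by_cases h1 : m ∈ V \ S ∧ ∀ a ∈ V \ S, m ≤ a
    · rw [Hs_neg _ (fun h2 => hV ⟨sdiff_subset h1.1, fun a ha => ?_⟩)]
      · ring
      · by_cases h3 : a ∈ S
        · exact (h2.2 a h3).le
        · exact h1.2 a (mem_sdiff.2 ⟨ha, h3⟩)
    · rw [Qf_neg _ _ _ h1]; ring

theorem tw_Qf_Hs (q y : R) (h : Fin n → ℕ) (m : Fin n) (c : ℕ → R) (V : Finset (Fin n)) :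
    tw q h (Qf q h m c) (Hs h m y) V = if m ∈ V ∧ ∀ a ∈ V, m ≤ a then
      ∑ S ∈ (V.erase m).powerset.filter (fun S => Stable h S),
        y ^ S.card * (tm q h m (V \ S) * (c (V \ S).card * q ^ cross h (V \ S) S)) else 0 := by
  classical
  rw [tw_compl]
  split_ifs with hV
  · symm
    rw [sum_filter]
    apply sum_subset_zero_on_sdiff (powerset_mono.2 (erase_subset _ _))
    · intro S hS
      rw [mem_sdiff, mem_powerset, mem_powerset] at hS
      rw [Qf_neg]
      · ring
      · rintro ⟨h1, _⟩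
        exact hS.2 (fun a ha => mem_erase.2 ⟨fun h2 => (mem_sdiff.1 h1).2 (h2 ▸ ha), hS.1 ha⟩)
    · intro S hS
      rw [mem_powerset] at hS
      have hSV : S ⊆ V := hS.trans (erase_subset _ _)
      have hmS : m ∉ S := fun h1 => (notMem_erase m V) (hS h1)
      rw [Qf_pos _ _ _ ⟨mem_sdiff.2 ⟨hV.1, hmS⟩, fun a ha => hV.2 a (sdiff_subset ha)⟩]
      by_cases hst : Stable h S
      · rw [if_pos hst, Hs_pos _ ⟨hst, fun a ha => lt_of_le_of_ne (hV.2 a (hSV ha))
          (fun h1 => hmS (h1 ▸ ha))⟩]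
        ring
      · rw [if_neg hst, Hs_neg _ (fun h1 => hst h1.1)]
        ring
  · apply sum_eq_zero
    intro S hS
    rw [mem_powerset] at hS
    by_cases h1 : m ∈ V \ S ∧ ∀ a ∈ V \ S, m ≤ a
    · rw [Hs_neg _ (fun h2 => hV ⟨sdiff_subset h1.1, fun a ha => ?_⟩)]
      · ring
      · by_cases h3 : a ∈ S
        · exact (h2.2 a h3).le
        · exact h1.2 a (mem_sdiff.2 ⟨ha, h3⟩)
    · rw [Qf_neg _ _ _ h1]; ring

/-- the commutation of a one variable factor with the blocks. -/
theorem comm (q y : R) {h : Fin n → ℕ} (hh : IsHessenberg h) (m : Fin n) (c : ℕ → R)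
    (hc : c 0 = 0) :
    tw q h (Hs h m y) (Qf q h m c) + (q * y) • tw q h (Hs h m y) (Qf q h m (sh c)) =
      tw q h (Qf q h m c) (Hs h m y) + y • tw q h (Qf q h m (sh c)) (Hs h m y) := by
  classical
  funext V
  simp only [Pi.add_apply, Pi.smul_apply, smul_eq_mul, tw_Hs_Qf, tw_Qf_Hs]
  by_cases hV : m ∈ V ∧ ∀ a ∈ V, m ≤ a
  · simp only [if_pos hV]
    have key := comm_sum q y hh hV.1 hV.2 c hc
    have e1 : ∑ S ∈ (V.erase m).powerset.filter (fun S => Stable h S),
        y ^ S.card * (tm q h m (V \ S) * (c (V \ S).card *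
        (q ^ cross h S (V \ S) - q ^ cross h (V \ S) S))) =
        ∑ S ∈ (V.erase m).powerset.filter (fun S => Stable h S),
        y ^ S.card * (tm q h m (V \ S) * (c (V \ S).card * q ^ cross h S (V \ S))) -
        ∑ S ∈ (V.erase m).powerset.filter (fun S => Stable h S),
        y ^ S.card * (tm q h m (V \ S) * (c (V \ S).card * q ^ cross h (V \ S) S)) := by
      rw [← sum_sub_distrib]
      apply sum_congr rfl
      intro S _
      ring
    have e2 : ∑ S ∈ (V.erase m).powerset.filter (fun S => Stable h S),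
        y ^ S.card * (tm q h m (V \ S) * (sh c (V \ S).card *
        (q ^ cross h (V \ S) S - q * q ^ cross h S (V \ S)))) =
        ∑ S ∈ (V.erase m).powerset.filter (fun S => Stable h S),
        y ^ S.card * (tm q h m (V \ S) * (sh c (V \ S).card * q ^ cross h (V \ S) S)) -
        q * ∑ S ∈ (V.erase m).powerset.filter (fun S => Stable h S),
        y ^ S.card * (tm q h m (V \ S) * (sh c (V \ S).card * q ^ cross h S (V \ S))) := by
      rw [mul_sum, ← sum_sub_distrib]
      apply sum_congr rfl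
      intro S _
      ring
    rw [e1, e2] at key
    linear_combination key
  · simp only [if_neg hV]
    ring

/-- `E` as a sequence. -/
def Eq (x : ℕ → R) (N : ℕ) : ℕ → R := fun k => E x N k

/-- `q^k E_k`. -/
def Eqq (q : R) (x : ℕ → R) (N : ℕ) : ℕ → R := fun k => q ^ k * E x N k

theorem Eq_succ (x : ℕ → R) (N : ℕ) : Eq x (N + 1) = Eq x N + x N • sh (Eq x N) := by
  funext k
  cases k with
  | zero => simp [Eq, E_zero, sh]
  | succ k => simp [Eq, sh, E_succ]

theorem Eqq_succ (q : R) (x : ℕ → R) (N : ℕ) :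
    Eqq q x (N + 1) = Eqq q x N + (q * x N) • sh (Eqq q x N) := by
  funext k
  cases k with
  | zero => simp [Eqq, E_zero, sh]
  | succ k => simp [Eqq, sh, E_succ]; ring

theorem sh_add (c d : ℕ → R) : sh (c + d) = sh c + sh d := by
  funext k; cases k <;> simp [sh]

theorem sh_smul (r : R) (c : ℕ → R) : sh (r • c) = r • sh c := by
  funext k; cases k <;> simp [sh]

/-- iterated shift. -/
def shj (j : ℕ) (c : ℕ → R) : ℕ → R := sh^[j] c

theorem shj_zero (c : ℕ → R) : shj 0 c = c := rfl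

theorem shj_succ (j : ℕ) (c : ℕ → R) : shj (j + 1) c = sh (shj j c) :=
  Function.iterate_succ_apply' sh j c

theorem shj_add (j : ℕ) (c d : ℕ → R) : shj j (c + d) = shj j c + shj j d := by
  induction j with
  | zero => rfl
  | succ j ih => rw [shj_succ, ih, sh_add, shj_succ, shj_succ]

theorem shj_smul (j : ℕ) (r : R) (c : ℕ → R) : shj j (r • c) = r • shj j c := by
  induction j with
  | zero => rfl
  | succ j ih => rw [shj_succ, ih, sh_smul, shj_succ]

theorem shj_sh (j : ℕ) (c : ℕ → R) : shj j (sh c) = sh (shj j c) := by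
  induction j with
  | zero => rfl
  | succ j ih => rw [shj_succ, ih, shj_succ]

/-- the shifted commutation with all variables. -/
theorem comm_all (q : R) (x : ℕ → R) {h : Fin n → ℕ} (hh : IsHessenberg h) (m : Fin n) (N : ℕ) :
    ∀ j : ℕ, tw q h (Fs q x h m N) (Qf q h m (shj (j + 1) (Eqq q x N))) =
      tw q h (Qf q h m (shj (j + 1) (Eq x N))) (Fs q x h m N) := by
  induction N with
  | zero =>
    intro j
    rw [Fs_zero, one_tw, tw_one]
    congr 2
    funext k
    cases k with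
    | zero => simp [Eqq, Eq]
    | succ k => simp [Eqq, Eq, E]
  | succ N ih =>
    intro j
    have c1 := comm q (x N) hh m (shj (j + 1) (Eqq q x N)) (by rw [shj_succ]; rfl)
    rw [Fs_succ, Eqq_succ, Eq_succ, shj_add, shj_smul, shj_add, shj_smul, shj_sh, shj_sh,
      Qf_add, Qf_smul, Qf_add, Qf_smul, tw_add_right, tw_smul_right, tw_assoc, tw_assoc,
      ← tw_smul_right, ← tw_add_right, c1, tw_add_right, tw_smul_right, ← tw_assoc, ← tw_assoc,
      ih j, ← shj_succ, ih (j + 1), tw_add_left, tw_smul_left, tw_assoc, tw_assoc,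
      ← shj_succ]

end Crest.Agent.R059.FL530
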