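import Crest.Agent.R059.FM530
import Crest.Agent.R059.Coeffs

/-! Row 59: the rooted recursion ("first link") for the chromatic quasisymmetric function.  Part 3: the recursion. -/

set_option autoImplicit false

open Crest.CombinatoricsR.UnitInterval

namespace Crest.Agent.R059.FL530

open Crest.Agent.R059.Pieri Finset

variable {n : ℕ} {R : Type*} [CommRing R]

theorem tw_sub_left (q : R) (h : Fin n → ℕ) (f f' g : Finset (Fin n) → R) :
    tw q h (f - f') g = tw q h f g - tw q h f' g := by
  funext V
  simp only [tw, Pi.sub_apply, ← sum_sub_distrib]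
  apply sum_congr rfl
  intro U _
  ring

theorem tw_sub_right (q : R) (h : Fin n → ℕ) (f g g' : Finset (Fin n) → R) :
    tw q h f (g - g') = tw q h f g - tw q h f g' := by
  funext V
  simp only [tw, Pi.sub_apply, ← sum_sub_distrib]
  apply sum_congr rfl
  intro U _
  ring

/-- the sequence `0, 1, 0, 0, …`. -/
def d1 : ℕ → R := fun k => if k = 1 then 1 else 0

theorem sum_d1 (q y : R) (h : Fin n → ℕ) {m : Fin n} {V : Finset (Fin n)} (hm : m ∈ V)
    (G : Finset (Fin n) → R) :
    ∑ S ∈ (V.erase m).powerset.filter (fun S => Stable h S),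
      y ^ S.card * (tm q h m (V \ S) * (d1 (V \ S).card * G S)) =
    if Stable h (V.erase m) then y ^ (V.erase m).card * G (V.erase m) else 0 := by
  classical
  rw [sum_filter, sum_eq_single (V.erase m)]
  · have h1 : V \ V.erase m = {m} := by
      rw [sdiff_erase hm]; simp
    rw [h1]
    have h2 : tm q h m {m} = 1 := by unfold tm; rw [erase_singleton, prod_empty]
    rw [h2, card_singleton]
    simp [d1]
  · intro S hS hne
    rw [mem_powerset] at hS
    have hmS : m ∉ S := fun h1 => (notMem_erase m V) (hS h1)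
    have h2 : (V \ S).card ≠ 1 := by
      intro h3
      obtain ⟨a, ha⟩ := card_eq_one.1 h3
      have h4 : m ∈ V \ S := mem_sdiff.2 ⟨hm, hmS⟩
      have h5 : a = m := by rw [ha, mem_singleton] at h4; exact h4.symm
      subst h5
      apply hne
      apply Subset.antisymm hS
      intro b hb
      by_contra h6
      have h7 : b ∈ V \ S := mem_sdiff.2 ⟨mem_of_mem_erase hb, h6⟩
      rw [ha, mem_singleton] at h7
      exact (ne_of_mem_erase hb) h7
    simp [d1, h2]
  · intro h1; exact absurd (mem_powerset.2 (Subset.refl _)) h1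

/-- the one variable case of the recursion. -/
theorem Hm_rel (q y : R) {h : Fin n → ℕ} (hh : IsHessenberg h) (m : Fin n) :
    (q - 1) • Hm h m y = y • (q • tw q h (Hs h m y) (Qf q h m d1) -
      tw q h (Qf q h m d1) (Hs h m y)) := by
  classical
  funext V
  simp only [Pi.smul_apply, Pi.sub_apply, smul_eq_mul, tw_Hs_Qf, tw_Qf_Hs]
  by_cases hV : m ∈ V ∧ ∀ a ∈ V, m ≤ a
  · rw [if_pos hV, if_pos hV, sum_d1 q y h hV.1 (fun S => q ^ cross h S (V \ S)),
      sum_d1 q y h hV.1 (fun S => q ^ cross h (V \ S) S)]
    have h1 : V \ V.erase m = {m} := by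
      rw [sdiff_erase hV.1]; simp
    have h2 : cross h (V.erase m) {m} = 0 := by
      unfold cross
      rw [card_eq_zero, filter_eq_empty_iff]
      rintro ⟨a, b⟩ hab h3
      rw [mem_product, mem_singleton] at hab
      simp only at hab
      obtain ⟨ha, rfl⟩ := hab
      exact absurd (adj_lt h3) (not_lt.2 (hV.2 a (mem_of_mem_erase ha)))
    have hcard : (V.erase m).card + 1 = V.card := card_erase_add_one hV.1
    simp only [h1, h2, pow_zero, mul_one]
    by_cases hst : Stable h (V.erase m)
    · rw [if_pos hst, if_pos hst]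
      have hle : cross h {m} (V.erase m) ≤ 1 := by
        unfold cross
        rw [card_le_one]
        rintro ⟨a, b⟩ h3 ⟨a', b'⟩ h4
        rw [mem_filter, mem_product, mem_singleton] at h3 h4
        simp only at h3 h4
        obtain ⟨⟨rfl, hb⟩, hab⟩ := h3
        obtain ⟨⟨rfl, hb'⟩, hab'⟩ := h4
        by_contra hne
        have hbb : b ≠ b' := fun h5 => hne (by rw [h5])
        rcases lt_or_gt_of_ne hbb with h5 | h5
        · exact hst b hb b' hb' (adj_mid hh hab' (adj_lt hab) h5).2
        · exact hst b' hb' b hb (adj_mid hh hab (adj_lt hab') h5).2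
      have hiff : cross h {m} (V.erase m) = 0 ↔ Stable h V := by
        unfold cross
        rw [card_eq_zero, filter_eq_empty_iff]
        constructor
        · intro H a ha b hb hab
          by_cases ham : a = m
          · subst ham
            refine H (x := (a, b)) ?_ hab
            rw [mem_product, mem_singleton]
            exact ⟨rfl, mem_erase.2 ⟨(adj_lt hab).ne', hb⟩⟩
          · by_cases hbm : b = m
            · subst hbm
              exact absurd (adj_lt hab) (not_lt.2 (hV.2 a ha))
            · exact hst a (mem_erase.2 ⟨ham, ha⟩) b (mem_erase.2 ⟨hbm, hb⟩) hab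
        · rintro H ⟨a, b⟩ hab h3
          rw [mem_product, mem_singleton] at hab
          simp only at hab
          obtain ⟨rfl, hb⟩ := hab
          exact H a hV.1 b (mem_of_mem_erase hb) h3
      by_cases hs : Stable h V
      · rw [Hm_pos _ ⟨hs, hV⟩, hiff.2 hs, ← hcard]
        ring
      · have h5 : cross h {m} (V.erase m) = 1 := by
          have h6 : cross h {m} (V.erase m) ≠ 0 := fun h6 => hs (hiff.1 h6)
          omega
        rw [Hm_neg _ (fun h6 => hs h6.1), h5]
        ring
    · rw [if_neg hst, if_neg hst, Hm_neg _ (fun h3 => hst (fun a ha b hb =>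
        h3.1 a (mem_of_mem_erase ha) b (mem_of_mem_erase hb)))]
      ring
  · rw [if_neg hV, if_neg hV, Hm_neg _ (fun h3 => hV h3.2)]
    ring

/-- the recursion, in the twisted algebra. -/
theorem Fm_eq (q : R) (x : ℕ → R) {h : Fin n → ℕ} (hh : IsHessenberg h) (m : Fin n) (N : ℕ) :
    (q - 1) • Fm q x h m N = tw q h (Fs q x h m N) (Qf q h m (Eqq q x N)) -
      tw q h (Qf q h m (Eq x N)) (Fs q x h m N) := by
  induction N with
  | zero =>
    rw [Fm_zero, Fs_zero, one_tw, tw_one, smul_zero]
    rw [Qf_congr q h m (c := Eqq q x 0) (d := Eq x 0), sub_self]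
    intro k hk
    cases k with
    | zero => omega
    | succ k => simp [Eqq, Eq, E]
  | succ N ih =>
    set y := x N with hy
    set cz : ℕ → R := fun k => if k = 0 then 0 else Eqq q x N k with hcz
    have q1 : Qf q h m (Eqq q x N) = Qf q h m cz := by
      apply Qf_congr
      intro k hk
      rw [hcz]
      simp only
      rw [if_neg (by omega)]
    have q2 : Qf q h m (sh (Eqq q x N)) = Qf q h m (sh cz) + Qf q h m d1 := by
      rw [← Qf_add]
      apply Qf_congr
      intro k hk
      obtain ⟨j, rfl⟩ : ∃ j, k = j + 1 := ⟨k - 1, by omega⟩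
      cases j with
      | zero => simp [sh, hcz, Eqq, E_zero, d1]
      | succ j => simp [sh, hcz, d1]
    have c1 := comm q y hh m cz (by simp [hcz])
    have c2 := comm_all q x hh m N 0
    simp only [shj, Function.iterate_one, zero_add] at c2
    rw [q2] at c2
    have c3 := Hm_rel q y hh m
    -- multiply out
    have d1' := congrArg (fun f => tw q h (Fs q x h m N) f) c1
    have d2' := congrArg (fun f => tw q h f (Hs h m y)) c2
    have d3' := congrArg (fun f => tw q h (Fs q x h m N) f) c3
    have d4' := congrArg (fun f => tw q h f (Hs h m y)) ih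
    simp only [tw_add_left, tw_add_right, tw_smul_left, tw_smul_right, tw_sub_left,
      tw_sub_right, q1] at d1' d2' d3' d4'
    rw [Fm_succ, Fs_succ, Eqq_succ, Eq_succ, Qf_add, Qf_smul, Qf_add, Qf_smul, q1, q2]
    simp only [tw_add_left, tw_add_right, tw_smul_left, tw_smul_right, ← hy]
    simp only [← tw_assoc] at d1' d2' d3' d4' ⊢
    funext V
    have v1 := congrFun d1' V
    have v2 := congrFun d2' V
    have v3 := congrFun d3' V
    have v4 := congrFun d4' V
    simp only [Pi.add_apply, Pi.smul_apply, Pi.sub_apply, smul_eq_mul] at v1 v2 v3 v4 ⊢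
    linear_combination v4 + v3 - v1 - y * v2

/-- **FIRST LINK.**  The rooted recursion of the chromatic sum. -/
theorem first_link (q : R) (x : ℕ → R) {h : Fin n → ℕ} (hh : IsHessenberg h) (N : ℕ)
    {V : Finset (Fin n)} {m : Fin n} (hm : m ∈ V) (hmin : ∀ a ∈ V, m ≤ a) :
    (q - 1) * chr q x h V N = ∑ B ∈ V.powerset.filter (fun B => m ∈ B),
      (q ^ (B.card + cross h (V \ B) B) - q ^ cross h B (V \ B)) * tm q h m B *
        E x N B.card * chr q x h (V \ B) N := by
  classical
  have key := congrFun (Fm_eq q x hh m N) V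
  rw [Pi.smul_apply, Pi.sub_apply, Fm_pos _ _ _ _ ⟨hm, hmin⟩, smul_eq_mul] at key
  rw [key, tw_compl]
  unfold tw
  rw [← sum_sub_distrib, sum_filter]
  apply sum_congr rfl
  intro B hB
  rw [mem_powerset] at hB
  by_cases hmB : m ∈ B
  · rw [if_pos hmB, Fs_pos _ _ _ _ (fun a ha => lt_of_le_of_ne (hmin a (sdiff_subset ha))
      (fun h1 => (mem_sdiff.1 ha).2 (h1 ▸ hmB))),
      Qf_pos _ _ _ ⟨hmB, fun a ha => hmin a (hB ha)⟩,
      Qf_pos _ _ _ ⟨hmB, fun a ha => hmin a (hB ha)⟩]
    simp only [Eqq, Eq, pow_add]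
    ring
  · rw [if_neg hmB, Qf_neg _ _ _ (fun h1 => hmB h1.1), Qf_neg _ _ _ (fun h1 => hmB h1.1)]
    ring

/-- the recursion determines the chromatic sums: any family satisfying it is the chromatic one
(`q - 1` a non zero divisor). -/
theorem eq_chr_of_rec (q : R) (hq : ∀ a b : R, (q - 1) * a = (q - 1) * b → a = b) (x : ℕ → R)
    {h : Fin n → ℕ} (hh : IsHessenberg h) (N : ℕ) (Y : Finset (Fin n) → R) (h0 : Y ∅ = 1)
    (hrec : ∀ (V : Finset (Fin n)) (m : Fin n), m ∈ V → (∀ a ∈ V, m ≤ a) →
      (q - 1) * Y V = ∑ B ∈ V.powerset.filter (fun B => m ∈ B),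
        (q ^ (B.card + cross h (V \ B) B) - q ^ cross h B (V \ B)) * tm q h m B *
          E x N B.card * Y (V \ B)) :
    ∀ V, Y V = chr q x h V N := by
  classical
  have hchr0 : chr q x h ∅ N = 1 := by
    unfold chr
    have h1 : col (∅ : Finset (Fin n)) N = {fun _ => 0} := by
      ext f
      rw [mem_col, mem_singleton]
      constructor
      · rintro ⟨_, h2⟩
        funext v
        exact h2 v (notMem_empty v)
      · rintro rfl
        exact ⟨fun v hv => absurd hv (notMem_empty v), fun _ _ => rfl⟩
    rw [h1, sum_singleton]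
    simp [edg]
  intro V
  induction V using Finset.strongInduction with
  | H V ih =>
    rcases V.eq_empty_or_nonempty with hV | hV
    · subst hV; rw [h0, hchr0]
    · have hm := V.min'_mem hV
      have hmin : ∀ a ∈ V, V.min' hV ≤ a := fun a ha => V.min'_le a ha
      apply hq
      rw [hrec V _ hm hmin, first_link q x hh N hm hmin]
      apply sum_congr rfl
      intro B hB
      rw [mem_filter, mem_powerset] at hB
      rw [ih (V \ B) (sdiff_ssubset hB.1 ⟨_, hB.2⟩)]

/-- the polynomial form, for `chromaticQSym`. -/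
theorem chromatic_of_rec {h : Fin n → ℕ} (hh : IsHessenberg h) (N : ℕ)
    (Y : Finset (Fin n) → MvPolynomial (Fin N) (Polynomial ℤ)) (h0 : Y ∅ = 1)
    (hrec : ∀ (V : Finset (Fin n)) (m : Fin n), m ∈ V → (∀ a ∈ V, m ≤ a) →
      (MvPolynomial.C Polynomial.X - 1) * Y V = ∑ B ∈ V.powerset.filter (fun B => m ∈ B),
        (MvPolynomial.C Polynomial.X ^ (B.card + cross h (V \ B) B) -
          MvPolynomial.C Polynomial.X ^ cross h B (V \ B)) *
          tm (MvPolynomial.C Polynomial.X) h m B *
          MvPolynomial.esymm (Fin N) (Polynomial ℤ) B.card * Y (V \ B)) :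
    chromaticQSym h N = Y Finset.univ := by
  rw [chromatic_eq_chr]
  refine (eq_chr_of_rec (MvPolynomial.C Polynomial.X) ?_ (xv N) hh N Y h0 ?_ Finset.univ).symm
  · intro a b hab
    have h1 : (MvPolynomial.C Polynomial.X - 1 : MvPolynomial (Fin N) (Polynomial ℤ)) =
        MvPolynomial.C (Polynomial.X - 1) := by rw [map_sub, map_one]
    rw [h1] at hab
    refine cancelC ?_ hab
    exact Polynomial.X_sub_C_ne_zero 1
  · intro V m hm hmin
    rw [hrec V m hm hmin]
    simp only [E_xv]

end Crest.Agent.R059.FL530
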