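import Mathlib

/-!
Two finite sets of colours `M`, `B`: the two sums `fs`, `gs` and the relations between them
(q-Serre relations of higher order, in the colour-set model).
-/

set_option autoImplicit false

namespace Crest.Agent.R059.OA530

open Finset

variable {R : Type*} [CommRing R]

/-- number of pairs `a < b`. -/
def inv (A B : Finset ℕ) : ℕ := ((A ×ˢ B).filter (fun p => p.1 < p.2)).card

/-- pair weight. -/
def pw (q : R) (A B : Finset ℕ) : R := if Disjoint A B then q ^ inv A B else 0

/-- Gaussian binomial (Pascal recursion). -/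
def gb (q : R) : ℕ → ℕ → R
  | _, 0 => 1
  | 0, _ + 1 => 0
  | n + 1, k + 1 => q ^ (k + 1) * gb q n (k + 1) + gb q n k

@[simp] theorem gb_zero_right (q : R) (n : ℕ) : gb q n 0 = 1 := by
  cases n <;> rfl

@[simp] theorem gb_zero_succ (q : R) (k : ℕ) : gb q 0 (k + 1) = 0 := rfl

theorem gb_succ_succ (q : R) (n k : ℕ) :
    gb q (n + 1) (k + 1) = q ^ (k + 1) * gb q n (k + 1) + gb q n k := rfl

theorem gb_eq_zero (q : R) : ∀ {n k : ℕ}, n < k → gb q n k = 0
  | 0, 0, h => absurd h (lt_irrefl 0)
  | 0, k + 1, _ => rfl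
  | n + 1, 0, h => absurd h (Nat.not_lt_zero _)
  | n + 1, k + 1, h => by
      rw [gb_succ_succ, gb_eq_zero q (by omega : n < k + 1), gb_eq_zero q (by omega : n < k)]
      simp

@[simp] theorem gb_self (q : R) (n : ℕ) : gb q n n = 1 := by
  induction n with
  | zero => rfl
  | succ n ih => rw [gb_succ_succ, ih, gb_eq_zero q (Nat.lt_succ_self n)]; simp

/-- the other Pascal rule. -/
theorem gb_succ_succ' (q : R) : ∀ (n k : ℕ),
    gb q (n + 1) (k + 1) = gb q n (k + 1) + q ^ (n - k) * gb q n k
  | 0, 0 => by simp [gb_succ_succ]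
  | 0, k + 1 => by rw [gb_succ_succ]; simp
  | n + 1, 0 => by
      have h1 := gb_succ_succ' q n 0
      have h2 : gb q (n + 1 + 1) (0 + 1) = q ^ (0 + 1) * gb q (n + 1) (0 + 1) + gb q (n + 1) 0 :=
        gb_succ_succ q (n + 1) 0
      have h3 : gb q (n + 1) (0 + 1) = q ^ (0 + 1) * gb q n (0 + 1) + gb q n 0 :=
        gb_succ_succ q n 0
      simp only [gb_zero_right, Nat.sub_zero, zero_add, mul_one, pow_one] at *
      rw [h2, h3]
      have h4 : q ^ (n + 1) = q * q ^ n := by ring
      have h5 : gb q n 1 + q ^ n = q * gb q n 1 + 1 := by rw [← h1, h3]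
      rw [h4]
      linear_combination (-q) * h5
  | n + 1, k + 1 => by
      have h1 := gb_succ_succ' q n (k + 1)
      have h1' := gb_succ_succ' q n k
      have h2 := gb_succ_succ q (n + 1) (k + 1)
      have h3 := gb_succ_succ q n (k + 1)
      have h4 := gb_succ_succ q n k
      rcases Nat.lt_or_ge n k with hk | hk
      · rw [gb_eq_zero q (by omega : n + 1 + 1 < k + 1 + 1),
          gb_eq_zero q (by omega : n + 1 < k + 1 + 1), gb_eq_zero q (by omega : n + 1 < k + 1)]
        ring
      · obtain ⟨d, rfl⟩ := Nat.exists_eq_add_of_le hk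
        rcases d with _ | d
        · rw [gb_eq_zero q (by omega : k + 0 + 1 < k + 1 + 1)] at *
          simp only [Nat.add_zero] at *
          rw [gb_self, gb_self]
          simp
        · have e1 : k + (d + 1) + 1 - (k + 1) = d + 1 := by omega
          have e2 : k + (d + 1) - (k + 1) = d := by omega
          have e3 : k + (d + 1) - k = d + 1 := by omega
          rw [e1]
          rw [e2] at h1
          rw [e3] at h1'
          rw [h2]
          have h5 : gb q (k + (d + 1) + 1) (k + 1 + 1) =
            q ^ (k + 1 + 1) * gb q (k + (d + 1)) (k + 1 + 1) + gb q (k + (d + 1)) (k + 1) := h3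
          have h6 : gb q (k + (d + 1) + 1) (k + 1) =
            q ^ (k + 1) * gb q (k + (d + 1)) (k + 1) + gb q (k + (d + 1)) k := h4
          linear_combination (q ^ (k + 1 + 1)) * h1 + h1' - h5 - q ^ (d + 1) * h6

/-! ### the top colour -/

theorem inv_insert_left {N : ℕ} {A B : Finset ℕ} (hB : B ⊆ range N) :
    inv (insert N A) B = inv A B := by
  unfold inv
  congr 1
  ext ⟨a, b⟩
  simp only [mem_filter, mem_product, mem_insert]
  constructor
  · rintro ⟨⟨h1 | h1, h2⟩, h3⟩
    · have := mem_range.1 (hB h2); omega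
    · exact ⟨⟨h1, h2⟩, h3⟩
  · rintro ⟨⟨h1, h2⟩, h3⟩
    exact ⟨⟨Or.inr h1, h2⟩, h3⟩

theorem inv_insert_right {N : ℕ} {A B : Finset ℕ} (hA : A ⊆ range N) (hB : B ⊆ range N) :
    inv A (insert N B) = inv A B + A.card := by
  classical
  unfold inv
  have e : (A ×ˢ insert N B).filter (fun p => p.1 < p.2) =
      ((A ×ˢ B).filter (fun p => p.1 < p.2)) ∪ A.image (fun a => (a, N)) := by
    ext ⟨a, b⟩
    simp only [mem_filter, mem_product, mem_insert, mem_union, mem_image, Prod.mk.injEq]
    constructor
    · rintro ⟨⟨h1, rfl | h2⟩, h3⟩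
      · exact Or.inr ⟨a, h1, rfl, rfl⟩
      · exact Or.inl ⟨⟨h1, h2⟩, h3⟩
    · rintro (⟨⟨h1, h2⟩, h3⟩ | ⟨a', h1, rfl, rfl⟩)
      · exact ⟨⟨h1, Or.inr h2⟩, h3⟩
      · exact ⟨⟨h1, Or.inl rfl⟩, mem_range.1 (hA h1)⟩
  rw [e, card_union_of_disjoint, card_image_of_injective]
  · intro a b hab; exact (Prod.mk.inj hab).1
  · rw [disjoint_left]
    rintro ⟨a, b⟩ h1 h2
    simp only [mem_filter, mem_product, mem_image, Prod.mk.injEq] at h1 h2
    obtain ⟨a', _, _, h3⟩ := h2
    have := mem_range.1 (hB h1.1.2)
    omega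

theorem notMem_of_sub {N : ℕ} {A : Finset ℕ} (hA : A ⊆ range N) : N ∉ A := fun h =>
  absurd (mem_range.1 (hA h)) (lt_irrefl N)

theorem pw_insert_left (q : R) {N : ℕ} {A B : Finset ℕ} (hB : B ⊆ range N) :
    pw q (insert N A) B = pw q A B := by
  unfold pw
  rw [inv_insert_left hB]
  have : Disjoint (insert N A) B ↔ Disjoint A B := by
    rw [disjoint_insert_left]
    exact ⟨fun h => h.2, fun h => ⟨notMem_of_sub hB, h⟩⟩
  simp only [this]

theorem pw_insert_right (q : R) {N : ℕ} {A B : Finset ℕ} (hA : A ⊆ range N)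
    (hB : B ⊆ range N) : pw q A (insert N B) = q ^ A.card * pw q A B := by
  unfold pw
  rw [inv_insert_right hA hB]
  have : Disjoint A (insert N B) ↔ Disjoint A B := by
    rw [disjoint_insert_right]
    exact ⟨fun h => h.2, fun h => ⟨notMem_of_sub hA, h⟩⟩
  simp only [this]
  split_ifs
  · ring
  · ring

theorem pw_insert_both (q : R) {N : ℕ} {A B : Finset ℕ} :
    pw q (insert N A) (insert N B) = 0 := by
  unfold pw
  rw [if_neg]
  intro h
  exact disjoint_left.1 h (mem_insert_self N A) (mem_insert_self N B)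

/-- `∑_{C ⊆ M, |C| = c} q^{inv(M∖C,C)} [C∩B=∅] q^{inv(C,B)}`. -/
def fs (q : R) (M B : Finset ℕ) (c : ℕ) : R :=
  ∑ C ∈ M.powersetCard c, pw q (M \ C) C * pw q C B

/-- `∑_{B' ⊆ B, |B'| = k} [M∩B'=∅] q^{inv(M,B')} q^{inv(B',B∖B')}`. -/
def gs (q : R) (M B : Finset ℕ) (k : ℕ) : R :=
  ∑ B' ∈ B.powersetCard k, pw q M B' * pw q B' (B \ B')

theorem pw_empty_left (q : R) (A : Finset ℕ) : pw q ∅ A = 1 := by
  unfold pw inv; simp

theorem pw_empty_right (q : R) (A : Finset ℕ) : pw q A ∅ = 1 := by
  unfold pw inv; simp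

@[simp] theorem fs_zero (q : R) (M B : Finset ℕ) : fs q M B 0 = 1 := by
  unfold fs
  rw [powersetCard_zero, sum_singleton, pw_empty_left, pw_empty_right, mul_one]

@[simp] theorem gs_zero (q : R) (M B : Finset ℕ) : gs q M B 0 = 1 := by
  unfold gs
  rw [powersetCard_zero, sum_singleton, pw_empty_left, pw_empty_right, mul_one]

theorem fs_eq_zero (q : R) {M B : Finset ℕ} {c : ℕ} (h : M.card < c) : fs q M B c = 0 := by
  unfold fs
  rw [powersetCard_eq_empty.2 h, sum_empty]

theorem gs_eq_zero (q : R) {M B : Finset ℕ} {c : ℕ} (h : B.card < c) : gs q M B c = 0 := by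
  unfold gs
  rw [powersetCard_eq_empty.2 h, sum_empty]

theorem sum_powersetCard_insert {N : ℕ} {M : Finset ℕ} (hM : M ⊆ range N) (c : ℕ)
    (F : Finset ℕ → R) :
    ∑ C ∈ (insert N M).powersetCard (c + 1), F C =
      ∑ C ∈ M.powersetCard (c + 1), F C + ∑ C ∈ M.powersetCard c, F (insert N C) := by
  classical
  have hN := notMem_of_sub hM
  rw [powersetCard_succ_insert hN, sum_union, sum_image]
  · intro C1 h1 C2 h2 h12
    have a1 : N ∉ C1 := fun h => hN ((mem_powersetCard.1 h1).1 h)
    have a2 : N ∉ C2 := fun h => hN ((mem_powersetCard.1 h2).1 h)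
    rw [← erase_insert a1, ← erase_insert a2, h12]
  · rw [disjoint_left]
    intro C h1 h2
    obtain ⟨C', _, rfl⟩ := mem_image.1 h2
    exact hN ((mem_powersetCard.1 h1).1 (mem_insert_self N C'))

theorem insert_sdiff' {N : ℕ} {M C : Finset ℕ} (hM : M ⊆ range N) (hC : C ⊆ M) :
    insert N M \ C = insert N (M \ C) := by
  rw [insert_sdiff_of_notMem]
  exact fun h => notMem_of_sub hM (hC h)

theorem insert_sdiff_insert' {N : ℕ} {M C : Finset ℕ} (hM : M ⊆ range N) :
    insert N M \ insert N C = M \ C := by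
  rw [insert_sdiff_insert, sdiff_insert_of_notMem (notMem_of_sub hM)]

theorem fs_M (q : R) {N : ℕ} {M B : Finset ℕ} (hM : M ⊆ range N) (hB : B ⊆ range N) (c : ℕ) :
    fs q (insert N M) B (c + 1) = fs q M B (c + 1) + q ^ (M.card - c) * fs q M B c := by
  unfold fs
  rw [sum_powersetCard_insert hM, mul_sum]
  congr 1
  · refine sum_congr rfl fun C hC => ?_
    have h1 := (mem_powersetCard.1 hC).1
    rw [insert_sdiff' hM h1, pw_insert_left q (h1.trans hM)]
  · refine sum_congr rfl fun C hC => ?_
    obtain ⟨h1, h2⟩ := mem_powersetCard.1 hC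
    rw [insert_sdiff_insert' hM, pw_insert_left q hB,
      pw_insert_right q (sdiff_subset.trans hM) (h1.trans hM), card_sdiff_of_subset h1, h2]
    ring

theorem fs_B (q : R) {N : ℕ} {M B : Finset ℕ} (hM : M ⊆ range N) (hB : B ⊆ range N) (c : ℕ) :
    fs q M (insert N B) c = q ^ c * fs q M B c := by
  unfold fs
  rw [mul_sum]
  refine sum_congr rfl fun C hC => ?_
  obtain ⟨h1, h2⟩ := mem_powersetCard.1 hC
  rw [pw_insert_right q (h1.trans hM) hB, h2]
  ring

theorem fs_MB (q : R) {N : ℕ} {M B : Finset ℕ} (hM : M ⊆ range N) (hB : B ⊆ range N) (c : ℕ) :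
    fs q (insert N M) (insert N B) c = q ^ c * fs q M B c := by
  rcases c with _ | c
  · simp
  · unfold fs
    rw [sum_powersetCard_insert hM]
    have h0 : ∑ C ∈ M.powersetCard c, pw q (insert N M \ insert N C) (insert N C) *
        pw q (insert N C) (insert N B) = 0 := by
      refine sum_eq_zero fun C _ => ?_
      rw [pw_insert_both, mul_zero]
    rw [h0, add_zero, mul_sum]
    refine sum_congr rfl fun C hC => ?_
    obtain ⟨h1, h2⟩ := mem_powersetCard.1 hC
    rw [insert_sdiff' hM h1, pw_insert_left q (h1.trans hM),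
      pw_insert_right q (h1.trans hM) hB, h2]
    ring

theorem gs_M (q : R) {N : ℕ} {M B : Finset ℕ} (hB : B ⊆ range N) (k : ℕ) :
    gs q (insert N M) B k = gs q M B k := by
  unfold gs
  refine sum_congr rfl fun C hC => ?_
  obtain ⟨h1, h2⟩ := mem_powersetCard.1 hC
  rw [pw_insert_left q (h1.trans hB)]

theorem gs_B (q : R) {N : ℕ} {M B : Finset ℕ} (hM : M ⊆ range N) (hB : B ⊆ range N) (k : ℕ) :
    gs q M (insert N B) (k + 1) = q ^ (k + 1) * gs q M B (k + 1) + q ^ M.card * gs q M B k := by
  unfold gs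
  rw [sum_powersetCard_insert hB, mul_sum, mul_sum]
  congr 1
  · refine sum_congr rfl fun C hC => ?_
    obtain ⟨h1, h2⟩ := mem_powersetCard.1 hC
    rw [insert_sdiff' hB h1, pw_insert_right q (h1.trans hB) (sdiff_subset.trans hB), h2]
    ring
  · refine sum_congr rfl fun C hC => ?_
    obtain ⟨h1, h2⟩ := mem_powersetCard.1 hC
    rw [insert_sdiff_insert' hB, pw_insert_right q hM (h1.trans hB),
      pw_insert_left q (sdiff_subset.trans hB)]
    ring

theorem gs_MB (q : R) {N : ℕ} {M B : Finset ℕ} (hB : B ⊆ range N) (k : ℕ) :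
    gs q (insert N M) (insert N B) k = q ^ k * gs q M B k := by
  rcases k with _ | k
  · simp
  · unfold gs
    rw [sum_powersetCard_insert hB]
    have h0 : ∑ C ∈ B.powersetCard k, pw q (insert N M) (insert N C) *
        pw q (insert N C) (insert N B \ insert N C) = 0 := by
      refine sum_eq_zero fun C _ => ?_
      rw [pw_insert_both, zero_mul]
    rw [h0, add_zero, mul_sum]
    refine sum_congr rfl fun C hC => ?_
    obtain ⟨h1, h2⟩ := mem_powersetCard.1 hC
    rw [insert_sdiff' hB h1, pw_insert_left q (h1.trans hB),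
      pw_insert_right q (h1.trans hB) (sdiff_subset.trans hB), h2]
    ring

/-! ### the relation -/

/-- the Gaussian relation. -/
def Rel (q : R) (m β : ℕ) (F G : ℕ → R) : Prop :=
  ∀ c, F c = ∑ p ∈ antidiagonal c, gb q m p.2 * q ^ ((β - p.1) * p.2) * G p.1

theorem split_succ (T : ℕ → ℕ → R) (c : ℕ) :
    ∑ p ∈ antidiagonal (c + 1), T p.1 p.2 =
      T (c + 1) 0 + ∑ p ∈ antidiagonal c, T p.1 (p.2 + 1) := by
  rw [Finset.Nat.sum_antidiagonal_succ' (f := fun p => T p.1 p.2)]

theorem split_succ' (T : ℕ → ℕ → R) (c : ℕ) :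
    ∑ p ∈ antidiagonal (c + 1), T p.1 p.2 =
      T 0 (c + 1) + ∑ p ∈ antidiagonal c, T (p.1 + 1) p.2 := by
  rw [Finset.Nat.sum_antidiagonal_succ (f := fun p => T p.1 p.2)]

theorem Rel.zero_eq {q : R} {m β : ℕ} {F G : ℕ → R} (H : Rel q m β F G) : F 0 = G 0 := by
  have := H 0
  simpa using this

/-- the top colour goes to `M` (strict side). -/
theorem S1 {q : R} {m β : ℕ} {F G F' : ℕ → R} (H : Rel q m β F G)
    (hG : ∀ k, β < k → G k = 0) (h0 : F' 0 = F 0)
    (hs : ∀ c, F' (c + 1) = F (c + 1) + q ^ (m + β - c) * F c) : Rel q (m + 1) β F' G := by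
  intro c
  rcases c with _ | c
  · rw [h0, H.zero_eq]; simp
  · rw [hs, H (c + 1), H c,
      split_succ (fun k j => gb q m j * q ^ ((β - k) * j) * G k) c,
      split_succ (fun k j => gb q (m + 1) j * q ^ ((β - k) * j) * G k) c, mul_sum,
      add_assoc, ← sum_add_distrib]
    congr 1
    · simp
    · refine sum_congr rfl fun p hp => ?_
      obtain ⟨k, j⟩ := p
      have hp' : k + j = c := mem_antidiagonal.1 hp
      simp only
      rw [gb_succ_succ']
      rcases Nat.lt_or_ge m j with hj | hj
      · rw [gb_eq_zero q hj]; ring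
      rcases Nat.lt_or_ge β k with hk | hk
      · rw [hG k hk]; ring
      have e : (m - j) + (β - k) * (j + 1) = (m + β - c) + (β - k) * j := by
        have : m + β - c = (m - j) + (β - k) := by omega
        rw [this]; ring
      have e' : q ^ (m - j) * q ^ ((β - k) * (j + 1)) =
          q ^ (m + β - c) * q ^ ((β - k) * j) := by rw [← pow_add, ← pow_add, e]
      linear_combination (-(gb q m j * G k)) * e'

/-- the top colour goes to `M` (other side). -/
theorem S2 {q : R} {m μ : ℕ} {G F F' : ℕ → R} (H : Rel q (m + 1) μ G F)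
    (hF : ∀ c, μ < c → F c = 0) (h0 : F' 0 = F 0)
    (hs : ∀ c, F' (c + 1) = F (c + 1) + q ^ (μ - c) * F c) : Rel q m (μ + 1) G F' := by
  intro k
  rcases k with _ | k
  · rw [H.zero_eq]; simp [h0]
  · rw [H (k + 1),
      split_succ (fun c j => gb q (m + 1) j * q ^ ((μ - c) * j) * F c) k]
    have e1 : ∑ p ∈ antidiagonal (k + 1), gb q m p.2 * q ^ ((μ + 1 - p.1) * p.2) * F' p.1 =
        ∑ p ∈ antidiagonal (k + 1), gb q m p.2 * q ^ ((μ + 1 - p.1) * p.2) * F p.1 +
        ∑ p ∈ antidiagonal k, gb q m p.2 * q ^ ((μ - p.1) * p.2) * (q ^ (μ - p.1) * F p.1) := by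
      rw [split_succ' (fun c j => gb q m j * q ^ ((μ + 1 - c) * j) * F' c) k,
        split_succ' (fun c j => gb q m j * q ^ ((μ + 1 - c) * j) * F c) k, add_assoc,
        ← sum_add_distrib, h0]
      congr 1
      refine sum_congr rfl fun p _ => ?_
      rw [hs, show μ + 1 - (p.1 + 1) = μ - p.1 by omega]
      ring
    rw [e1, split_succ (fun c j => gb q m j * q ^ ((μ + 1 - c) * j) * F c) k, add_assoc,
      ← sum_add_distrib]
    congr 1
    · simp
    · refine sum_congr rfl fun p hp => ?_
      obtain ⟨c, j⟩ := p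
      simp only
      rw [gb_succ_succ]
      rcases Nat.lt_or_ge μ c with hk | hk
      · rw [hF c hk]; ring
      have e : q ^ ((μ + 1 - c) * (j + 1)) = q ^ (j + 1) * q ^ ((μ - c) * (j + 1)) := by
        rw [← pow_add]
        congr 1
        have : μ + 1 - c = (μ - c) + 1 := by omega
        rw [this]; ring
      have e' : q ^ ((μ - c) * (j + 1)) = q ^ ((μ - c) * j) * q ^ (μ - c) := by
        rw [← pow_add]; congr 1
      rw [e, e']
      ring

/-- the top colour goes to `B` (strict side). -/
theorem S3 {q : R} {m β : ℕ} {F G F' G' : ℕ → R} (H : Rel q (m + 1) β F G)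
    (hG : ∀ k, β < k → G k = 0) (hF' : ∀ c, F' c = q ^ c * F c) (h0 : G' 0 = G 0)
    (hs : ∀ k, G' (k + 1) = q ^ (k + 1) * G (k + 1) + q ^ (m + 1 + β) * G k) :
    Rel q m (β + 1) F' G' := by
  intro c
  rcases c with _ | c
  · rw [hF', H.zero_eq]; simp [h0]
  · rw [hF', H (c + 1),
      split_succ (fun k j => gb q (m + 1) j * q ^ ((β - k) * j) * G k) c]
    have e1 : ∑ p ∈ antidiagonal (c + 1), gb q m p.2 * q ^ ((β + 1 - p.1) * p.2) * G' p.1 =
        ∑ p ∈ antidiagonal (c + 1), gb q m p.2 * q ^ ((β + 1 - p.1) * p.2) *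
          (q ^ p.1 * G p.1) +
        ∑ p ∈ antidiagonal c, gb q m p.2 * q ^ ((β - p.1) * p.2) *
          (q ^ (m + 1 + β) * G p.1) := by
      rw [split_succ' (fun c j => gb q m j * q ^ ((β + 1 - c) * j) * G' c) c,
        split_succ' (fun c j => gb q m j * q ^ ((β + 1 - c) * j) * (q ^ c * G c)) c, add_assoc,
        ← sum_add_distrib, h0]
      congr 1
      · simp
      refine sum_congr rfl fun p _ => ?_
      rw [hs, show β + 1 - (p.1 + 1) = β - p.1 by omega]
      ring
    rw [e1, split_succ (fun k j => gb q m j * q ^ ((β + 1 - k) * j) * (q ^ k * G k)) c,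
      add_assoc, ← sum_add_distrib, mul_add, mul_sum]
    congr 1
    · simp
    · refine sum_congr rfl fun p hp => ?_
      obtain ⟨k, j⟩ := p
      have hp' : k + j = c := mem_antidiagonal.1 hp
      simp only
      rw [gb_succ_succ']
      rcases Nat.lt_or_ge β k with hk | hk
      · rw [hG k hk]; ring
      have e : q ^ ((β + 1 - k) * (j + 1)) * q ^ k = q ^ (c + 1) * q ^ ((β - k) * (j + 1)) := by
        rw [← pow_add, ← pow_add]
        congr 1
        have : β + 1 - k = (β - k) + 1 := by omega
        rw [this, ← hp']; ring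
      rcases Nat.lt_or_ge m j with hj | hj
      · rw [gb_eq_zero q hj]
        linear_combination (-(gb q m (j + 1) * G k)) * e
      have e' : q ^ (c + 1) * q ^ (m - j) * q ^ ((β - k) * (j + 1)) =
          q ^ ((β - k) * j) * q ^ (m + 1 + β) := by
        rw [← pow_add, ← pow_add, ← pow_add]
        congr 1
        have : m + 1 + β = (c + 1) + (m - j) + (β - k) := by omega
        rw [this]; ring
      linear_combination (-(gb q m (j + 1) * G k)) * e + (gb q m j * G k) * e'

/-- the top colour goes to `B` (other side). -/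
theorem S4 {q : R} {m μ : ℕ} {F G F' G' : ℕ → R} (H : Rel q m μ G F)
    (hF : ∀ c, μ < c → F c = 0) (hF' : ∀ c, F' c = q ^ c * F c) (h0 : G' 0 = G 0)
    (hs : ∀ k, G' (k + 1) = q ^ (k + 1) * G (k + 1) + q ^ μ * G k) :
    Rel q (m + 1) μ G' F' := by
  intro k
  rcases k with _ | k
  · rw [h0, H.zero_eq]; simp [hF']
  · rw [hs, H (k + 1), H k,
      split_succ (fun c j => gb q m j * q ^ ((μ - c) * j) * F c) k,
      split_succ (fun c j => gb q (m + 1) j * q ^ ((μ - c) * j) * F' c) k, mul_add, mul_sum,
      mul_sum, add_assoc, ← sum_add_distrib]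
    congr 1
    · simp [hF']
    · refine sum_congr rfl fun p hp => ?_
      obtain ⟨c, j⟩ := p
      have hp' : c + j = k := mem_antidiagonal.1 hp
      simp only
      rw [gb_succ_succ, hF']
      rcases Nat.lt_or_ge μ c with hk | hk
      · rw [hF c hk]; ring
      have e : q ^ ((μ - c) * (j + 1)) * q ^ c = q ^ μ * q ^ ((μ - c) * j) := by
        rw [← pow_add, ← pow_add]
        congr 1
        have : μ = (μ - c) + c := by omega
        conv_rhs => rw [this]
        have e0 : μ - c + c - c = μ - c := by omega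
        rw [e0]; ring
      have e2 : q ^ (j + 1) * q ^ c = q ^ (k + 1) := by
        rw [← pow_add]; congr 1; omega
      linear_combination (-(gb q m j * F c)) * e -
        (gb q m (j + 1) * q ^ ((μ - c) * (j + 1)) * F c) * e2

/-- the top colour goes to both. -/
theorem S5 {q : R} {m β : ℕ} {F G F' G' : ℕ → R} (H : Rel q m β F G)
    (hG : ∀ k, β < k → G k = 0) (hF' : ∀ c, F' c = q ^ c * F c)
    (hG' : ∀ c, G' c = q ^ c * G c) : Rel q m (β + 1) F' G' := by
  intro c
  rw [hF', H c, mul_sum]
  refine sum_congr rfl fun p hp => ?_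
  obtain ⟨k, j⟩ := p
  have hp' : k + j = c := mem_antidiagonal.1 hp
  simp only
  rw [hG']
  rcases Nat.lt_or_ge β k with hk | hk
  · rw [hG k hk]; ring
  have e : q ^ ((β + 1 - k) * j) * q ^ k = q ^ c * q ^ ((β - k) * j) := by
    rw [← pow_add, ← pow_add]
    congr 1
    have : β + 1 - k = (β - k) + 1 := by omega
    rw [this, ← hp']; ring
  linear_combination (-(gb q m j * G k)) * e

theorem fg_aux (q : R) : ∀ (N : ℕ) (M B : Finset ℕ), M ⊆ range N → B ⊆ range N →
    (∀ m, M.card = m + B.card → Rel q m B.card (fs q M B) (gs q M B)) ∧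
    (∀ m, B.card = m + M.card → Rel q m M.card (gs q M B) (fs q M B)) := by
  intro N
  induction N with
  | zero =>
    intro M B hM hB
    have hM0 : M = ∅ := by simpa using hM
    have hB0 : B = ∅ := by simpa using hB
    subst hM0 hB0
    have key : ∀ m, (0 : ℕ) = m + 0 → ∀ F G : ℕ → R, F 0 = 1 → G 0 = 1 →
        (∀ k, 0 < k → F k = 0) → (∀ k, 0 < k → G k = 0) → Rel q m 0 F G := by
      intro m hm F G h1 h2 h3 h4 c
      have hm0 : m = 0 := by omega
      subst hm0
      rcases c with _ | c
      · simp [h1, h2]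
      · rw [h3 _ (Nat.succ_pos c), split_succ (fun k j => gb q 0 j * q ^ ((0 - k) * j) * G k) c,
          h4 _ (Nat.succ_pos c)]
        simp
    constructor
    · intro m hm
      exact key m (by simpa using hm) _ _ (by simp) (by simp)
        (fun k hk => fs_eq_zero q (by simpa using hk)) (fun k hk => gs_eq_zero q (by simpa using hk))
    · intro m hm
      exact key m (by simpa using hm) _ _ (by simp) (by simp)
        (fun k hk => gs_eq_zero q (by simpa using hk)) (fun k hk => fs_eq_zero q (by simpa using hk))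
  | succ N ih =>
    intro M B hM hB
    -- decompose
    have dec : ∀ A : Finset ℕ, A ⊆ range (N + 1) → (A ⊆ range N) ∨
        (∃ A0, A0 ⊆ range N ∧ A = insert N A0) := by
      intro A hA
      by_cases hN : N ∈ A
      · right
        refine ⟨A.erase N, ?_, (insert_erase hN).symm⟩
        intro a ha
        have h1 := mem_range.1 (hA (mem_of_mem_erase ha))
        have h2 := ne_of_mem_erase ha
        exact mem_range.2 (by omega)
      · left
        intro a ha
        have h1 := mem_range.1 (hA ha)
        have h2 : a ≠ N := fun h => hN (h ▸ ha)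
        exact mem_range.2 (by omega)
    rcases dec M hM with hM' | ⟨M0, hM0, rfl⟩ <;> rcases dec B hB with hB' | ⟨B0, hB0, rfl⟩
    · exact ih M B hM' hB'
    · -- top colour in `B`
      have hc : (insert N B0).card = B0.card + 1 := card_insert_of_notMem (notMem_of_sub hB0)
      obtain ⟨ihA, ihB⟩ := ih M B0 hM' hB0
      have hF0 : ∀ c, M.card < c → fs q M B0 c = 0 := fun c h => fs_eq_zero q h
      have hG0 : ∀ c, B0.card < c → gs q M B0 c = 0 := fun c h => gs_eq_zero q h
      constructor
      · intro m hm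
        rw [hc] at hm ⊢
        refine S3 (ihA (m + 1) (by omega)) hG0 (fs_B q hM' hB0) (by simp) ?_
        intro k
        rw [gs_B q hM' hB0, show m + 1 + B0.card = M.card by omega]
      · intro m hm
        rw [hc] at hm
        rcases m with _ | m
        · -- B0.card + 1 = M.card : use S3 with m = 0
          have h3 : Rel q 0 (B0.card + 1) (fs q M (insert N B0)) (gs q M (insert N B0)) := by
            refine S3 (ihA 1 (by omega)) hG0 (fs_B q hM' hB0) (by simp) ?_
            intro k
            rw [gs_B q hM' hB0, show 0 + 1 + B0.card = M.card by omega]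
          have h4 : ∀ c, fs q M (insert N B0) c = gs q M (insert N B0) c := by
            intro c
            have := h3 c
            rw [this]
            rcases c with _ | c
            · simp
            · rw [split_succ (fun k j => gb q 0 j * q ^ ((B0.card + 1 - k) * j) *
                gs q M (insert N B0) k) c]
              simp
          intro c
          rcases c with _ | c
          · simp
          · rw [split_succ (fun k j => gb q 0 j * q ^ ((M.card - k) * j) *
                fs q M (insert N B0) k) c]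
            simp [h4]
        · exact S4 (ihB m (by omega)) hF0 (fs_B q hM' hB0) (by simp) (gs_B q hM' hB0)
    · -- top colour in `M`
      have hc : (insert N M0).card = M0.card + 1 := card_insert_of_notMem (notMem_of_sub hM0)
      obtain ⟨ihA, ihB⟩ := ih M0 B hM0 hB'
      have hF0 : ∀ c, M0.card < c → fs q M0 B c = 0 := fun c h => fs_eq_zero q h
      have hG0 : ∀ c, B.card < c → gs q M0 B c = 0 := fun c h => gs_eq_zero q h
      have hGe : gs q (insert N M0) B = gs q M0 B := funext fun k => gs_M q hB' k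
      constructor
      · intro m hm
        rw [hc] at hm
        rw [hGe]
        rcases m with _ | m
        · -- M0.card + 1 = B.card
          have h3 : Rel q 0 (M0.card + 1) (gs q M0 B) (fs q (insert N M0) B) :=
            S2 (ihB 1 (by omega)) hF0 (by simp) (fs_M q hM0 hB')
          have h4 : ∀ c, fs q (insert N M0) B c = gs q M0 B c := by
            intro c
            have := h3 c
            rw [this]
            rcases c with _ | c
            · simp
            · rw [split_succ (fun k j => gb q 0 j * q ^ ((M0.card + 1 - k) * j) *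
                fs q (insert N M0) B k) c]
              simp
          intro c
          rcases c with _ | c
          · simp
          · rw [split_succ (fun k j => gb q 0 j * q ^ ((B.card - k) * j) *
                gs q M0 B k) c]
            simp [h4]
        · refine S1 (ihA m (by omega)) hG0 (by simp) ?_
          intro c
          rw [fs_M q hM0 hB', show M0.card = m + B.card by omega]
      · intro m hm
        rw [hc] at hm ⊢
        rw [hGe]
        exact S2 (ihB (m + 1) (by omega)) hF0 (by simp) (fs_M q hM0 hB')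
    · -- top colour in both
      have hcM : (insert N M0).card = M0.card + 1 := card_insert_of_notMem (notMem_of_sub hM0)
      have hcB : (insert N B0).card = B0.card + 1 := card_insert_of_notMem (notMem_of_sub hB0)
      obtain ⟨ihA, ihB⟩ := ih M0 B0 hM0 hB0
      have hF0 : ∀ c, M0.card < c → fs q M0 B0 c = 0 := fun c h => fs_eq_zero q h
      have hG0 : ∀ c, B0.card < c → gs q M0 B0 c = 0 := fun c h => gs_eq_zero q h
      constructor
      · intro m hm
        rw [hcM, hcB] at hm
        rw [hcB]
        exact S5 (ihA m (by omega)) hG0 (fs_MB q hM0 hB0) (gs_MB q hB0)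
      · intro m hm
        rw [hcM, hcB] at hm
        rw [hcM]
        exact S5 (ihB m (by omega)) hF0 (gs_MB q hB0) (fs_MB q hM0 hB0)

/-- **colour-set relation, I**: `|B| ≤ |M|`. -/
theorem fs_eq (q : R) (M B : Finset ℕ) {m : ℕ} (h : M.card = m + B.card) (c : ℕ) :
    fs q M B c = ∑ p ∈ antidiagonal c, gb q m p.2 * q ^ ((B.card - p.1) * p.2) * gs q M B p.1 := by
  obtain ⟨N, hN⟩ : ∃ N, M ∪ B ⊆ range N := by
    obtain ⟨N, hN⟩ := (M ∪ B).exists_nat_subset_range
    exact ⟨N, hN⟩
  exact (fg_aux q N M B (subset_union_left.trans hN) (subset_union_right.trans hN)).1 m h c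

/-- **colour-set relation, II**: `|M| ≤ |B|`. -/
theorem gs_eq (q : R) (M B : Finset ℕ) {m : ℕ} (h : B.card = m + M.card) (c : ℕ) :
    gs q M B c = ∑ p ∈ antidiagonal c, gb q m p.2 * q ^ ((M.card - p.1) * p.2) * fs q M B p.1 := by
  obtain ⟨N, hN⟩ : ∃ N, M ∪ B ⊆ range N := by
    obtain ⟨N, hN⟩ := (M ∪ B).exists_nat_subset_range
    exact ⟨N, hN⟩
  exact (fg_aux q N M B (subset_union_left.trans hN) (subset_union_right.trans hN)).2 m h c

end Crest.Agent.R059.OA530
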