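import Crest.Agent.R059.OA530

/-!
Divided power operators `E_l^{(a)}` of `U_q^+(sl_∞)` in the colour-set model: `op`, words `wop`,
twisted trace `Tr`; relations: commutation, twins, almost twins (both arms), rotation, decoupling.
-/

set_option autoImplicit false

namespace Crest.Agent.R059.OA530

open Finset

variable {R : Type*} [CommRing R]

/-! ### calculus of the pair weight -/

theorem inv_union_left {U V B : Finset ℕ} (h : Disjoint U V) :
    inv (U ∪ V) B = inv U B + inv V B := by
  unfold inv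
  rw [union_product, filter_union, card_union_of_disjoint]
  rw [disjoint_left]
  rintro ⟨a, b⟩ h1 h2
  simp only [mem_filter, mem_product] at h1 h2
  exact disjoint_left.1 h h1.1.1 h2.1.1

theorem inv_union_right {U V B : Finset ℕ} (h : Disjoint U V) :
    inv B (U ∪ V) = inv B U + inv B V := by
  unfold inv
  rw [product_union, filter_union, card_union_of_disjoint]
  rw [disjoint_left]
  rintro ⟨a, b⟩ h1 h2
  simp only [mem_filter, mem_product] at h1 h2
  exact disjoint_left.1 h h1.1.2 h2.1.2

theorem pw_union_left (q : R) {U V B : Finset ℕ} (h : Disjoint U V) :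
    pw q (U ∪ V) B = pw q U B * pw q V B := by
  unfold pw
  rw [inv_union_left h]
  by_cases h1 : Disjoint U B <;> by_cases h2 : Disjoint V B
  · rw [if_pos h1, if_pos h2, if_pos (disjoint_union_left.2 ⟨h1, h2⟩), pow_add]
  · rw [if_neg h2, if_neg (fun h => h2 (disjoint_union_left.1 h).2), mul_zero]
  · rw [if_neg h1, if_neg (fun h => h1 (disjoint_union_left.1 h).1), zero_mul]
  · rw [if_neg h1, if_neg (fun h => h1 (disjoint_union_left.1 h).1), zero_mul]

theorem pw_union_right (q : R) {U V B : Finset ℕ} (h : Disjoint U V) :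
    pw q B (U ∪ V) = pw q B U * pw q B V := by
  unfold pw
  rw [inv_union_right h]
  by_cases h1 : Disjoint B U <;> by_cases h2 : Disjoint B V
  · rw [if_pos h1, if_pos h2, if_pos (disjoint_union_right.2 ⟨h1, h2⟩), pow_add]
  · rw [if_neg h2, if_neg (fun h => h2 (disjoint_union_right.1 h).2), mul_zero]
  · rw [if_neg h1, if_neg (fun h => h1 (disjoint_union_right.1 h).1), zero_mul]
  · rw [if_neg h1, if_neg (fun h => h1 (disjoint_union_right.1 h).1), zero_mul]

theorem pw_zero_of (q : R) {U V : Finset ℕ} (h : ¬ Disjoint U V) : pw q U V = 0 := if_neg h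

/-- `A` first, then `C` (same class `U`), left slot. -/
theorem pwL (q : R) (U A B : Finset ℕ) :
    pw q U A * pw q (U ∪ A) B = pw q U A * (pw q U B * pw q A B) := by
  by_cases h : Disjoint U A
  · rw [pw_union_left q h]
  · rw [pw_zero_of q h]; ring

theorem pwL' (q : R) (U A B : Finset ℕ) :
    pw q A U * pw q (U ∪ A) B = pw q A U * (pw q U B * pw q A B) := by
  by_cases h : Disjoint U A
  · rw [pw_union_left q h]
  · rw [pw_zero_of q (fun h' => h h'.symm)]; ring

theorem pwR (q : R) (U A B : Finset ℕ) :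
    pw q U A * pw q B (U ∪ A) = pw q U A * (pw q B U * pw q B A) := by
  by_cases h : Disjoint U A
  · rw [pw_union_right q h]
  · rw [pw_zero_of q h]; ring

theorem pwR' (q : R) (U A B : Finset ℕ) :
    pw q A U * pw q B (U ∪ A) = pw q A U * (pw q B U * pw q B A) := by
  by_cases h : Disjoint U A
  · rw [pw_union_right q h]
  · rw [pw_zero_of q (fun h' => h h'.symm)]; ring

/-- monomial of a colour set. -/
def xm (x : ℕ → R) (A : Finset ℕ) : R := ∏ i ∈ A, x i

theorem xm_union (x : ℕ → R) {A B : Finset ℕ} (h : Disjoint A B) :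
    xm x (A ∪ B) = xm x A * xm x B := by
  unfold xm; rw [prod_union h]

/-- contexts. -/
abbrev Ctx := ℤ → Finset ℕ

/-- add colours at level `l`. -/
def addc (c : Ctx) (l : ℤ) (A : Finset ℕ) : Ctx := Function.update c l (c l ∪ A)

@[simp] theorem addc_same (c : Ctx) (l : ℤ) (A : Finset ℕ) : addc c l A l = c l ∪ A := by
  unfold addc; simp

theorem addc_of_ne (c : Ctx) {l m : ℤ} (h : m ≠ l) (A : Finset ℕ) : addc c l A m = c m := by
  unfold addc; simp [Function.update, h]

theorem addc_comm (c : Ctx) (l m : ℤ) (A B : Finset ℕ) :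
    addc (addc c l A) m B = addc (addc c m B) l A := by
  by_cases h : l = m
  · subst h
    funext k
    by_cases hk : k = l
    · subst hk; simp only [addc_same]
      rw [union_assoc, union_assoc, union_comm A B]
    · rw [addc_of_ne _ hk, addc_of_ne _ hk, addc_of_ne _ hk, addc_of_ne _ hk]
  · funext k
    by_cases hk : k = l
    · subst hk
      rw [addc_of_ne _ h, addc_same, addc_same, addc_of_ne _ h]
    · by_cases hk' : k = m
      · subst hk'
        rw [addc_same, addc_of_ne _ hk, addc_of_ne _ hk, addc_same]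
      · rw [addc_of_ne _ hk', addc_of_ne _ hk, addc_of_ne _ hk, addc_of_ne _ hk']

theorem addc_addc (c : Ctx) (l : ℤ) (A B : Finset ℕ) :
    addc (addc c l A) l B = addc c l (A ∪ B) := by
  funext k
  by_cases hk : k = l
  · subst hk; simp only [addc_same]; rw [union_assoc]
  · rw [addc_of_ne _ hk, addc_of_ne _ hk, addc_of_ne _ hk]

/-- divided power operator `E_l^{(a)}`: the new colour set `A` (`|A| = a`) is disjoint from, and
smaller than, the class `l`; it is disjoint from, and larger than, the class `l - 1`. -/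
def op (q : R) (x : ℕ → R) (N : ℕ) (l : ℤ) (a : ℕ) (F : Ctx → R) (c : Ctx) : R :=
  ∑ A ∈ (range N).powersetCard a,
    pw q A (c l) * pw q (c (l - 1)) A * xm x A * F (addc c l A)

/-- word operator. -/
def wop (q : R) (x : ℕ → R) (N : ℕ) : List (ℤ × ℕ) → (Ctx → R) → Ctx → R
  | [], F => F
  | (l, a) :: L, F => op q x N l a (wop q x N L F)

/-- twisted trace. -/
def Tr (q : R) (x : ℕ → R) (N : ℕ) (L : List (ℤ × ℕ)) : R :=
  wop q x N L (fun _ => 1) (fun _ => ∅)

variable (q : R) (x : ℕ → R) (N : ℕ)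

@[simp] theorem wop_nil (F : Ctx → R) : wop q x N [] F = F := rfl

@[simp] theorem wop_cons (l : ℤ) (a : ℕ) (L : List (ℤ × ℕ)) (F : Ctx → R) :
    wop q x N ((l, a) :: L) F = op q x N l a (wop q x N L F) := rfl

theorem wop_append (L1 L2 : List (ℤ × ℕ)) (F : Ctx → R) :
    wop q x N (L1 ++ L2) F = wop q x N L1 (wop q x N L2 F) := by
  induction L1 with
  | nil => rfl
  | cons p L ih => obtain ⟨l, a⟩ := p; simp only [List.cons_append, wop_cons, ih]

theorem op_sum {ι : Type*} (s : Finset ι) (l : ℤ) (a : ℕ) (r : ι → R) (F : ι → Ctx → R) :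
    op q x N l a (fun c => ∑ i ∈ s, r i * F i c) =
      fun c => ∑ i ∈ s, r i * op q x N l a (F i) c := by
  funext c
  unfold op
  simp only [mul_sum]
  rw [sum_comm]
  refine sum_congr rfl fun i _ => sum_congr rfl fun A _ => ?_
  ring

theorem wop_sum {ι : Type*} (s : Finset ι) (L : List (ℤ × ℕ)) (r : ι → R) (F : ι → Ctx → R) :
    wop q x N L (fun c => ∑ i ∈ s, r i * F i c) =
      fun c => ∑ i ∈ s, r i * wop q x N L (F i) c := by
  induction L with
  | nil => rfl
  | cons p L ih => obtain ⟨l, a⟩ := p; simp only [wop_cons, ih, op_sum]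

/-- an operator identity may be used inside any word. -/
theorem Tr_context {ι : Type*} (s : Finset ι) (w : List (ℤ × ℕ)) (r : ι → R)
    (ws : ι → List (ℤ × ℕ))
    (H : ∀ (F : Ctx → R) (c : Ctx), wop q x N w F c = ∑ i ∈ s, r i * wop q x N (ws i) F c)
    (L1 L2 : List (ℤ × ℕ)) :
    Tr q x N (L1 ++ w ++ L2) = ∑ i ∈ s, r i * Tr q x N (L1 ++ ws i ++ L2) := by
  unfold Tr
  rw [wop_append, wop_append]
  have e : wop q x N w (wop q x N L2 fun _ => 1) =
      fun c => ∑ i ∈ s, r i * wop q x N (ws i) (wop q x N L2 fun _ => 1) c := by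
    funext c; exact H _ c
  rw [e, wop_sum]
  refine sum_congr rfl fun i _ => ?_
  rw [wop_append, wop_append]

/-! ### splitting a colour set -/

theorem sum_split (S : Finset ℕ) (a c : ℕ) (G : Finset ℕ → Finset ℕ → R)
    (hG : ∀ A C, ¬ Disjoint A C → G A C = 0) :
    ∑ A ∈ S.powersetCard a, ∑ C ∈ S.powersetCard c, G A C =
      ∑ M ∈ S.powersetCard (a + c), ∑ A ∈ M.powersetCard a, G A (M \ A) := by
  rw [← sum_product', sum_sigma']
  have e0 : ∑ p ∈ S.powersetCard a ×ˢ S.powersetCard c, G p.1 p.2 =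
      ∑ p ∈ (S.powersetCard a ×ˢ S.powersetCard c).filter (fun p => Disjoint p.1 p.2),
        G p.1 p.2 := by
    rw [sum_filter]
    refine sum_congr rfl fun p _ => ?_
    split_ifs with h
    · rfl
    · exact hG _ _ h
  rw [e0]
  refine sum_bij' (fun p _ => (⟨p.1 ∪ p.2, p.1⟩ : (_ : Finset ℕ) × Finset ℕ))
    (fun p _ => (p.2, p.1 \ p.2)) ?_ ?_ ?_ ?_ ?_
  · rintro ⟨A, C⟩ hp
    simp only [mem_filter, mem_product, mem_powersetCard, mem_sigma] at hp ⊢
    obtain ⟨⟨⟨h1, h2⟩, h3, h4⟩, h5⟩ := hp
    exact ⟨⟨union_subset h1 h3, by rw [card_union_of_disjoint h5, h2, h4]⟩,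
      subset_union_left, h2⟩
  · rintro ⟨M, A⟩ hp
    simp only [mem_filter, mem_product, mem_powersetCard, mem_sigma] at hp ⊢
    obtain ⟨⟨h1, h2⟩, h3, h4⟩ := hp
    refine ⟨⟨⟨h3.trans h1, h4⟩, sdiff_subset.trans h1, ?_⟩, disjoint_sdiff⟩
    rw [card_sdiff_of_subset h3, h2, h4]; omega
  · rintro ⟨A, C⟩ hp
    simp only [mem_filter] at hp
    simp only [Prod.mk.injEq, true_and]
    rw [union_sdiff_left, sdiff_eq_self_of_disjoint hp.2.symm]
  · rintro ⟨M, A⟩ hp
    simp only [mem_powersetCard, mem_sigma] at hp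
    simp only [Sigma.mk.injEq, heq_eq_eq, and_true]
    exact union_sdiff_of_subset hp.2.1
  · rintro ⟨A, C⟩ hp
    simp only [mem_filter] at hp
    simp only
    rw [union_sdiff_left, sdiff_eq_self_of_disjoint hp.2.symm]

/-- the two-class weight. -/
def Psi (k m : ℤ) (F : Ctx → R) (c : Ctx) (M B : Finset ℕ) : R :=
  pw q M (c k) * pw q (c (k - 1)) M * xm x M * (pw q B (c m) * pw q (c (m - 1)) B * xm x B) *
    F (addc (addc c k M) m B)

/-- commuting letters. -/
theorem op_comm (l m : ℤ) (h1 : l ≠ m + 1) (h2 : m ≠ l + 1) (h3 : l ≠ m) (a b : ℕ)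
    (F : Ctx → R) (c : Ctx) :
    op q x N l a (op q x N m b F) c = op q x N m b (op q x N l a F) c := by
  unfold op
  simp only [mul_sum]
  rw [sum_comm]
  refine sum_congr rfl fun B _ => sum_congr rfl fun A _ => ?_
  rw [addc_of_ne c (Ne.symm h3), addc_of_ne c (by omega : m - 1 ≠ l), addc_of_ne c h3,
    addc_of_ne c (by omega : l - 1 ≠ m), addc_comm c l m]
  ring

/-- Gaussian binomial as a sum over subsets. -/
theorem sum_pw_split (M : Finset ℕ) (a : ℕ) :
    ∑ A ∈ M.powersetCard a, pw q (M \ A) A = gb q M.card a := by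
  have h := fs_eq q M ∅ (m := M.card) (by simp) a
  have h1 : fs q M ∅ a = ∑ A ∈ M.powersetCard a, pw q (M \ A) A := by
    unfold fs
    refine sum_congr rfl fun A _ => ?_
    rw [pw_empty_right, mul_one]
  rw [← h1, h]
  rcases a with _ | a
  · simp
  · rw [split_succ' (fun k j => gb q M.card j * q ^ (((∅ : Finset ℕ).card - k) * j) *
      gs q M ∅ k) a]
    rw [sum_eq_zero, add_zero]
    · simp
    · intro p _
      rw [gs_eq_zero q (by simp : (∅ : Finset ℕ).card < p.1 + 1), mul_zero]

/-- twins. -/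
theorem op_twins (l : ℤ) (a b : ℕ) (F : Ctx → R) (c : Ctx) :
    op q x N l a (op q x N l b F) c = gb q (a + b) a * op q x N l (a + b) F c := by
  have e : op q x N l a (op q x N l b F) c =
      ∑ A ∈ (range N).powersetCard a, ∑ C ∈ (range N).powersetCard b,
        (pw q C A * (pw q (A ∪ C) (c l) * pw q (c (l - 1)) (A ∪ C) * xm x (A ∪ C) *
          F (addc c l (A ∪ C)))) := by
    unfold op
    refine sum_congr rfl fun A _ => ?_
    rw [mul_sum]
    refine sum_congr rfl fun C _ => ?_
    rw [addc_same, addc_of_ne c (by omega : l - 1 ≠ l), addc_addc]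
    by_cases h : Disjoint A C
    · rw [pw_union_left q h, pw_union_right q h, xm_union x h]
      have := pwR' q (c l) A C
      linear_combination (pw q (c (l - 1)) A * xm x A * (pw q (c (l - 1)) C * xm x C) *
        F (addc c l (A ∪ C))) * this
    · rw [pw_zero_of q (fun h' => h h'.symm : ¬ Disjoint C A)]
      have h' : ¬ Disjoint C (c l ∪ A) := fun h' => h (disjoint_union_right.1 h').2.symm
      rw [pw_zero_of q h']
      ring
  rw [e, sum_split (R := R)]
  · unfold op
    rw [mul_sum]
    refine sum_congr rfl fun M hM => ?_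
    obtain ⟨hM1, hM2⟩ := mem_powersetCard.1 hM
    rw [← hM2, ← sum_pw_split q M a, sum_mul]
    refine sum_congr rfl fun A hA => ?_
    rw [union_sdiff_of_subset (mem_powersetCard.1 hA).1]
  · intro A C h
    rw [pw_zero_of q (fun h' => h h'.symm : ¬ Disjoint C A), zero_mul]

end Crest.Agent.R059.OA530
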