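import Crest.Agent.R059.OB530

/-!
Almost twins (q-Serre of higher order), rotation, decoupling, shift invariance.
-/

set_option autoImplicit false

namespace Crest.Agent.R059.OA530

open Finset

variable {R : Type*} [CommRing R]

variable (q : R) (x : ℕ → R) (N : ℕ)

/-- the word `E_k^{(a)} E_{k+1}^{(b)} E_k^{(c)}`. -/
theorem word_up (k : ℤ) (a b c : ℕ) (F : Ctx → R) (γ : Ctx) :
    op q x N k a (op q x N (k + 1) b (op q x N k c F)) γ =
      ∑ B ∈ (range N).powersetCard b, ∑ M ∈ (range N).powersetCard (a + c),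
        fs q M B a * Psi q x k (k + 1) F γ M B := by
  have hk1 : k + 1 ≠ k := by omega
  have hk2 : k + 1 - 1 = k := by omega
  have hk3 : k - 1 ≠ k := by omega
  have hk4 : k - 1 ≠ k + 1 := by omega
  have hk5 : k ≠ k + 1 := by omega
  have e : op q x N k a (op q x N (k + 1) b (op q x N k c F)) γ =
      ∑ A ∈ (range N).powersetCard a, ∑ B ∈ (range N).powersetCard b,
      ∑ C ∈ (range N).powersetCard c,
        pw q C A * pw q A B * Psi q x k (k + 1) F γ (A ∪ C) B := by
    unfold op
    refine sum_congr rfl fun A _ => ?_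
    rw [mul_sum]
    refine sum_congr rfl fun B _ => ?_
    simp only [mul_sum]
    refine sum_congr rfl fun C _ => ?_
    rw [hk2, addc_of_ne _ hk1, addc_same, addc_of_ne _ hk5, addc_same, addc_of_ne _ hk4,
      addc_of_ne _ hk3]
    have eF : addc (addc (addc γ k A) (k + 1) B) k C =
        addc (addc γ k (A ∪ C)) (k + 1) B := by
      rw [addc_comm (addc γ k A) (k + 1) k B C, addc_addc]
    rw [eF]
    unfold Psi
    rw [hk2]
    by_cases h : Disjoint A C
    · rw [pw_union_left q h, pw_union_right q h, xm_union x h]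
      have h1 := pwR' q (γ k) A C
      have h2 := pwL' q (γ k) A B
      linear_combination
        (pw q (γ (k - 1)) A * xm x A * pw q B (γ (k + 1)) * xm x B * pw q (γ (k - 1)) C *
          xm x C * F (addc (addc γ k (A ∪ C)) (k + 1) B)) * (pw q (γ k) B * pw q A B) * h1 +
        (pw q (γ (k - 1)) A * xm x A * pw q B (γ (k + 1)) * xm x B * pw q (γ (k - 1)) C *
          xm x C * F (addc (addc γ k (A ∪ C)) (k + 1) B)) * pw q C (γ k ∪ A) * h2
    · rw [pw_zero_of q (fun h' => h h'.symm : ¬ Disjoint C A)]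
      have h' : ¬ Disjoint C (γ k ∪ A) := fun h' => h (disjoint_union_right.1 h').2.symm
      rw [pw_zero_of q h']
      ring
  rw [e, sum_comm]
  refine sum_congr rfl fun B _ => ?_
  rw [sum_split (R := R)]
  · refine sum_congr rfl fun M _ => ?_
    unfold fs
    rw [sum_mul]
    refine sum_congr rfl fun A hA => ?_
    rw [union_sdiff_of_subset (mem_powersetCard.1 hA).1]
  · intro A C h
    rw [pw_zero_of q (fun h' => h h'.symm : ¬ Disjoint C A)]
    ring

/-- the word `E_{k+1}^{(b')} E_k^{(m)} E_{k+1}^{(b)}`. -/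
theorem word_up' (k : ℤ) (b' m b : ℕ) (F : Ctx → R) (γ : Ctx) :
    op q x N (k + 1) b' (op q x N k m (op q x N (k + 1) b F)) γ =
      ∑ B ∈ (range N).powersetCard (b' + b), ∑ M ∈ (range N).powersetCard m,
        gs q M B b * Psi q x k (k + 1) F γ M B := by
  have hk1 : k + 1 ≠ k := by omega
  have hk2 : k + 1 - 1 = k := by omega
  have hk3 : k - 1 ≠ k := by omega
  have hk4 : k - 1 ≠ k + 1 := by omega
  have hk5 : k ≠ k + 1 := by omega
  have e : op q x N (k + 1) b' (op q x N k m (op q x N (k + 1) b F)) γ =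
      ∑ A ∈ (range N).powersetCard b', ∑ M ∈ (range N).powersetCard m,
      ∑ C ∈ (range N).powersetCard b,
        pw q M C * pw q C A * Psi q x k (k + 1) F γ M (A ∪ C) := by
    unfold op
    refine sum_congr rfl fun A _ => ?_
    rw [mul_sum]
    refine sum_congr rfl fun M _ => ?_
    simp only [mul_sum]
    refine sum_congr rfl fun C _ => ?_
    rw [hk2, addc_of_ne _ hk5, addc_of_ne _ hk1, addc_same, addc_same, addc_of_ne _ hk4,
      addc_of_ne _ hk5]
    have eF : addc (addc (addc γ (k + 1) A) k M) (k + 1) C =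
        addc (addc γ k M) (k + 1) (A ∪ C) := by
      rw [addc_comm γ (k + 1) k A M, addc_addc]
    rw [eF]
    unfold Psi
    rw [hk2]
    by_cases h : Disjoint A C
    · rw [pw_union_left q h, pw_union_right q h, xm_union x h]
      have h1 := pwR' q (γ (k + 1)) A C
      have h2 := pwL' q (γ k) M C
      linear_combination
        (pw q (γ k) A * xm x A * pw q (γ (k - 1)) M * xm x M *
          xm x C * F (addc (addc γ k M) (k + 1) (A ∪ C))) *
          (pw q M (γ k) * pw q (γ k) C * pw q M C) * h1 +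
        (pw q (γ k) A * xm x A * pw q (γ (k - 1)) M * xm x M *
          xm x C * F (addc (addc γ k M) (k + 1) (A ∪ C))) *
          (pw q A (γ (k + 1)) * pw q C (γ (k + 1) ∪ A)) * h2
    · rw [pw_zero_of q (fun h' => h h'.symm : ¬ Disjoint C A)]
      have h' : ¬ Disjoint C (γ (k + 1) ∪ A) := fun h' => h (disjoint_union_right.1 h').2.symm
      rw [pw_zero_of q h']
      ring
  have e2 : op q x N (k + 1) b' (op q x N k m (op q x N (k + 1) b F)) γ =
      ∑ M ∈ (range N).powersetCard m, ∑ A ∈ (range N).powersetCard b',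
      ∑ C ∈ (range N).powersetCard b,
        pw q M C * pw q C A * Psi q x k (k + 1) F γ M (A ∪ C) := by
    rw [e, sum_comm]
  rw [e2, sum_comm (s := (range N).powersetCard (b' + b))]
  refine sum_congr rfl fun M _ => ?_
  rw [sum_comm, sum_split (R := R) (range N) b b'
    (fun C A => pw q M C * pw q C A * Psi q x k (k + 1) F γ M (A ∪ C)), add_comm b b']
  · refine sum_congr rfl fun B _ => ?_
    unfold gs
    rw [sum_mul]
    refine sum_congr rfl fun A hA => ?_
    rw [union_comm (B \ A) A, union_sdiff_of_subset (mem_powersetCard.1 hA).1]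
  · intro C A h
    rw [pw_zero_of q h]
    ring

/-- **almost twins, upper arm** (q-Serre): `b ≤ a + c` (`a + c = m + b`):
`E_k^{(a)} E_{k+1}^{(b)} E_k^{(c)} = ∑_{(s,j)} [m; j] q^{(b-s) j} E_{k+1}^{(b-s)} E_k^{(a+c)} E_{k+1}^{(s)}`,
`s + j = a`. (`s ≤ b` is forced, other terms are read as `0`.) -/
theorem op_serre_up (k : ℤ) (a b c m : ℕ) (hm : a + c = m + b) (F : Ctx → R) (γ : Ctx) :
    op q x N k a (op q x N (k + 1) b (op q x N k c F)) γ =
      ∑ p ∈ (antidiagonal a).filter (fun p => p.1 ≤ b), gb q m p.2 * q ^ ((b - p.1) * p.2) *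
        op q x N (k + 1) (b - p.1) (op q x N k (a + c) (op q x N (k + 1) p.1 F)) γ := by
  rw [word_up]
  have e1 : ∀ B ∈ (range N).powersetCard b, ∀ M ∈ (range N).powersetCard (a + c),
      fs q M B a * Psi q x k (k + 1) F γ M B =
        ∑ p ∈ (antidiagonal a).filter (fun p => p.1 ≤ b), gb q m p.2 * q ^ ((b - p.1) * p.2) *
          (gs q M B p.1 * Psi q x k (k + 1) F γ M B) := by
    intro B hB M hM
    have hB' := (mem_powersetCard.1 hB).2
    have hM' := (mem_powersetCard.1 hM).2
    rw [fs_eq q M B (m := m) (by rw [hB', hM', hm]) a, sum_mul, sum_filter, hB']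
    refine sum_congr rfl fun p _ => ?_
    split_ifs with h
    · ring
    · rw [gs_eq_zero q (by omega : B.card < p.1)]; ring
  rw [sum_congr rfl fun B hB => sum_congr rfl fun M hM => e1 B hB M hM]
  have e2 : ∀ B ∈ (range N).powersetCard b,
      ∑ M ∈ (range N).powersetCard (a + c),
        ∑ p ∈ (antidiagonal a).filter (fun p => p.1 ≤ b), gb q m p.2 * q ^ ((b - p.1) * p.2) *
          (gs q M B p.1 * Psi q x k (k + 1) F γ M B) =
      ∑ p ∈ (antidiagonal a).filter (fun p => p.1 ≤ b), gb q m p.2 * q ^ ((b - p.1) * p.2) *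
        ∑ M ∈ (range N).powersetCard (a + c), gs q M B p.1 * Psi q x k (k + 1) F γ M B := by
    intro B _
    rw [sum_comm]
    refine sum_congr rfl fun p _ => ?_
    rw [mul_sum]
  rw [sum_congr rfl e2, sum_comm]
  refine sum_congr rfl fun p hp => ?_
  have hp' := (mem_filter.1 hp).2
  rw [word_up', mul_sum, Nat.sub_add_cancel hp']

/-- the word `E_{k+1}^{(a)} E_k^{(b)} E_{k+1}^{(c)}` (classes: `M` at level `k+1`, `B` at `k`). -/
theorem word_dn (k : ℤ) (a b c : ℕ) (F : Ctx → R) (γ : Ctx) :
    op q x N (k + 1) a (op q x N k b (op q x N (k + 1) c F)) γ =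
      ∑ B ∈ (range N).powersetCard b, ∑ M ∈ (range N).powersetCard (a + c),
        gs q B M c * Psi q x k (k + 1) F γ B M := by
  rw [word_up', sum_comm]

/-- the word `E_k^{(b')} E_{k+1}^{(m)} E_k^{(b)}`. -/
theorem word_dn' (k : ℤ) (b' m b : ℕ) (F : Ctx → R) (γ : Ctx) :
    op q x N k b' (op q x N (k + 1) m (op q x N k b F)) γ =
      ∑ B ∈ (range N).powersetCard (b' + b), ∑ M ∈ (range N).powersetCard m,
        fs q B M b' * Psi q x k (k + 1) F γ B M := by
  rw [word_up, sum_comm]

/-- **almost twins, lower arm** (q-Serre): `b ≤ a + c` (`a + c = m + b`):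
`E_{k+1}^{(a)} E_k^{(b)} E_{k+1}^{(c)} = ∑_{(s,j)} [m; j] q^{(b-s) j} E_k^{(s)} E_{k+1}^{(a+c)} E_k^{(b-s)}`,
`s + j = c`. -/
theorem op_serre_dn (k : ℤ) (a b c m : ℕ) (hm : a + c = m + b) (F : Ctx → R) (γ : Ctx) :
    op q x N (k + 1) a (op q x N k b (op q x N (k + 1) c F)) γ =
      ∑ p ∈ (antidiagonal c).filter (fun p => p.1 ≤ b), gb q m p.2 * q ^ ((b - p.1) * p.2) *
        op q x N k p.1 (op q x N (k + 1) (a + c) (op q x N k (b - p.1) F)) γ := by
  rw [word_dn]
  have e1 : ∀ B ∈ (range N).powersetCard b, ∀ M ∈ (range N).powersetCard (a + c),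
      gs q B M c * Psi q x k (k + 1) F γ B M =
        ∑ p ∈ (antidiagonal c).filter (fun p => p.1 ≤ b), gb q m p.2 * q ^ ((b - p.1) * p.2) *
          (fs q B M p.1 * Psi q x k (k + 1) F γ B M) := by
    intro B hB M hM
    have hB' := (mem_powersetCard.1 hB).2
    have hM' := (mem_powersetCard.1 hM).2
    rw [gs_eq q B M (m := m) (by rw [hB', hM', hm]) c, sum_mul, sum_filter, hB']
    refine sum_congr rfl fun p _ => ?_
    split_ifs with h
    · ring
    · rw [fs_eq_zero q (by omega : B.card < p.1)]; ring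
  rw [sum_congr rfl fun B hB => sum_congr rfl fun M hM => e1 B hB M hM]
  have e2 : ∀ B ∈ (range N).powersetCard b,
      ∑ M ∈ (range N).powersetCard (a + c),
        ∑ p ∈ (antidiagonal c).filter (fun p => p.1 ≤ b), gb q m p.2 * q ^ ((b - p.1) * p.2) *
          (fs q B M p.1 * Psi q x k (k + 1) F γ B M) =
      ∑ p ∈ (antidiagonal c).filter (fun p => p.1 ≤ b), gb q m p.2 * q ^ ((b - p.1) * p.2) *
        ∑ M ∈ (range N).powersetCard (a + c), fs q B M p.1 * Psi q x k (k + 1) F γ B M := by
    intro B _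
    rw [sum_comm]
    refine sum_congr rfl fun p _ => ?_
    rw [mul_sum]
  rw [sum_congr rfl e2, sum_comm]
  refine sum_congr rfl fun p hp => ?_
  have hp' := (mem_filter.1 hp).2
  rw [word_dn', mul_sum, Nat.add_sub_cancel' hp']

/-! ### rotation -/

/-- the rotation operator. -/
def TA (k : ℤ) (A : Finset ℕ) (F : Ctx → R) (c : Ctx) : R :=
  pw q (c k) A * pw q A (c (k + 1)) * F (addc c k A)

theorem TA_op (k : ℤ) (A : Finset ℕ) (l : ℤ) (a : ℕ) (F : Ctx → R) (c : Ctx) :
    TA q k A (op q x N l a F) c = op q x N l a (TA q k A F) c := by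
  unfold TA op
  rw [mul_sum]
  refine sum_congr rfl fun B _ => ?_
  beta_reduce
  rw [addc_comm c k l A B]
  by_cases h1 : l = k
  · subst h1
    rw [addc_same, addc_same, addc_of_ne _ (by omega : l - 1 ≠ l),
      addc_of_ne _ (by omega : l + 1 ≠ l)]
    have e1 := pwR q (c l) A B
    have e2 := pwL' q (c l) B A
    linear_combination (pw q A (c (l + 1)) * pw q (c (l - 1)) B * xm x B *
      F (addc (addc c l B) l A)) * (e1 - e2)
  · by_cases h2 : l = k + 1
    · subst h2
      have hk : k + 1 - 1 = k := by omega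
      rw [hk, addc_same, addc_same, addc_of_ne _ (by omega : k + 1 ≠ k),
        addc_of_ne _ (by omega : k ≠ k + 1)]
      have e1 := pwL q (c k) A B
      have e2 := pwR' q (c (k + 1)) B A
      linear_combination (pw q A (c (k + 1)) * pw q B (c (k + 1)) * xm x B *
        F (addc (addc c (k + 1) B) k A)) * e1 -
        (pw q (c k) B * pw q (c k) A * xm x B *
        F (addc (addc c (k + 1) B) k A)) * e2
    · rw [addc_of_ne _ h1, addc_of_ne _ (by omega : l - 1 ≠ k), addc_of_ne _ (Ne.symm h1),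
        addc_of_ne _ (by omega : k + 1 ≠ l)]
      ring

theorem TA_wop (k : ℤ) (A : Finset ℕ) (L : List (ℤ × ℕ)) (F : Ctx → R) :
    TA q k A (wop q x N L F) = wop q x N L (TA q k A F) := by
  induction L with
  | nil => rfl
  | cons p L ih =>
    obtain ⟨l, a⟩ := p
    funext c
    rw [wop_cons, wop_cons, TA_op, ih]

theorem pw_empty_l (A : Finset ℕ) : pw q ∅ A = 1 := pw_empty_left q A

/-- **rotation**: `Tr(E_k^{(a)} L) = Tr(L E_{k+1}^{(a)})`. -/
theorem Tr_rotate (k : ℤ) (a : ℕ) (L : List (ℤ × ℕ)) :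
    Tr q x N ((k, a) :: L) = Tr q x N (L ++ [(k + 1, a)]) := by
  unfold Tr
  rw [wop_append, wop_cons]
  have e : wop q x N [(k + 1, a)] (fun _ => (1 : R)) =
      fun c => ∑ A ∈ (range N).powersetCard a, xm x A * TA q k A (fun _ => 1) c := by
    funext c
    rw [wop_cons, wop_nil]
    unfold op TA
    refine sum_congr rfl fun A _ => ?_
    rw [show k + 1 - 1 = k by omega]
    ring
  rw [e, wop_sum]
  unfold op
  refine sum_congr rfl fun A _ => ?_
  rw [← TA_wop]
  unfold TA
  rw [pw_empty_left, pw_empty_right]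
  ring

/-- a letter of size `0` is trivial. -/
theorem op_zero (k : ℤ) (F : Ctx → R) (c : Ctx) : op q x N k 0 F c = F c := by
  unfold op
  rw [powersetCard_zero, sum_singleton, pw_empty_left, pw_empty_right]
  unfold xm
  rw [prod_empty]
  have : addc c k ∅ = c := by
    unfold addc; rw [union_empty]; exact Function.update_eq_self k c
  rw [this]; ring

/-! ### decoupling -/

/-- `e_a` of the colours. -/
def ea (a : ℕ) : R := ∑ A ∈ (range N).powersetCard a, xm x A

/-- a class without neighbours. -/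
theorem Tr_decouple (k : ℤ) (a : ℕ) (L : List (ℤ × ℕ))
    (hL : ∀ p ∈ L, p.1 ≠ k ∧ p.1 ≠ k + 1) :
    Tr q x N ((k, a) :: L) = ea x N a * Tr q x N L := by
  unfold Tr
  rw [wop_cons]
  have key : ∀ (L : List (ℤ × ℕ)), (∀ p ∈ L, p.1 ≠ k ∧ p.1 ≠ k + 1) → ∀ (c : Ctx)
      (A : Finset ℕ), wop q x N L (fun _ => (1 : R)) (addc c k A) =
        wop q x N L (fun _ => (1 : R)) c := by
    intro L
    induction L with
    | nil => intro _ c A; rfl
    | cons p L ih =>
      obtain ⟨l, b⟩ := p
      intro hL c A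
      have h1 := hL (l, b) (List.mem_cons_self ..)
      simp only at h1
      rw [wop_cons]
      unfold op
      refine sum_congr rfl fun B _ => ?_
      rw [addc_of_ne _ h1.1, addc_of_ne _ (by omega : l - 1 ≠ k), addc_comm c k l A B,
        ih (fun p hp => hL p (List.mem_cons_of_mem _ hp))]
  unfold op ea
  rw [sum_mul]
  refine sum_congr rfl fun A _ => ?_
  rw [key L hL, pw_empty_left, pw_empty_right]
  ring

@[simp] theorem Tr_nil : Tr q x N [] = 1 := rfl

end Crest.Agent.R059.OA530
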