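import Crest.Agent.R059.OC530
import Crest.Agent.R059.Pieri

/-!
Every Hessenberg function is a word in the letters `E_l^{(1)}`: the twisted trace of the word is
the chromatic quasisymmetric function.
-/

set_option autoImplicit false

namespace Crest.Agent.R059.OA530

open Finset Crest.CombinatoricsR.UnitInterval Crest.Agent.R059.Pieri

variable {n : ℕ}

/-- compatible list of vertices (`u` earlier, `v` later). -/
def Good (h : Fin n → ℕ) (lev : Fin n → ℤ) (vs : List (Fin n)) : Prop :=
  vs.Pairwise (fun u v => (Adj h v u ↔ lev v = lev u) ∧ (Adj h u v ↔ lev v = lev u + 1))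

/-- level structure. -/
def LevOK (h : Fin n → ℕ) (lev : Fin n → ℤ) : Prop :=
  (∀ u v : Fin n, u < v → lev u ≤ lev v) ∧
  (∀ u v : Fin n, u < v → lev u = lev v → Adj h u v) ∧
  (∀ u v : Fin n, Adj h u v → lev v = lev u ∨ lev v = lev u + 1)

/-- extension of `h` to `ℕ`. -/
def HH (h : Fin n → ℕ) (i : ℕ) : ℕ := if hi : i < n then h ⟨i, hi⟩ else n

/-- base and level, by recursion. -/
def stt (h : Fin n → ℕ) : ℕ → ℕ × ℕ
  | 0 => (0, 0)
  | v + 1 => if v + 2 ≤ HH h (stt h v).1 then stt h v else (v + 1, (stt h v).2 + 1)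

theorem HH_mono {h : Fin n → ℕ} (hh : IsHessenberg h) : Monotone (HH h) := by
  intro i j hij
  unfold HH
  split_ifs with h1 h2 h2
  · exact hh.1 (show (⟨i, h1⟩ : Fin n) ≤ ⟨j, h2⟩ from hij)
  · exact (hh.2 _).2
  · omega
  · exact le_refl _

theorem stt_inv {h : Fin n → ℕ} (hh : IsHessenberg h) : ∀ v, v < n →
    (∀ u, u ≤ v → (stt h u).2 ≤ (stt h v).2) ∧
    (∀ u, u ≤ v → (stt h u).2 = (stt h v).2 → (stt h v).1 ≤ u) ∧
    (v + 1 ≤ HH h (stt h v).1 ∧ (stt h v).1 ≤ v) ∧
    (∀ u, u ≤ v → (stt h u).2 < (stt h v).2 → u < (stt h v).1) ∧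
    (∀ u, u ≤ v → (stt h u).2 + 2 ≤ (stt h v).2 → HH h u ≤ (stt h v).1) := by
  intro v
  induction v with
  | zero =>
    intro hv
    refine ⟨?_, ?_, ⟨?_, ?_⟩, ?_, ?_⟩
    · intro u hu; obtain rfl : u = 0 := by omega
      exact le_refl _
    · intro u hu _; exact Nat.zero_le _
    · show 0 + 1 ≤ HH h 0
      unfold HH; rw [dif_pos hv]; exact (hh.2 ⟨0, hv⟩).1
    · exact Nat.zero_le _
    · intro u hu h1; obtain rfl : u = 0 := by omega
      exact absurd h1 (lt_irrefl _)
    · intro u hu h1; obtain rfl : u = 0 := by omega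
      exact absurd h1 (by omega)
  | succ v ih =>
    intro hv
    obtain ⟨hA, hB, ⟨hC1, hC2⟩, hD, hE⟩ := ih (by omega)
    by_cases hc : v + 2 ≤ HH h (stt h v).1
    · have e : stt h (v + 1) = stt h v := by
        show (if v + 2 ≤ HH h (stt h v).1 then stt h v else (v + 1, (stt h v).2 + 1)) = _
        rw [if_pos hc]
      have key : ∀ u, u ≤ v + 1 → (stt h u = stt h v ∧ u = v + 1) ∨ u ≤ v := by
        intro u hu
        rcases Nat.lt_or_ge v u with h1 | h1
        · obtain rfl : u = v + 1 := by omega
          exact Or.inl ⟨e, rfl⟩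
        · exact Or.inr h1
      rw [e]
      refine ⟨?_, ?_, ⟨?_, ?_⟩, ?_, ?_⟩
      · intro u hu
        rcases key u hu with ⟨h1, _⟩ | h1
        · rw [h1]
        · exact hA u h1
      · intro u hu h2
        rcases key u hu with ⟨_, h1⟩ | h1
        · omega
        · exact hB u h1 h2
      · omega
      · omega
      · intro u hu h2
        rcases key u hu with ⟨h1, _⟩ | h1
        · rw [h1] at h2; exact absurd h2 (lt_irrefl _)
        · exact hD u h1 h2
      · intro u hu h2
        rcases key u hu with ⟨h1, _⟩ | h1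
        · rw [h1] at h2; omega
        · exact hE u h1 h2
    · have e : stt h (v + 1) = (v + 1, (stt h v).2 + 1) := by
        show (if v + 2 ≤ HH h (stt h v).1 then stt h v else (v + 1, (stt h v).2 + 1)) = _
        rw [if_neg hc]
      have key : ∀ u, u ≤ v + 1 → (u = v + 1) ∨ u ≤ v := by
        intro u hu; omega
      have e1 : (stt h (v + 1)).1 = v + 1 := by rw [e]
      have e2 : (stt h (v + 1)).2 = (stt h v).2 + 1 := by rw [e]
      rw [e1, e2]
      refine ⟨?_, ?_, ⟨?_, ?_⟩, ?_, ?_⟩
      · intro u hu
        rcases key u hu with h1 | h1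
        · rw [h1, e2]
        · have := hA u h1; omega
      · intro u hu h2
        rcases key u hu with h1 | h1
        · omega
        · have := hA u h1; omega
      · unfold HH; rw [dif_pos hv]; exact (hh.2 ⟨v + 1, hv⟩).1
      · exact le_refl _
      · intro u hu h2
        rcases key u hu with h1 | h1
        · rw [h1, e2] at h2; omega
        · omega
      · intro u hu h2
        rcases key u hu with h1 | h1
        · rw [h1, e2] at h2; omega
        · have h3 : (stt h u).2 < (stt h v).2 := by omega
          have h4 := hD u h1 h3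
          have h5 : HH h u ≤ HH h (stt h v).1 := HH_mono hh (by omega)
          omega

theorem exists_lev {h : Fin n → ℕ} (hh : IsHessenberg h) : ∃ lev : Fin n → ℤ, LevOK h lev := by
  refine ⟨fun v => ((stt h v.val).2 : ℤ), ?_, ?_, ?_⟩
  · intro u v huv
    obtain ⟨hA, _⟩ := stt_inv hh v.val v.isLt
    have := hA u.val (le_of_lt (Fin.lt_def.1 huv))
    simp only
    exact_mod_cast this
  · intro u v huv hl
    obtain ⟨_, hB, ⟨hC1, hC2⟩, _, _⟩ := stt_inv hh v.val v.isLt
    simp only at hl
    have hl' : (stt h u.val).2 = (stt h v.val).2 := by exact_mod_cast hl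
    have h1 := hB u.val (le_of_lt (Fin.lt_def.1 huv)) hl'
    have h2 : HH h (stt h v.val).1 ≤ HH h u.val := HH_mono hh h1
    have h3 : HH h u.val = h u := by unfold HH; rw [dif_pos u.isLt]
    exact ⟨huv, by omega⟩
  · intro u v huv
    obtain ⟨hA, _, ⟨hC1, hC2⟩, _, hE⟩ := stt_inv hh v.val v.isLt
    have huv' := le_of_lt (Fin.lt_def.1 huv.1)
    have h3 : HH h u.val = h u := by unfold HH; rw [dif_pos u.isLt]
    have h4 := huv.2
    have h5 := hA u.val huv'
    have h6 : ¬ ((stt h u.val).2 + 2 ≤ (stt h v.val).2) := by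
      intro h7
      have := hE u.val huv' h7
      omega
    simp only
    omega

theorem exists_split {α : Type*} (p : α → Prop) [DecidablePred p] (L : List α) :
    ∃ L1 L2, L = L1 ++ L2 ∧ (∀ v ∈ L2, ¬ p v) ∧ (L1 = [] ∨ ∃ L1' u, L1 = L1' ++ [u] ∧ p u) := by
  induction L with
  | nil => exact ⟨[], [], rfl, by simp, Or.inl rfl⟩
  | cons a L ih =>
    obtain ⟨L1, L2, h1, h2, h3⟩ := ih
    rcases h3 with h3 | ⟨L1', u, h3, h4⟩
    · subst h3
      by_cases ha : p a
      · refine ⟨[a], L, by simp, ?_, Or.inr ⟨[], a, rfl, ha⟩⟩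
        rw [h1]; simpa using h2
      · refine ⟨[], a :: L, rfl, ?_, Or.inl rfl⟩
        intro v hv
        rcases List.mem_cons.1 hv with rfl | hv
        · exact ha
        · rw [h1] at hv; exact h2 v (by simpa using hv)
    · exact ⟨a :: L1, L2, by rw [h1]; rfl, h2, Or.inr ⟨a :: L1', u, by rw [h3]; rfl, h4⟩⟩

theorem exists_list {h : Fin n → ℕ} (hh : IsHessenberg h) {lev : Fin n → ℤ} (hl : LevOK h lev) :
    ∀ k, k ≤ n → ∃ vs : List (Fin n), Good h lev vs ∧ vs.Nodup ∧ ∀ v, v ∈ vs ↔ v.val < k := by
  obtain ⟨hm, hs, ha⟩ := hl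
  intro k
  induction k with
  | zero => intro _; exact ⟨[], List.Pairwise.nil, List.nodup_nil, by simp⟩
  | succ k ih =>
    intro hk
    obtain ⟨L, hL, hnd, hmem⟩ := ih (by omega)
    set w : Fin n := ⟨k, hk⟩ with hw
    obtain ⟨L1, L2, h1, h2, h3⟩ := exists_split (fun u => Adj h u w ∧ lev w = lev u + 1) L
    have hlt : ∀ v ∈ L, v < w := fun v hv => Fin.lt_def.2 ((hmem v).1 hv)
    have hwL : w ∉ L := fun hv => lt_irrefl w (hlt w hv)
    have hnadj : ∀ v ∈ L, ¬ Adj h w v := fun v hv hadj => lt_asymm hadj.1 (hlt v hv)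
    refine ⟨L1 ++ w :: L2, ?_, ?_, ?_⟩
    · unfold Good at hL ⊢
      rw [h1, List.pairwise_append] at hL
      obtain ⟨hL1, hL2, hL12⟩ := hL
      rw [List.pairwise_append]
      refine ⟨hL1, ?_, ?_⟩
      · rw [List.pairwise_cons]
        refine ⟨?_, hL2⟩
        intro v hv
        have hvL : v ∈ L := by rw [h1]; exact List.mem_append_right _ hv
        have hvw := hlt v hvL
        constructor
        · constructor
          · intro hadj
            rcases ha v w hadj with h4 | h4
            · exact h4.symm
            · exact absurd ⟨hadj, h4⟩ (h2 v hv)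
          · intro h4; exact hs v w hvw h4
        · constructor
          · intro hadj; exact absurd hadj (hnadj v hvL)
          · intro h4; have := hm v w hvw; omega
      · intro v hv u hu
        rcases List.mem_cons.1 hu with rfl | hu
        · -- `v ∈ L1` before `w`
          have hvL : v ∈ L := by rw [h1]; exact List.mem_append_left _ hv
          have hvw := hlt v hvL
          rcases h3 with h3 | ⟨L1', u, h3, hu1, hu2⟩
          · rw [h3] at hv; exact absurd hv List.not_mem_nil
          have huL : u ∈ L := by rw [h1, h3]; simp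
          have huw := hlt u huL
          -- `lev v ≠ lev w`
          have hvu : v = u ∨ ((Adj h u v ↔ lev u = lev v) ∧ (Adj h v u ↔ lev u = lev v + 1)) := by
            rw [h3] at hv hL1
            rcases List.mem_append.1 hv with hv' | hv'
            · right
              exact (List.pairwise_append.1 hL1).2.2 v hv' u (by simp)
            · left; simpa using hv'
          have hne : lev w ≠ lev v := by
            intro h4
            rcases hvu with rfl | ⟨h5, h6⟩
            · omega
            · have h7 : u < v := by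
                rcases lt_trichotomy u v with h8 | h8 | h8
                · exact h8
                · subst h8; omega
                · have := hm v u h8; omega
              have h9 : Adj h u v := ⟨h7, by
                have := hu1.2
                have h10 := Fin.lt_def.1 hvw
                omega⟩
              have := h5.1 h9
              omega
          constructor
          · constructor
            · intro hadj; exact absurd hadj (hnadj v hvL)
            · intro h4; exact absurd h4 hne
          · constructor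
            · intro hadj
              rcases ha v w hadj with h4 | h4
              · exact absurd h4 hne
              · exact h4
            · intro h4
              rcases hvu with rfl | ⟨h5, h6⟩
              · exact hu1
              · have h7 := h5.2 (by omega)
                have h8 : h u ≤ h v := hh.1 (le_of_lt h7.1)
                exact ⟨hvw, le_trans hu1.2 h8⟩
        · exact hL12 v hv u hu
    · rw [h1] at hnd hwL
      rw [List.nodup_append] at hnd ⊢
      refine ⟨hnd.1, List.nodup_cons.2 ⟨fun h => hwL (List.mem_append_right _ h), hnd.2.1⟩, ?_⟩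
      intro a ha' b hb
      rcases List.mem_cons.1 hb with rfl | hb
      · rintro rfl; exact hwL (List.mem_append_left _ ha')
      · exact hnd.2.2 a ha' b hb
    · intro v
      have h4 : v ∈ L1 ++ w :: L2 ↔ v = w ∨ v ∈ L := by
        rw [h1]; simp only [List.mem_append, List.mem_cons]; tauto
      rw [h4, hmem, hw]
      constructor
      · rintro (rfl | h5)
        · exact Nat.lt_succ_self k
        · omega
      · intro h5
        rcases Nat.lt_or_ge v.val k with h6 | h6
        · exact Or.inr h6
        · left; ext; simp only; omega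

/-! ### trace of the word = weighted colourings -/

variable {R : Type*} [CommRing R] (q : R) (x : ℕ → R) (N : ℕ)

/-- weight of a colouring on `D`. -/
noncomputable def Wt (h : Fin n → ℕ) (D : Finset (Fin n)) (f : Fin n → ℕ) : R :=
  (∏ p ∈ edg h D, ew q (f p.1) (f p.2)) * ∏ v ∈ D, x (f v)

/-- context of a colouring. -/
def cx (lev : Fin n → ℤ) (D : Finset (Fin n)) (f : Fin n → ℕ) : Ctx :=
  fun l => (D.filter (fun v => lev v = l)).image f

theorem pw_singleton_left (a : ℕ) (Y : Finset ℕ) : pw q {a} Y = ∏ y ∈ Y, ew q a y := by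
  induction Y using Finset.induction_on with
  | empty => rw [pw_empty_right, prod_empty]
  | insert y Y hy ih =>
    rw [prod_insert hy, ← ih, insert_eq, pw_union_right q (by simpa using hy)]
    congr 1
    unfold pw ew inv
    by_cases h1 : a < y
    · rw [if_pos h1, if_pos (by simpa using h1.ne)]
      simp [h1, filter_singleton]
    · by_cases h2 : a = y
      · rw [if_neg h1, if_pos h2, if_neg (by simp [h2])]
      · rw [if_neg h1, if_neg h2, if_pos (by simpa using h2)]
        simp [h1, filter_singleton]

theorem pw_singleton_right (a : ℕ) (Y : Finset ℕ) : pw q Y {a} = ∏ y ∈ Y, ew q y a := by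
  induction Y using Finset.induction_on with
  | empty => rw [pw_empty_left, prod_empty]
  | insert y Y hy ih =>
    rw [prod_insert hy, ← ih, insert_eq, pw_union_left q (by simpa using hy)]
    congr 1
    unfold pw ew inv
    by_cases h1 : y < a
    · rw [if_pos h1, if_pos (by simpa using h1.ne)]
      simp [h1, filter_singleton]
    · by_cases h2 : y = a
      · rw [if_neg h1, if_pos h2, if_neg (by simp [h2])]
      · rw [if_neg h1, if_neg h2, if_pos (by simpa using h2)]
        simp [h1, filter_singleton]

theorem edg_insert (h : Fin n → ℕ) {D : Finset (Fin n)} {v : Fin n} (hv : v ∉ D)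
    (g : Fin n × Fin n → R) :
    ∏ p ∈ edg h (insert v D), g p = (∏ p ∈ edg h D, g p) *
      ((∏ u ∈ D.filter (fun u => Adj h v u), g (v, u)) *
        ∏ u ∈ D.filter (fun u => Adj h u v), g (u, v)) := by
  have e : edg h (insert v D) = edg h D ∪
      ((D.filter (fun u => Adj h v u)).image (fun u => (v, u)) ∪
        (D.filter (fun u => Adj h u v)).image (fun u => (u, v))) := by
    ext ⟨a, b⟩
    simp only [edg, mem_filter, mem_product, mem_insert, mem_union, mem_image, Prod.mk.injEq]
    constructor
    · rintro ⟨⟨h1 | h1, h2 | h2⟩, h3⟩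
      · subst h1; subst h2; exact absurd h3.1 (lt_irrefl _)
      · subst h1; exact Or.inr (Or.inl ⟨b, ⟨h2, h3⟩, rfl, rfl⟩)
      · subst h2; exact Or.inr (Or.inr ⟨a, ⟨h1, h3⟩, rfl, rfl⟩)
      · exact Or.inl ⟨⟨h1, h2⟩, h3⟩
    · rintro (⟨⟨h1, h2⟩, h3⟩ | ⟨u, ⟨h1, h2⟩, rfl, rfl⟩ | ⟨u, ⟨h1, h2⟩, rfl, rfl⟩)
      · exact ⟨⟨Or.inr h1, Or.inr h2⟩, h3⟩
      · exact ⟨⟨Or.inl rfl, Or.inr h1⟩, h2⟩
      · exact ⟨⟨Or.inr h1, Or.inl rfl⟩, h2⟩
  rw [e, prod_union, prod_union, prod_image, prod_image]
  · intro a _ b _ hab; exact (Prod.mk.inj hab).1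
  · intro a _ b _ hab; exact (Prod.mk.inj hab).2
  · rw [disjoint_left]
    rintro ⟨a, b⟩ h1 h2
    simp only [mem_filter, mem_image, Prod.mk.injEq] at h1 h2
    obtain ⟨u, ⟨h3, h4⟩, rfl, rfl⟩ := h1
    obtain ⟨u', ⟨h5, h6⟩, rfl, h8⟩ := h2
    exact hv h5
  · rw [disjoint_left]
    rintro ⟨a, b⟩ h1 h2
    simp only [edg, mem_filter, mem_product, mem_image, mem_union, Prod.mk.injEq] at h1 h2
    rcases h2 with ⟨u, _, rfl, rfl⟩ | ⟨u, _, rfl, rfl⟩
    · exact hv h1.1.1
    · exact hv h1.1.2

/-- one more vertex. -/
theorem Wt_step {h : Fin n → ℕ} {lev : Fin n → ℤ} (hl : LevOK h lev) {D : Finset (Fin n)}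
    {v : Fin n} (hv : v ∉ D)
    (hD : ∀ u ∈ D, (Adj h v u ↔ lev v = lev u) ∧ (Adj h u v ↔ lev v = lev u + 1))
    (f : Fin n → ℕ) (a : ℕ) :
    Wt q x h D f * (pw q {a} (cx lev D f (lev v)) * pw q (cx lev D f (lev v - 1)) {a} *
      xm x {a}) = Wt q x h (insert v D) (Function.update f v a) := by
  unfold Wt
  have hne : ∀ u ∈ D, u ≠ v := fun u hu h => hv (h ▸ hu)
  rw [edg_insert h hv, prod_insert hv]
  have e1 : ∏ p ∈ edg h D, ew q (Function.update f v a p.1) (Function.update f v a p.2) =
      ∏ p ∈ edg h D, ew q (f p.1) (f p.2) := by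
    refine prod_congr rfl fun p hp => ?_
    simp only [edg, mem_filter, mem_product] at hp
    rw [Function.update_of_ne (hne _ hp.1.1), Function.update_of_ne (hne _ hp.1.2)]
  have e2 : ∏ u ∈ D, x (Function.update f v a u) = ∏ u ∈ D, x (f u) :=
    prod_congr rfl fun u hu => by rw [Function.update_of_ne (hne u hu)]
  have e3 : ∏ u ∈ D.filter (fun u => Adj h v u),
      ew q (Function.update f v a v) (Function.update f v a u) =
      ∏ u ∈ D.filter (fun u => lev u = lev v), ew q a (f u) := by
    have e : D.filter (fun u => Adj h v u) = D.filter (fun u => lev u = lev v) :=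
      filter_congr fun u hu => by rw [(hD u hu).1]; exact eq_comm
    rw [e]
    refine prod_congr rfl fun u hu => ?_
    rw [Function.update_self, Function.update_of_ne (hne u (mem_filter.1 hu).1)]
  have e4 : ∏ u ∈ D.filter (fun u => Adj h u v),
      ew q (Function.update f v a u) (Function.update f v a v) =
      ∏ u ∈ D.filter (fun u => lev u = lev v - 1), ew q (f u) a := by
    have e : D.filter (fun u => Adj h u v) = D.filter (fun u => lev u = lev v - 1) :=
      filter_congr fun u hu => by
        rw [(hD u hu).2]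
        constructor
        · intro h1; omega
        · intro h1; omega
    rw [e]
    refine prod_congr rfl fun u hu => ?_
    rw [Function.update_self, Function.update_of_ne (hne u (mem_filter.1 hu).1)]
  simp only [Function.update_self] at e3 e4 ⊢
  rw [e1, e2, e3, e4]
  -- injectivity on classes
  by_cases hinj : ∀ l, Set.InjOn f (D.filter (fun u => lev u = l) : Finset (Fin n))
  · have e5 : pw q {a} (cx lev D f (lev v)) =
        ∏ u ∈ D.filter (fun u => lev u = lev v), ew q a (f u) := by
      unfold cx; rw [pw_singleton_left, prod_image (hinj _)]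
    have e6 : pw q (cx lev D f (lev v - 1)) {a} =
        ∏ u ∈ D.filter (fun u => lev u = lev v - 1), ew q (f u) a := by
      unfold cx; rw [pw_singleton_right, prod_image (hinj _)]
    rw [e5, e6]
    unfold xm
    rw [prod_singleton]
    ring
  · have e0 : ∏ p ∈ edg h D, ew q (f p.1) (f p.2) = 0 := by
      push Not at hinj
      obtain ⟨l, hl'⟩ := hinj
      have : ∃ u1 ∈ D.filter (fun u => lev u = l), ∃ u2 ∈ D.filter (fun u => lev u = l),
          f u1 = f u2 ∧ u1 ≠ u2 := by
        by_contra hcon
        push Not at hcon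
        exact hl' (fun u1 h1 u2 h2 h12 => hcon u1 (by exact_mod_cast h1) u2 (by exact_mod_cast h2) h12)
      obtain ⟨u1, h1, u2, h2, h12, hn⟩ := this
      rw [mem_filter] at h1 h2
      rcases lt_or_gt_of_ne hn with h3 | h3
      · refine prod_eq_zero (i := (u1, u2)) ?_ ?_
        · simp only [edg, mem_filter, mem_product]
          exact ⟨⟨h1.1, h2.1⟩, hl.2.1 u1 u2 h3 (by rw [h1.2, h2.2])⟩
        · unfold ew; simp [h12]
      · refine prod_eq_zero (i := (u2, u1)) ?_ ?_
        · simp only [edg, mem_filter, mem_product]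
          exact ⟨⟨h2.1, h1.1⟩, hl.2.1 u2 u1 h3 (by rw [h1.2, h2.2])⟩
        · unfold ew; simp [h12]
    rw [e0]; ring

theorem cx_step (lev : Fin n → ℤ) {D : Finset (Fin n)} {v : Fin n} (hv : v ∉ D)
    (f : Fin n → ℕ) (a : ℕ) :
    addc (cx lev D f) (lev v) {a} = cx lev (insert v D) (Function.update f v a) := by
  have hne : ∀ u ∈ D, u ≠ v := fun u hu h => hv (h ▸ hu)
  funext l
  have e : ∀ l, (D.filter (fun u => lev u = l)).image (Function.update f v a) =
      (D.filter (fun u => lev u = l)).image f := by
    intro l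
    refine image_congr ?_
    intro u hu
    have : u ∈ D := (mem_filter.1 (by exact_mod_cast hu)).1
    exact Function.update_of_ne (hne u this) _ _
  by_cases h1 : l = lev v
  · subst h1
    rw [addc_same]
    unfold cx
    rw [filter_insert, if_pos rfl, image_insert, e, Function.update_self, insert_eq, union_comm]
  · rw [addc_of_ne _ h1]
    unfold cx
    rw [filter_insert, if_neg (fun h => h1 h.symm), e]

/-- iterated sum over colours. -/
noncomputable def SS (h : Fin n → ℕ) : List (Fin n) → Finset (Fin n) → (Fin n → ℕ) → R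
  | [], D, f => Wt q x h D f
  | v :: vs, D, f => ∑ a ∈ range N, SS h vs (insert v D) (Function.update f v a)

theorem SS_eq {h : Fin n → ℕ} {lev : Fin n → ℤ} (hl : LevOK h lev) :
    ∀ (vs : List (Fin n)) (D : Finset (Fin n)) (f : Fin n → ℕ), Good h lev vs → vs.Nodup →
    (∀ v ∈ vs, v ∉ D) →
    (∀ v ∈ vs, ∀ u ∈ D, (Adj h v u ↔ lev v = lev u) ∧ (Adj h u v ↔ lev v = lev u + 1)) →
    SS q x N h vs D f = Wt q x h D f *
      wop q x N (vs.map (fun v => (lev v, 1))) (fun _ => 1) (cx lev D f) := by
  intro vs
  induction vs with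
  | nil => intro D f _ _ _ _; simp [SS]
  | cons v vs ih =>
    intro D f hg hnd hD1 hD2
    have hg' := List.pairwise_cons.1 hg
    have hnd' := List.nodup_cons.1 hnd
    have hv : v ∉ D := hD1 v (List.mem_cons_self ..)
    rw [List.map_cons, wop_cons]
    unfold op
    have e0 : (range N).powersetCard 1 = (range N).map ⟨fun a => ({a} : Finset ℕ),
        Finset.singleton_injective⟩ := powersetCard_one _
    rw [e0, sum_map, mul_sum]
    simp only [SS, Function.Embedding.coeFn_mk]
    refine sum_congr rfl fun a _ => ?_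
    rw [cx_step lev hv, ih (insert v D) (Function.update f v a) hg'.2 hnd'.2,
      ← Wt_step q x hl hv (hD2 v (List.mem_cons_self ..)) f a]
    · ring
    · intro u hu hu'
      rcases mem_insert.1 hu' with rfl | hu'
      · exact hnd'.1 hu
      · exact hD1 u (List.mem_cons_of_mem _ hu) hu'
    · intro u hu w hw
      rcases mem_insert.1 hw with rfl | hw
      · exact hg'.1 u hu
      · exact hD2 u (List.mem_cons_of_mem _ hu) w hw

theorem sum_col_insert {U : Finset (Fin n)} {v : Fin n} (hv : v ∉ U) (Φ : (Fin n → ℕ) → R) :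
    ∑ g ∈ col (insert v U) N, Φ g =
      ∑ a ∈ range N, ∑ g ∈ col U N, Φ (Function.update g v a) := by
  rw [← sum_product']
  refine sum_bij' (fun g _ => (g v, Function.update g v 0)) (fun p _ => Function.update p.2 v p.1)
    ?_ ?_ ?_ ?_ ?_
  · intro g hg
    rw [mem_col] at hg
    rw [mem_product, mem_col]
    refine ⟨mem_range.2 (hg.1 v (mem_insert_self _ _)), ?_, ?_⟩
    · intro u hu
      have : u ≠ v := fun h => hv (h ▸ hu)
      simp only
      rw [Function.update_of_ne this]
      exact hg.1 u (mem_insert_of_mem hu)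
    · intro u hu
      simp only
      by_cases h1 : u = v
      · subst h1; rw [Function.update_self]
      · rw [Function.update_of_ne h1]
        exact hg.2 u (fun h => (mem_insert.1 h).elim h1 hu)
  · rintro ⟨a, g⟩ hp
    rw [mem_product, mem_col] at hp
    obtain ⟨h1, h2, h3⟩ := hp
    simp only at h1 h2 h3 ⊢
    rw [mem_col]
    refine ⟨?_, ?_⟩
    · intro u hu
      by_cases h4 : u = v
      · subst h4; rw [Function.update_self]; exact mem_range.1 h1
      · rw [Function.update_of_ne h4]
        exact h2 u ((mem_insert.1 hu).resolve_left h4)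
    · intro u hu
      have h4 : u ≠ v := fun h => hu (h ▸ mem_insert_self _ _)
      rw [Function.update_of_ne h4]
      exact h3 u (fun h => hu (mem_insert_of_mem h))
  · intro g hg
    simp only
    rw [Function.update_idem, Function.update_eq_self]
  · rintro ⟨a, g⟩ hp
    rw [mem_product, mem_col] at hp
    simp only [Prod.mk.injEq]
    refine ⟨Function.update_self .., ?_⟩
    rw [Function.update_idem]
    have h3 : g v = 0 := hp.2.2 v hv
    rw [← h3, Function.update_eq_self]
  · intro g hg
    simp only
    rw [Function.update_idem, Function.update_eq_self]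

theorem SS_eq_sum (h : Fin n → ℕ) : ∀ (vs : List (Fin n)) (D : Finset (Fin n)) (f : Fin n → ℕ),
    vs.Nodup → SS q x N h vs D f = ∑ g ∈ col vs.toFinset N,
      Wt q x h (D ∪ vs.toFinset) (fun u => if u ∈ vs then g u else f u) := by
  intro vs
  induction vs with
  | nil =>
    intro D f _
    have h1 : col (∅ : Finset (Fin n)) N = {fun _ => 0} := by
      ext g
      rw [mem_col, mem_singleton]
      constructor
      · intro hg; funext u; exact hg.2 u (notMem_empty _)
      · rintro rfl; exact ⟨by simp, by simp⟩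
    simp [SS, h1]
  | cons v vs ih =>
    intro D f hnd
    have hnd' := List.nodup_cons.1 hnd
    have hv : v ∉ vs.toFinset := by rw [List.mem_toFinset]; exact hnd'.1
    rw [List.toFinset_cons, sum_col_insert N hv]
    simp only [SS]
    refine sum_congr rfl fun a _ => ?_
    rw [ih _ _ hnd'.2]
    refine sum_congr rfl fun g _ => ?_
    have e1 : insert v D ∪ vs.toFinset = D ∪ insert v vs.toFinset := by
      rw [insert_union, union_insert]
    rw [e1]
    congr 1
    funext u
    by_cases h1 : u = v
    · subst h1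
      simp [hnd'.1]
    · by_cases h2 : u ∈ vs
      · simp [h1, h2]
      · simp [h1, h2]

/-- **word of a Hessenberg function.** -/
theorem exists_word {h : Fin n → ℕ} (hh : IsHessenberg h) :
    ∃ L : List (ℤ × ℕ), (∀ p ∈ L, p.2 = 1) ∧ L.length = n ∧
      ∀ {R : Type} [CommRing R] (q : R) (x : ℕ → R) (N : ℕ),
        Tr q x N L = chr q x h Finset.univ N := by
  obtain ⟨lev, hl⟩ := exists_lev hh
  obtain ⟨vs, h1, h2, h3⟩ := exists_list hh hl n le_rfl
  have h4 : vs.toFinset = Finset.univ := by
    ext v; simp [h3 v]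
  refine ⟨vs.map (fun v => (lev v, 1)), ?_, ?_, ?_⟩
  · intro p hp
    obtain ⟨v, _, rfl⟩ := List.mem_map.1 hp
    rfl
  · rw [List.length_map, ← List.toFinset_card_of_nodup h2, h4]; simp
  · intro R _ q x N
    have e1 := SS_eq q x N hl vs ∅ (fun _ => 0) h1 h2 (by simp) (by simp)
    have e2 := SS_eq_sum q x N h vs ∅ (fun _ => 0) h2
    have e3 : Wt q x h (∅ : Finset (Fin n)) (fun _ => 0) = 1 := by
      unfold Wt edg; simp
    have e4 : cx lev (∅ : Finset (Fin n)) (fun _ => 0) = fun _ => ∅ := by
      funext l; unfold cx; simp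
    rw [e3, one_mul, e4] at e1
    unfold Tr
    rw [← e1, e2, h4, empty_union]
    unfold chr
    refine sum_congr rfl fun g _ => ?_
    unfold Wt
    have e5 : (fun u => if u ∈ vs then g u else 0) = g := by
      funext u; rw [if_pos ((h3 u).2 u.isLt)]
    rw [e5]

/-- the chromatic quasisymmetric function is a twisted trace of a word in the `E_l`. -/
theorem chromatic_eq_Tr {h : Fin n → ℕ} (hh : IsHessenberg h) :
    ∃ L : List (ℤ × ℕ), (∀ p ∈ L, p.2 = 1) ∧ L.length = n ∧
      ∀ N, chromaticQSym h N = Tr (MvPolynomial.C Polynomial.X) (xv N) N L := by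
  obtain ⟨L, h1, h2, h3⟩ := exists_word hh
  exact ⟨L, h1, h2, fun N => by rw [chromatic_eq_chr, h3]⟩

end Crest.Agent.R059.OA530
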