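import Crest.Agent.R059.OD530
import Crest.Agent.R059.EPos

/-!
EP calculus on words in the divided powers.
-/

set_option autoImplicit false

namespace Crest.Agent.R059.OA530

open Finset Crest.CombinatoricsR.UnitInterval Crest.Agent.R059.Pieri

/-- Gaussian binomials in `ℕ[q]`. -/
noncomputable def gbn : ℕ → ℕ → Polynomial ℕ
  | _, 0 => 1
  | 0, _ + 1 => 0
  | n + 1, k + 1 => Polynomial.X ^ (k + 1) * gbn n (k + 1) + gbn n k

theorem gbn_zero (n : ℕ) : gbn n 0 = 1 := by cases n <;> rfl

theorem gb_CX (N : ℕ) : ∀ n k : ℕ,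
    gb (MvPolynomial.C Polynomial.X : MvPolynomial (Fin N) (Polynomial ℤ)) n k =
      MvPolynomial.C (cast (gbn n k))
  | n, 0 => by rw [gb_zero_right, gbn_zero]; simp [cast]
  | 0, k + 1 => by
      have : gbn 0 (k + 1) = 0 := rfl
      rw [gb_zero_succ, this]; simp [cast]
  | n + 1, k + 1 => by
      have : gbn (n + 1) (k + 1) = Polynomial.X ^ (k + 1) * gbn n (k + 1) + gbn n k := rfl
      rw [gb_succ_succ, this, gb_CX N n (k + 1), gb_CX N n k]
      simp [cast]

/-- the trace of a word as a family. -/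
noncomputable def TrF (L : List (ℤ × ℕ)) : Fam :=
  fun N => Tr (MvPolynomial.C Polynomial.X) (xv N) N L

/-- size of a word. -/
def sz (L : List (ℤ × ℕ)) : ℕ := (L.map Prod.snd).sum

theorem sz_append (L1 L2 : List (ℤ × ℕ)) : sz (L1 ++ L2) = sz L1 + sz L2 := by
  unfold sz; rw [List.map_append, List.sum_append]

theorem sz_cons (p : ℤ × ℕ) (L : List (ℤ × ℕ)) : sz (p :: L) = p.2 + sz L := by
  unfold sz; rw [List.map_cons, List.sum_cons]

@[simp] theorem sz_nil : sz [] = 0 := rfl

/-- positive word. -/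
def PosW (L : List (ℤ × ℕ)) : Prop := EP (sz L) (TrF L)

theorem PosW.nil : PosW [] := EP.one.congr rfl (fun _ => rfl)

/-- an operator identity with coefficients in `ℕ[q]` is a rule. -/
theorem PosW.rule {ι : Type*} (s : Finset ι) (L1 w L2 : List (ℤ × ℕ)) (r : ι → Polynomial ℕ)
    (ws : ι → List (ℤ × ℕ)) (hsz : ∀ i ∈ s, sz (ws i) = sz w)
    (H : ∀ (N : ℕ) (F : Ctx → MvPolynomial (Fin N) (Polynomial ℤ)) (c : Ctx),
      wop (MvPolynomial.C Polynomial.X) (xv N) N w F c =
        ∑ i ∈ s, MvPolynomial.C (cast (r i)) *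
          wop (MvPolynomial.C Polynomial.X) (xv N) N (ws i) F c)
    (hp : ∀ i ∈ s, PosW (L1 ++ ws i ++ L2)) : PosW (L1 ++ w ++ L2) := by
  unfold PosW
  have h1 : EP (sz (L1 ++ w ++ L2))
      (fun N => ∑ i ∈ s, MvPolynomial.C (cast (r i)) * TrF (L1 ++ ws i ++ L2) N) := by
    refine EP.sum s (fun i N => MvPolynomial.C (cast (r i)) * TrF (L1 ++ ws i ++ L2) N) ?_
    intro i hi
    refine EP.smul (r i) ?_
    refine (hp i hi).congr ?_ (fun N => rfl)
    simp only [sz_append, hsz i hi]
  refine h1.congr rfl (fun N => ?_)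
  unfold TrF
  exact Tr_context _ _ _ s w _ ws (H N) L1 L2

theorem PosW.rot {k : ℤ} {a : ℕ} {L : List (ℤ × ℕ)} (h : PosW (L ++ [(k + 1, a)])) :
    PosW ((k, a) :: L) := by
  refine h.congr ?_ (fun N => Tr_rotate _ _ _ k a L)
  rw [sz_append, sz_cons, sz_cons, sz_nil]; simp only; omega

theorem PosW.rot' {k : ℤ} {a : ℕ} {L : List (ℤ × ℕ)} (h : PosW ((k, a) :: L)) :
    PosW (L ++ [(k + 1, a)]) := by
  refine h.congr ?_ (fun N => (Tr_rotate _ _ _ k a L).symm)
  rw [sz_append, sz_cons, sz_cons, sz_nil]; simp only; omega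

theorem PosW.twins {L1 L2 : List (ℤ × ℕ)} {l : ℤ} {a b : ℕ}
    (h : PosW (L1 ++ (l, a + b) :: L2)) : PosW (L1 ++ (l, a) :: (l, b) :: L2) := by
  have := PosW.rule (ι := Unit) Finset.univ L1 [(l, a), (l, b)] L2 (fun _ => gbn (a + b) a)
    (fun _ => [(l, a + b)]) (by intro i _; simp [sz]) ?_ (by intro i _; simpa using h)
  · simpa using this
  · intro N F c
    simp only [wop_cons, wop_nil, Finset.univ_unique, Finset.sum_singleton]
    rw [op_twins, gb_CX]

theorem PosW.comm {L1 L2 : List (ℤ × ℕ)} {l m : ℤ} {a b : ℕ} (h1 : l ≠ m + 1) (h2 : m ≠ l + 1)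
    (h : PosW (L1 ++ (m, b) :: (l, a) :: L2)) : PosW (L1 ++ (l, a) :: (m, b) :: L2) := by
  by_cases h3 : l = m
  · subst h3
    -- same level: both orders give the same total
    have e : ∀ N, TrF (L1 ++ (l, a) :: (l, b) :: L2) N = TrF (L1 ++ (l, b) :: (l, a) :: L2) N := by
      intro N
      have := Tr_context (MvPolynomial.C Polynomial.X) (xv N) N (ι := Unit) Finset.univ
        [(l, a), (l, b)] (fun _ => 1) (fun _ => [(l, b), (l, a)]) ?_ L1 L2
      · simpa [TrF] using this
      · intro F c
        simp only [wop_cons, wop_nil, Finset.univ_unique, Finset.sum_singleton, one_mul]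
        rw [op_twins, op_twins, Nat.add_comm b a]
        have hsym : gb (MvPolynomial.C Polynomial.X : MvPolynomial (Fin N) (Polynomial ℤ))
            (a + b) a = gb (MvPolynomial.C Polynomial.X) (a + b) b := by
          -- symmetry of the Gaussian binomial, from the colour sets
          have key : ∀ (S : Finset ℕ), S.card = a + b →
              gb (MvPolynomial.C Polynomial.X : MvPolynomial (Fin N) (Polynomial ℤ)) (a + b) a =
              gb (MvPolynomial.C Polynomial.X) (a + b) b := by
            intro S hS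
            have h1 := gs_eq (MvPolynomial.C Polynomial.X :
              MvPolynomial (Fin N) (Polynomial ℤ)) ∅ S (m := a + b) (by simp [hS]) b
            have h2 : gs (MvPolynomial.C Polynomial.X :
              MvPolynomial (Fin N) (Polynomial ℤ)) ∅ S b =
              ∑ A ∈ S.powersetCard a, pw (MvPolynomial.C Polynomial.X) (S \ A) A := by
              unfold gs
              refine sum_bij' (fun A _ => S \ A) (fun A _ => S \ A) ?_ ?_ ?_ ?_ ?_
              · intro A hA
                obtain ⟨h3, h4⟩ := mem_powersetCard.1 hA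
                refine mem_powersetCard.2 ⟨sdiff_subset, ?_⟩
                rw [card_sdiff_of_subset h3, hS, h4]; omega
              · intro A hA
                obtain ⟨h3, h4⟩ := mem_powersetCard.1 hA
                refine mem_powersetCard.2 ⟨sdiff_subset, ?_⟩
                rw [card_sdiff_of_subset h3, hS, h4]; omega
              · intro A hA
                exact Finset.sdiff_sdiff_eq_self (mem_powersetCard.1 hA).1
              · intro A hA
                exact Finset.sdiff_sdiff_eq_self (mem_powersetCard.1 hA).1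
              · intro A hA
                rw [pw_empty_left, one_mul, Finset.sdiff_sdiff_eq_self (mem_powersetCard.1 hA).1]
            rw [← hS, ← sum_pw_split _ S a, ← h2, h1]
            rcases b with _ | b
            · simp [hS]
            · rw [split_succ' (fun k j => gb (MvPolynomial.C Polynomial.X :
                MvPolynomial (Fin N) (Polynomial ℤ)) (a + (b + 1)) j *
                MvPolynomial.C Polynomial.X ^ (((∅ : Finset ℕ).card - k) * j) *
                fs (MvPolynomial.C Polynomial.X) ∅ S k) b]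
              rw [sum_eq_zero, add_zero]
              · simp [hS]
              · intro p _
                rw [fs_eq_zero _ (by simp : (∅ : Finset ℕ).card < p.1 + 1), mul_zero]
          exact key (range (a + b)) (card_range _)
        rw [hsym]
    refine h.congr ?_ e
    simp only [sz_append, sz_cons]; omega
  · have := PosW.rule (ι := Unit) Finset.univ L1 [(l, a), (m, b)] L2 (fun _ => 1)
      (fun _ => [(m, b), (l, a)]) (by intro i _; simp [sz, Nat.add_comm]) ?_
      (by intro i _; simpa using h)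
    · simpa using this
    · intro N F c
      simp only [wop_cons, wop_nil, Finset.univ_unique, Finset.sum_singleton]
      rw [op_comm _ _ _ l m h1 h2 h3]
      simp [cast]

theorem PosW.drop {L1 L2 : List (ℤ × ℕ)} {l : ℤ} (h : PosW (L1 ++ L2)) :
    PosW (L1 ++ (l, 0) :: L2) := by
  have := PosW.rule (ι := Unit) Finset.univ L1 [(l, 0)] L2 (fun _ => 1)
    (fun _ => []) (by intro i _; simp [sz]) ?_ (by intro i _; simpa using h)
  · simpa using this
  · intro N F c
    simp only [wop_cons, wop_nil, Finset.univ_unique, Finset.sum_singleton]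
    rw [op_zero]
    simp [cast]

theorem PosW.undrop {L1 L2 : List (ℤ × ℕ)} {l : ℤ} (h : PosW (L1 ++ (l, 0) :: L2)) :
    PosW (L1 ++ L2) := by
  have := PosW.rule (ι := Unit) Finset.univ L1 [] L2 (fun _ => 1)
    (fun _ => [(l, 0)]) (by intro i _; simp [sz]) ?_ (by intro i _; simpa using h)
  · simpa using this
  · intro N F c
    simp only [wop_cons, wop_nil, Finset.univ_unique, Finset.sum_singleton]
    rw [op_zero]
    simp [cast]

/-- almost twins, upper arm. -/
theorem PosW.up {L1 L2 : List (ℤ × ℕ)} {k : ℤ} {a b c : ℕ} (hm : b ≤ a + c)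
    (h : ∀ s j, s + j = a → s ≤ b → j ≤ a + c - b →
      PosW (L1 ++ (k + 1, b - s) :: (k, a + c) :: (k + 1, s) :: L2)) :
    PosW (L1 ++ (k, a) :: (k + 1, b) :: (k, c) :: L2) := by
  have := PosW.rule (ι := ℕ × ℕ)
    ((antidiagonal a).filter (fun p => p.1 ≤ b ∧ p.2 ≤ a + c - b)) L1
    [(k, a), (k + 1, b), (k, c)] L2
    (fun p => gbn (a + c - b) p.2 * Polynomial.X ^ ((b - p.1) * p.2))
    (fun p => [(k + 1, b - p.1), (k, a + c), (k + 1, p.1)]) ?_ ?_ ?_
  · simpa using this
  · intro p hp
    have := (mem_filter.1 hp).2.1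
    simp only [sz, List.map_cons, List.map_nil, List.sum_cons, List.sum_nil]
    omega
  · intro N F γ
    simp only [wop_cons, wop_nil]
    rw [op_serre_up _ _ _ k a b c (a + c - b) (by omega) F γ, sum_filter, sum_filter]
    refine sum_congr rfl fun p _ => ?_
    by_cases h1 : p.1 ≤ b
    · by_cases h2 : p.2 ≤ a + c - b
      · rw [if_pos h1, if_pos ⟨h1, h2⟩, gb_CX]
        simp [cast]
      · rw [if_pos h1, if_neg (fun h => h2 h.2), gb_eq_zero _ (by omega)]
        ring
    · rw [if_neg h1, if_neg (fun h => h1 h.1)]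
  · intro p hp
    obtain ⟨h1, h2, h3⟩ := mem_filter.1 hp
    simpa using h p.1 p.2 (mem_antidiagonal.1 h1) h2 h3

/-- almost twins, lower arm. -/
theorem PosW.dn {L1 L2 : List (ℤ × ℕ)} {k : ℤ} {a b c : ℕ} (hm : b ≤ a + c)
    (h : ∀ s j, s + j = c → s ≤ b → j ≤ a + c - b →
      PosW (L1 ++ (k, s) :: (k + 1, a + c) :: (k, b - s) :: L2)) :
    PosW (L1 ++ (k + 1, a) :: (k, b) :: (k + 1, c) :: L2) := by
  have := PosW.rule (ι := ℕ × ℕ)
    ((antidiagonal c).filter (fun p => p.1 ≤ b ∧ p.2 ≤ a + c - b)) L1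
    [(k + 1, a), (k, b), (k + 1, c)] L2
    (fun p => gbn (a + c - b) p.2 * Polynomial.X ^ ((b - p.1) * p.2))
    (fun p => [(k, p.1), (k + 1, a + c), (k, b - p.1)]) ?_ ?_ ?_
  · simpa using this
  · intro p hp
    have := (mem_filter.1 hp).2.1
    simp only [sz, List.map_cons, List.map_nil, List.sum_cons, List.sum_nil]
    omega
  · intro N F γ
    simp only [wop_cons, wop_nil]
    rw [op_serre_dn _ _ _ k a b c (a + c - b) (by omega) F γ, sum_filter, sum_filter]
    refine sum_congr rfl fun p _ => ?_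
    by_cases h1 : p.1 ≤ b
    · by_cases h2 : p.2 ≤ a + c - b
      · rw [if_pos h1, if_pos ⟨h1, h2⟩, gb_CX]
        simp [cast]
      · rw [if_pos h1, if_neg (fun h => h2 h.2), gb_eq_zero _ (by omega)]
        ring
    · rw [if_neg h1, if_neg (fun h => h1 h.1)]
  · intro p hp
    obtain ⟨h1, h2, h3⟩ := mem_filter.1 hp
    simpa using h p.1 p.2 (mem_antidiagonal.1 h1) h2 h3

/-- `ea` of the variables is `e_a`. -/
theorem E_eq_ea {R : Type*} [CommRing R] (x : ℕ → R) : ∀ (N a : ℕ), E x N a = ea x N a
  | 0, 0 => by simp [E, ea, xm]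
  | 0, a + 1 => by
      unfold ea
      rw [range_zero, powersetCard_eq_empty.2 (by simp), sum_empty]; rfl
  | N + 1, 0 => by simp [E, ea, xm]
  | N + 1, a + 1 => by
      have h1 : E x (N + 1) (a + 1) = E x N (a + 1) + x N * E x N a := rfl
      rw [h1, E_eq_ea x N (a + 1), E_eq_ea x N a]
      unfold ea
      rw [range_add_one, sum_powersetCard_insert (subset_refl _), mul_sum]
      congr 1
      refine sum_congr rfl fun A hA => ?_
      have hN : N ∉ A := fun h => absurd (mem_range.1 ((mem_powersetCard.1 hA).1 h)) (lt_irrefl N)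
      unfold xm
      rw [prod_insert hN]

/-- a class without neighbours. -/
theorem PosW.dec {k : ℤ} {a : ℕ} {L : List (ℤ × ℕ)} (hL : ∀ p ∈ L, p.1 ≠ k ∧ p.1 ≠ k + 1)
    (h : PosW L) : PosW ((k, a) :: L) := by
  refine ((EP.esymm a).mul h).congr ?_ (fun N => ?_)
  · rw [sz_cons]
  · unfold TrF
    rw [Tr_decouple _ _ _ k a L hL, ← E_eq_ea, E_xv]

/-- **S0081 follows from positivity of all words with letters of size one.** -/
theorem EPos_of_PosW (H : ∀ L : List (ℤ × ℕ), (∀ p ∈ L, p.2 = 1) → PosW L) :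
    ∀ (n : ℕ) (h : Fin n → ℕ), IsHessenberg h → EPos h := by
  intro n h hh
  obtain ⟨L, h1, h2, h3⟩ := chromatic_eq_Tr hh
  have hs : sz L = n := by
    rw [← h2]
    clear h2 h3
    induction L with
    | nil => rfl
    | cons p L ih =>
      rw [sz_cons, ih (fun p hp => h1 p (List.mem_cons_of_mem _ hp)),
        h1 p (List.mem_cons_self ..), List.length_cons]
      omega
  rw [EPos_iff]
  exact (H L h1).congr hs h3

end Crest.Agent.R059.OA530
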