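import Crest.Agent.R059.OA530

/-!
q-factorials, q-binomial theorem, one-colour pentagon identities.
-/

set_option autoImplicit false

namespace Crest.Agent.R059.SA530

open Finset Crest.Agent.R059.OA530

/-! ### q-binomials -/

section ring
variable {R : Type*} [CommRing R]

/-- `(k)_q`. -/
def qi (q : R) (k : ℕ) : R := ∑ j ∈ range k, q ^ j

/-- `(n)_q!`. -/
def fac (q : R) (n : ℕ) : R := ∏ i ∈ range n, qi q (i + 1)

theorem fac_zero (q : R) : fac q 0 = 1 := by unfold fac; simp

theorem fac_succ (q : R) (n : ℕ) : fac q (n + 1) = fac q n * qi q (n + 1) := by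
  unfold fac; rw [prod_range_succ]

theorem qi_add (q : R) (a b : ℕ) : qi q (a + b) = qi q a + q ^ a * qi q b := by
  unfold qi
  rw [sum_range_add, mul_sum]
  congr 1
  exact sum_congr rfl fun j _ => by rw [pow_add]

theorem mul_qi (q : R) (k : ℕ) : (q - 1) * qi q k = q ^ k - 1 := by
  unfold qi
  have := geom_sum_mul q k
  linear_combination this

theorem gb_fac (q : R) : ∀ (a b : ℕ), gb q (a + b) b * (fac q a * fac q b) = fac q (a + b)
  | a, 0 => by simp [fac_zero]
  | 0, b + 1 => by
      have : (0 + (b + 1)) = b + 1 := by omega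
      rw [this, gb_self, fac_zero]; ring
  | a + 1, b + 1 => by
      have h1 := gb_fac q a (b + 1)
      have h2 := gb_fac q (a + 1) b
      have e1 : a + 1 + (b + 1) = (a + (b + 1)) + 1 := by omega
      have e2 : a + 1 + b = a + (b + 1) := by omega
      rw [e2] at h2
      rw [e1, gb_succ_succ, fac_succ q (a + (b + 1)), ← e2]
      rw [← e2] at h1 h2
      have h3 : qi q (a + 1 + b + 1) = qi q (b + 1) + q ^ (b + 1) * qi q (a + 1) := by
        rw [← qi_add]; congr 1; omega
      rw [fac_succ q a, fac_succ q b, h3]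
      rw [fac_succ q b] at h1
      rw [fac_succ q a] at h2
      linear_combination (q ^ (b + 1) * qi q (a + 1)) * h1 + (qi q (b + 1)) * h2

/-- the q-binomial theorem. -/
theorem q_binomial (q x : R) : ∀ n : ℕ,
    ∑ b ∈ range (n + 1), gb q n b * q ^ (b.choose 2) * x ^ b = ∏ l ∈ range n, (1 + x * q ^ l)
  | 0 => by simp
  | n + 1 => by
      rw [prod_range_succ, ← q_binomial q x n, sum_range_succ' _ (n + 1)]
      have e1 : ∑ b ∈ range (n + 1), gb q (n + 1) (b + 1) * q ^ ((b + 1).choose 2) * x ^ (b + 1) =
          ∑ b ∈ range (n + 1), gb q n (b + 1) * q ^ ((b + 1).choose 2) * x ^ (b + 1) +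
          (x * q ^ n) * ∑ b ∈ range (n + 1), gb q n b * q ^ (b.choose 2) * x ^ b := by
        rw [mul_sum, ← sum_add_distrib]
        refine sum_congr rfl fun b hb => ?_
        have hb' : b ≤ n := Nat.lt_succ_iff.1 (mem_range.1 hb)
        rw [gb_succ_succ']
        have e2 : (b + 1).choose 2 = b.choose 2 + b := by
          rw [Nat.choose_succ_succ' b 1, Nat.choose_one_right]; ring
        have e3 : q ^ (n - b) * q ^ ((b + 1).choose 2) = q ^ n * q ^ (b.choose 2) := by
          rw [e2, ← pow_add, ← pow_add]; congr 1; omega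
        linear_combination (gb q n b * x ^ (b + 1)) * e3
      have e4 : ∑ b ∈ range (n + 1), gb q n (b + 1) * q ^ ((b + 1).choose 2) * x ^ (b + 1) +
          gb q n 0 * q ^ (Nat.choose 0 2) * x ^ 0 =
          ∑ b ∈ range (n + 1), gb q n b * q ^ (b.choose 2) * x ^ b := by
        rw [← sum_range_succ' (fun b => gb q n b * q ^ (b.choose 2) * x ^ b) (n + 1),
          sum_range_succ _ (n + 1), gb_eq_zero q (Nat.lt_succ_self n)]
        ring
      rw [e1]
      have e5 : gb q (n + 1) 0 = gb q n 0 := by simp
      rw [e5]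
      linear_combination e4

/-- rank counting, I. -/
theorem rank_I (q : R) (d : ℕ) : ∀ b : ℕ,
    ∑ a ∈ range (b + 1), gb q b a * ∏ i ∈ range a, (q ^ d - q ^ i) = q ^ (b * d)
  | 0 => by simp
  | b + 1 => by
      have ih := rank_I q d b
      have e0 : q ^ ((b + 1) * d) = q ^ d * q ^ (b * d) := by rw [← pow_add]; congr 1; ring
      rw [e0, ← ih, sum_range_succ' _ (b + 1), mul_sum]
      have e1 : ∀ a, q ^ d * (gb q b a * ∏ i ∈ range a, (q ^ d - q ^ i)) =
          gb q b a * ∏ i ∈ range (a + 1), (q ^ d - q ^ i) +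
          q ^ a * gb q b a * ∏ i ∈ range a, (q ^ d - q ^ i) := by
        intro a; rw [prod_range_succ]; ring
      rw [sum_congr rfl fun a _ => e1 a, sum_add_distrib,
        sum_range_succ' (fun a => q ^ a * gb q b a * ∏ i ∈ range a, (q ^ d - q ^ i)) b]
      have e2 : ∑ a ∈ range (b + 1), gb q (b + 1) (a + 1) * ∏ i ∈ range (a + 1), (q ^ d - q ^ i) =
          ∑ a ∈ range (b + 1), q ^ (a + 1) * gb q b (a + 1) *
            ∏ i ∈ range (a + 1), (q ^ d - q ^ i) +
          ∑ a ∈ range (b + 1), gb q b a * ∏ i ∈ range (a + 1), (q ^ d - q ^ i) := by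
        rw [← sum_add_distrib]
        refine sum_congr rfl fun a _ => ?_
        rw [gb_succ_succ]; ring
      have e3 : ∑ a ∈ range (b + 1), q ^ (a + 1) * gb q b (a + 1) *
            ∏ i ∈ range (a + 1), (q ^ d - q ^ i) =
          ∑ a ∈ range b, q ^ (a + 1) * gb q b (a + 1) *
            ∏ i ∈ range (a + 1), (q ^ d - q ^ i) := by
        rw [sum_range_succ, gb_eq_zero q (Nat.lt_succ_self b)]; ring
      rw [e2, e3]
      simp
      ring

/-- `[a+c+1; a+1][a+1] = [a+c+1; a][c+1]`. -/
theorem gb_key (q : R) : ∀ (c a : ℕ), gb q (a + c + 1) (a + 1) * qi q (a + 1) =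
    gb q (a + c + 1) a * qi q (c + 1) := by
  have q1 : qi q 1 = 1 := by simp [qi]
  have qs : ∀ k, qi q (k + 1) = 1 + q * qi q k := by
    intro k; rw [Nat.add_comm k 1, qi_add, q1]; ring
  have qs' : ∀ k, qi q (k + 1) = qi q k + q ^ k := by
    intro k; unfold qi; rw [sum_range_succ _ k]
  intro c
  induction c with
  | zero =>
    intro a
    rw [Nat.add_zero, gb_self]
    have h2 : ∀ a, gb q (a + 1) a = qi q (a + 1) := by
      intro a
      induction a with
      | zero => simp [qi]
      | succ a ih => rw [gb_succ_succ, ih, gb_self, qs' (a + 1)]; ring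
    rw [h2 a, show (0 + 1) = 1 from rfl, q1]; ring
  | succ c ihc =>
    intro a
    induction a with
    | zero =>
      have h1 := ihc 0
      simp only [zero_add, gb_zero_right] at h1 ⊢
      rw [gb_succ_succ, gb_zero_right, qs (c + 1)]
      rw [q1] at h1 ⊢
      linear_combination q * h1
    | succ a iha =>
      have h1 := ihc (a + 1)
      have e1 : a + 1 + (c + 1) + 1 = (a + 1 + c + 1) + 1 := by omega
      have e2 : a + (c + 1) + 1 = a + 1 + c + 1 := by omega
      rw [e2] at iha
      rw [e1, gb_succ_succ, gb_succ_succ q (a + 1 + c + 1) a]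
      have h3 := qs' (a + 1)
      have h4 := qs (c + 1)
      have h5 := qs' (c + 1)
      linear_combination (q ^ (a + 1 + 1)) * h1 + iha +
        (gb q (a + 1 + c + 1) (a + 1)) * h3 -
        (q ^ (a + 1) * gb q (a + 1 + c + 1) (a + 1)) * h4

/-- rank counting, II. -/
theorem rank_II (q : R) (d : ℕ) : ∀ b : ℕ,
    ∑ a ∈ range (b + 1), gb q b a * gb q d a * (1 - q) ^ a * fac q a * q ^ ((b - a) * (d - a)) = 1
  | 0 => by simp [fac_zero]
  | b + 1 => by
      have ih := rank_II q d b
      rw [sum_range_succ' _ (b + 1)]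
      -- the product P_a
      have hP : ∀ a, a < d → gb q d (a + 1) * ((1 - q) ^ (a + 1) * fac q (a + 1)) =
          gb q d a * ((1 - q) ^ a * fac q a) * (1 - q ^ (d - a)) := by
        intro a ha
        obtain ⟨c, rfl⟩ := Nat.exists_eq_add_of_lt ha
        have key := gb_key q c a
        have h5 : a + c + 1 - a = c + 1 := by omega
        rw [h5, fac_succ, pow_succ]
        have h6 := mul_qi q (c + 1)
        linear_combination ((1 - q) ^ a * (1 - q) * fac q a) * key -
          (gb q (a + c + 1) a * (1 - q) ^ a * fac q a) * h6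
      have e1 : ∀ a ∈ range (b + 1), gb q (b + 1) (a + 1) * gb q d (a + 1) * (1 - q) ^ (a + 1) *
            fac q (a + 1) * q ^ ((b + 1 - (a + 1)) * (d - (a + 1))) =
          gb q b (a + 1) * gb q d (a + 1) * (1 - q) ^ (a + 1) * fac q (a + 1) *
            q ^ ((b + 1 - (a + 1)) * (d - (a + 1))) +
          gb q b a * gb q d a * (1 - q) ^ a * fac q a * (1 - q ^ (d - a)) *
            q ^ ((b - a) * (d - a)) := by
        intro a ha
        have ha' : a ≤ b := Nat.lt_succ_iff.1 (mem_range.1 ha)
        rw [gb_succ_succ']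
        rcases Nat.lt_or_ge a d with hd | hd
        · have e2 : q ^ (b - a) * q ^ ((b + 1 - (a + 1)) * (d - (a + 1))) =
              q ^ ((b - a) * (d - a)) := by
            rw [← pow_add]; congr 1
            obtain ⟨c, rfl⟩ := Nat.exists_eq_add_of_lt hd
            have h1 : a + c + 1 - (a + 1) = c := by omega
            have h2 : a + c + 1 - a = c + 1 := by omega
            have h3 : b + 1 - (a + 1) = b - a := by omega
            rw [h1, h2, h3]; ring
          linear_combination (q ^ (b - a) * q ^ ((b + 1 - (a + 1)) * (d - (a + 1))) *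
            gb q b a) * hP a hd + (gb q b a * gb q d a * (1 - q) ^ a * fac q a *
              (1 - q ^ (d - a))) * e2
        · rw [gb_eq_zero q (by omega : d < a + 1), Nat.sub_eq_zero_of_le hd]
          simp
      rw [sum_congr rfl e1, sum_add_distrib]
      have e3 : ∑ a ∈ range (b + 1), gb q b (a + 1) * gb q d (a + 1) * (1 - q) ^ (a + 1) *
            fac q (a + 1) * q ^ ((b + 1 - (a + 1)) * (d - (a + 1))) +
          gb q (b + 1) 0 * gb q d 0 * (1 - q) ^ 0 * fac q 0 * q ^ ((b + 1 - 0) * (d - 0)) =
          ∑ a ∈ range (b + 1), gb q b a * gb q d a * (1 - q) ^ a * fac q a *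
            (q ^ (d - a) * q ^ ((b - a) * (d - a))) := by
        have e4 : ∑ a ∈ range (b + 1), gb q b a * gb q d a * (1 - q) ^ a * fac q a *
            (q ^ (d - a) * q ^ ((b - a) * (d - a))) =
            ∑ a ∈ range (b + 1 + 1), gb q b a * gb q d a * (1 - q) ^ a * fac q a *
              q ^ ((b + 1 - a) * (d - a)) := by
          rw [sum_range_succ _ (b + 1), gb_eq_zero q (Nat.lt_succ_self b)]
          simp only [zero_mul, add_zero]
          refine sum_congr rfl fun a ha => ?_
          have ha' : a ≤ b := Nat.lt_succ_iff.1 (mem_range.1 ha)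
          congr 1
          rw [← pow_add]; congr 1
          have : b + 1 - a = (b - a) + 1 := by omega
          rw [this]; ring
        rw [e4, sum_range_succ' _ (b + 1)]
        simp
      have e5 : ∑ a ∈ range (b + 1), gb q b a * gb q d a * (1 - q) ^ a * fac q a *
            (q ^ (d - a) * q ^ ((b - a) * (d - a))) +
          ∑ a ∈ range (b + 1), gb q b a * gb q d a * (1 - q) ^ a * fac q a * (1 - q ^ (d - a)) *
            q ^ ((b - a) * (d - a)) = 1 := by
        refine Eq.trans ?_ ih
        rw [← sum_add_distrib]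
        refine sum_congr rfl fun a _ => ?_
        ring
      linear_combination e3 + e5

end ring

end Crest.Agent.R059.SA530
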