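import Crest.Agent.R059.OE530

/-!
States `(w; g)`: the trace of `E_0^{(g_0)} E_{-1}^{(g_1)} ⋯ E_{-K}^{(g_K)} E_{-w_1} ⋯ E_{-w_n}`.
-/

set_option autoImplicit false

namespace Crest.Agent.R059.SP655

open Finset Crest.Agent.R059.OA530

variable {R : Type*} [CommRing R] (q : R) (x : ℕ → R) (N : ℕ)

/-- `(k)_q`. -/
def qz (q : R) (k : ℕ) : R := ∑ j ∈ range k, q ^ j

theorem qz_add (q : R) (a b : ℕ) : qz q (a + b) = qz q a + q ^ a * qz q b := by
  unfold qz
  rw [sum_range_add, mul_sum]
  congr 1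
  exact sum_congr rfl fun j _ => by rw [pow_add]

theorem gb_one (q : R) : ∀ n : ℕ, gb q n 1 = qz q n
  | 0 => by simp [qz]
  | n + 1 => by
      rw [show (1 : ℕ) = 0 + 1 from rfl, gb_succ_succ, gb_one q n, gb_zero_right,
        Nat.add_comm n 1, qz_add]
      simp [qz]; ring

theorem gb_symm1 (q : R) (n : ℕ) : gb q (1 + n) 1 = qz q (1 + n) := gb_one q _

/-- the two point relation (q-Serre) with signs. -/
theorem op_R (k : ℤ) (p m : ℕ) (F : Ctx → R) (γ : Ctx) :
    op q x N (k + 1) p (op q x N k m (op q x N (k + 1) 1 F)) γ =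
      (qz q (p + 1) - qz q m) * op q x N (k + 1) (p + 1) (op q x N k m F) γ +
      (if m = 0 then 0 else
        op q x N k 1 (op q x N (k + 1) (p + 1) (op q x N k (m - 1) F)) γ) := by
  have hz : ∀ (l : ℤ) (G : Ctx → R), op q x N l 0 G = G := fun l G => by
    funext c; exact op_zero q x N l G c
  rcases Nat.lt_or_ge (p + 1) m with h | h
  · -- `m > p + 1`
    obtain ⟨d, rfl⟩ : ∃ d, m = d + (p + 1) := ⟨m - (p + 1), by omega⟩
    have h1 := op_serre_up q x N k 1 (p + 1) (d + p) d (by omega) F γ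
    have e1 : (antidiagonal 1).filter (fun r : ℕ × ℕ => r.1 ≤ p + 1) = {(0, 1), (1, 0)} := by
      rw [filter_true_of_mem]
      · rfl
      · intro r hr
        have := mem_antidiagonal.1 hr
        omega
    rw [e1, sum_pair (by decide)] at h1
    simp only [gb_one, gb_zero_right, mul_one, Nat.sub_zero, mul_zero, pow_zero, one_mul, hz,
      Nat.add_sub_cancel] at h1
    have e2 : qz q (d + (p + 1)) = qz q (p + 1) + q ^ (p + 1) * qz q d := by
      rw [Nat.add_comm, qz_add]
    rw [show 1 + (d + p) = d + (p + 1) by omega] at h1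
    rw [if_neg (by omega), show d + (p + 1) - 1 = d + p by omega, h1, e2]
    ring
  · obtain ⟨d, hd⟩ : ∃ d, p + 1 = d + m := ⟨p + 1 - m, by omega⟩
    have h1 := op_serre_dn q x N k p m 1 d (by omega) F γ
    rcases Nat.eq_zero_or_pos m with hm | hm
    · subst hm
      have e1 : (antidiagonal 1).filter (fun r : ℕ × ℕ => r.1 ≤ 0) = {(0, 1)} := by decide
      rw [e1, sum_singleton] at h1
      simp only [gb_one, hz, pow_zero, mul_one, Nat.sub_zero] at h1
      simp only [hz]
      rw [h1, show p + 1 = d by omega]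
      simp [qz]
    · have e1 : (antidiagonal 1).filter (fun r : ℕ × ℕ => r.1 ≤ m) = {(0, 1), (1, 0)} := by
        rw [filter_true_of_mem]
        · rfl
        · intro r hr
          have := mem_antidiagonal.1 hr
          omega
      rw [e1, sum_pair (by decide)] at h1
      simp only [gb_one, gb_zero_right, mul_one, Nat.sub_zero, mul_zero, pow_zero, one_mul,
        hz] at h1
      have e2 : qz q (d + m) = qz q m + q ^ m * qz q d := by
        rw [Nat.add_comm, qz_add]
      rw [if_neg (by omega), h1, hd, e2]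
      ring

/-! ### words -/

/-- anchors `a, .., a+n-1`. -/
def seg (a n : ℕ) (g : ℕ → ℕ) : List (ℤ × ℕ) :=
  (List.range' a n).map (fun i : ℕ => (-(i : ℤ), g i))

/-- letters. -/
def lw (w : List ℕ) : List (ℤ × ℕ) := w.map (fun b : ℕ => (-(b : ℤ), 1))

/-- the trace of a state. -/
def W (K : ℕ) (w : List ℕ) (g : ℕ → ℕ) : R := Tr q x N (seg 0 (K + 1) g ++ lw w)

theorem mem_seg {a n : ℕ} {g : ℕ → ℕ} {p : ℤ × ℕ} (h : p ∈ seg a n g) :
    ∃ i, a ≤ i ∧ i < a + n ∧ p = (-(i : ℤ), g i) := by
  obtain ⟨i, hi, rfl⟩ := List.mem_map.1 h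
  rw [List.mem_range'_1] at hi
  exact ⟨i, hi.1, hi.2, rfl⟩

theorem seg_congr {a n : ℕ} {g g' : ℕ → ℕ} (h : ∀ i, a ≤ i → i < a + n → g i = g' i) :
    seg a n g = seg a n g' := by
  refine List.map_congr_left fun i hi => ?_
  rw [List.mem_range'_1] at hi
  rw [h i hi.1 hi.2]

theorem seg_split {K b : ℕ} (hb : b < K) (g : ℕ → ℕ) :
    seg 0 (K + 1) g = seg 0 b g ++ (-(b : ℤ), g b) :: (-((b + 1 : ℕ) : ℤ), g (b + 1)) ::
      seg (b + 2) (K - 1 - b) g := by
  unfold seg
  have h1 : List.range' 0 (K + 1) = List.range' 0 b ++ (b :: (b + 1) ::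
      List.range' (b + 2) (K - 1 - b)) := by
    have e1 : b :: (b + 1) :: List.range' (b + 2) (K - 1 - b) =
        List.range' b ((K - 1 - b) + 1 + 1) := by
      rw [List.range'_succ, List.range'_succ]
    have h2 := List.range'_append_1 (s := 0) (m := b) (n := (K - 1 - b) + 1 + 1)
    rw [Nat.zero_add] at h2
    rw [e1, h2]
    congr 1
    omega
  rw [h1, List.map_append]
  rfl

theorem Tr_context2 {w w1 w2 : List (ℤ × ℕ)} {r1 r2 : R}
    (H : ∀ (F : Ctx → R) (c : Ctx), wop q x N w F c =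
      r1 * wop q x N w1 F c + r2 * wop q x N w2 F c) (L1 L2 : List (ℤ × ℕ)) :
    Tr q x N (L1 ++ w ++ L2) =
      r1 * Tr q x N (L1 ++ w1 ++ L2) + r2 * Tr q x N (L1 ++ w2 ++ L2) := by
  have := Tr_context q x N (ι := Bool) Finset.univ w (fun i => if i then r1 else r2)
    (fun i => if i then w1 else w2)
    (fun F c => by simp [H F c]) L1 L2
  simpa using this

theorem Tr_congr_one {w w' : List (ℤ × ℕ)}
    (H : ∀ (F : Ctx → R) (c : Ctx), wop q x N w F c = wop q x N w' F c) (L1 L2 : List (ℤ × ℕ)) :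
    Tr q x N (L1 ++ w ++ L2) = Tr q x N (L1 ++ w' ++ L2) := by
  have := Tr_context q x N (ι := Unit) Finset.univ w (fun _ => 1) (fun _ => w')
    (fun F c => by simp [H F c]) L1 L2
  simpa using this

/-- a far letter moves through a block. -/
theorem Tr_move (l : ℤ) (a : ℕ) (L1 M L2 : List (ℤ × ℕ))
    (hM : ∀ p ∈ M, p.1 ≠ l + 1 ∧ l ≠ p.1 + 1 ∧ p.1 ≠ l) :
    Tr q x N (L1 ++ (l, a) :: (M ++ L2)) = Tr q x N (L1 ++ (M ++ (l, a) :: L2)) := by
  induction M generalizing L1 with
  | nil => rfl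
  | cons p M ih =>
    obtain ⟨m, b⟩ := p
    have hp := hM (m, b) (List.mem_cons_self ..)
    have h1 := Tr_congr_one q x N (w := [(l, a), (m, b)]) (w' := [(m, b), (l, a)])
      (fun F c => by
        simp only [wop_cons, wop_nil]
        exact op_comm q x N l m hp.2.1 hp.1 (fun h => hp.2.2 h.symm) a b F c) L1 (M ++ L2)
    have h2 := ih (L1 ++ [(m, b)]) (fun p hp => hM p (List.mem_cons_of_mem _ hp))
    simp only [List.append_assoc, List.cons_append, List.nil_append] at h1 h2 ⊢
    rw [h1, h2]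

/-- **the rotation relation** (q-form). -/
theorem W_R {K b : ℕ} (hb : b < K) (w : List ℕ) (g : ℕ → ℕ) :
    W q x N K (b :: w) g =
      (qz q (g b + 1) - qz q (g (b + 1))) * W q x N K w (Function.update g b (g b + 1)) +
      (if g (b + 1) = 0 then 0 else 1) * W q x N K (w ++ [b])
        (Function.update (Function.update g b (g b + 1)) (b + 1) (g (b + 1) - 1)) := by
  set n := K - 1 - b with hn
  have key : ∀ (g' : ℕ → ℕ), (∀ i, i < b → g' i = g i) → (∀ i, b + 2 ≤ i → g' i = g i) →
      seg 0 (K + 1) g' = seg 0 b g ++ (-(b : ℤ), g' b) :: (-((b + 1 : ℕ) : ℤ), g' (b + 1)) ::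
      seg (b + 2) n g := by
    intro g' h1 h2
    rw [seg_split hb g', seg_congr (a := 0) (n := b) (g := g') (g' := g)
      (fun i _ hi => h1 i (by omega)), seg_congr (a := b + 2) (g := g') (g' := g)
      (fun i hi _ => h2 i hi)]
  have hlv : -((b + 1 : ℕ) : ℤ) + 1 = -(b : ℤ) := by push_cast; ring
  unfold W
  rw [key g (fun _ _ => rfl) (fun _ _ => rfl),
    key (Function.update g b (g b + 1))
      (fun i hi => by rw [Function.update_of_ne (by omega)])
      (fun i hi => by rw [Function.update_of_ne (by omega)]),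
    key (Function.update (Function.update g b (g b + 1)) (b + 1) (g (b + 1) - 1))
      (fun i hi => by rw [Function.update_of_ne (by omega), Function.update_of_ne (by omega)])
      (fun i hi => by rw [Function.update_of_ne (by omega), Function.update_of_ne (by omega)])]
  have u1 : Function.update g b (g b + 1) b = g b + 1 := Function.update_self ..
  have u2 : Function.update g b (g b + 1) (b + 1) = g (b + 1) :=
    Function.update_of_ne (by omega) _ _
  have u3 : Function.update (Function.update g b (g b + 1)) (b + 1) (g (b + 1) - 1) b =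
      g b + 1 := by rw [Function.update_of_ne (by omega), u1]
  have u4 : Function.update (Function.update g b (g b + 1)) (b + 1) (g (b + 1) - 1) (b + 1) =
      g (b + 1) - 1 := Function.update_self ..
  rw [u1, u2, u3, u4]
  have e1 : lw (b :: w) = (-(b : ℤ), 1) :: lw w := rfl
  have e2 : lw (w ++ [b]) = lw w ++ [(-(b : ℤ), 1)] := by unfold lw; simp
  rw [e1, e2]
  -- move the letter next to its anchor
  have m1 := Tr_move q x N (-(b : ℤ)) 1
    (seg 0 b g ++ [(-(b : ℤ), g b), (-((b + 1 : ℕ) : ℤ), g (b + 1))]) (seg (b + 2) n g) (lw w)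
    (fun p hp => by
      obtain ⟨i, hi, _, rfl⟩ := mem_seg hp
      refine ⟨?_, ?_, ?_⟩ <;> simp only <;> omega)
  have m2 := Tr_context2 q x N
    (w := [(-(b : ℤ), g b), (-((b + 1 : ℕ) : ℤ), g (b + 1)), (-(b : ℤ), 1)])
    (w1 := [(-(b : ℤ), g b + 1), (-((b + 1 : ℕ) : ℤ), g (b + 1))])
    (w2 := [(-((b + 1 : ℕ) : ℤ), 1), (-(b : ℤ), g b + 1), (-((b + 1 : ℕ) : ℤ), g (b + 1) - 1)])
    (r1 := qz q (g b + 1) - qz q (g (b + 1))) (r2 := if g (b + 1) = 0 then 0 else 1)
    (fun F c => by
      have := op_R q x N (-((b + 1 : ℕ) : ℤ)) (g b) (g (b + 1)) F c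
      rw [hlv] at this
      simp only [wop_cons, wop_nil]
      rw [this]
      split_ifs <;> ring) (seg 0 b g) (seg (b + 2) n g ++ lw w)
  have m3 := Tr_move q x N (-((b + 1 : ℕ) : ℤ)) 1 [] (seg 0 b g)
    ([(-(b : ℤ), g b + 1), (-((b + 1 : ℕ) : ℤ), g (b + 1) - 1)] ++ (seg (b + 2) n g ++ lw w))
    (fun p hp => by
      obtain ⟨i, _, hi, rfl⟩ := mem_seg hp
      refine ⟨?_, ?_, ?_⟩ <;> simp only <;> omega)
  have m4 := Tr_rotate q x N (-((b + 1 : ℕ) : ℤ)) 1 (seg 0 b g ++
    ([(-(b : ℤ), g b + 1), (-((b + 1 : ℕ) : ℤ), g (b + 1) - 1)] ++ (seg (b + 2) n g ++ lw w)))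
  rw [hlv] at m4
  simp only [List.append_assoc, List.cons_append, List.nil_append] at m1 m2 m3 m4 ⊢
  rw [← m1, m2, ← m3, m4]

/-- no letters. -/
theorem W_nil (K : ℕ) (g : ℕ → ℕ) :
    W q x N K [] g = ∏ i ∈ range (K + 1), ea x N (g i) := by
  have key : ∀ n a, Tr q x N (seg a n g) = ∏ i ∈ range n, ea x N (g (a + i)) := by
    intro n
    induction n with
    | zero => intro a; simp [seg, Tr]
    | succ n ih =>
      intro a
      have e1 : seg a (n + 1) g = (-(a : ℤ), g a) :: seg (a + 1) n g := by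
        unfold seg; rw [List.range'_succ]; rfl
      rw [e1, Tr_decouple, ih (a + 1), prod_range_succ']
      · rw [mul_comm]
        congr 1
        refine prod_congr rfl fun i _ => ?_
        rw [show a + 1 + i = a + (i + 1) by omega]
      · intro p hp
        obtain ⟨i, hi, _, rfl⟩ := mem_seg hp
        constructor <;> simp only <;> omega
  have h := key (K + 1) 0
  unfold W lw
  rw [List.map_nil, List.append_nil, h]
  refine prod_congr rfl fun i _ => ?_
  rw [Nat.zero_add]

/-- far letters commute. -/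
theorem W_comm (K : ℕ) (u w : List ℕ) (b c : ℕ) (h1 : b ≠ c + 1) (h2 : c ≠ b + 1)
    (g : ℕ → ℕ) : W q x N K (u ++ b :: c :: w) g = W q x N K (u ++ c :: b :: w) g := by
  by_cases h3 : b = c
  · subst h3; rfl
  · unfold W
    have e : ∀ b c, lw (u ++ b :: c :: w) = lw u ++ ([(-(b : ℤ), 1), (-(c : ℤ), 1)] ++ lw w) := by
      intro b c; unfold lw; simp
    rw [e, e]
    have := Tr_congr_one q x N (w := [(-(b : ℤ), 1), (-(c : ℤ), 1)])
      (w' := [(-(c : ℤ), 1), (-(b : ℤ), 1)])
      (fun F c' => by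
        simp only [wop_cons, wop_nil]
        exact op_comm q x N _ _ (by omega) (by omega) (by omega) 1 1 F c')
      (seg 0 (K + 1) g ++ lw u) (lw w)
    simp only [List.append_assoc] at this ⊢
    exact this

/-- naturality of the trace. -/
theorem Tr_map {S : Type*} [CommRing S] (φ : R →+* S) (L : List (ℤ × ℕ)) :
    φ (Tr q x N L) = Tr (φ q) (fun i => φ (x i)) N L := by
  have key : ∀ (L : List (ℤ × ℕ)) (F : Ctx → R) (G : Ctx → S), (∀ c, φ (F c) = G c) →
      ∀ c, φ (wop q x N L F c) = wop (φ q) (fun i => φ (x i)) N L G c := by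
    intro L
    induction L with
    | nil => intro F G h c; exact h c
    | cons p L ih =>
      obtain ⟨l, a⟩ := p
      intro F G h c
      rw [wop_cons, wop_cons]
      unfold op
      rw [map_sum]
      refine sum_congr rfl fun A _ => ?_
      rw [map_mul, map_mul, map_mul, ih F G h]
      unfold pw xm
      rw [map_prod]
      congr 2
      congr 1
      · split_ifs
        · rw [map_pow]
        · rw [map_zero]
      · split_ifs
        · rw [map_pow]
        · rw [map_zero]
  exact key L _ _ (fun _ => map_one φ) _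

/-- shift of all levels by one. -/
theorem Tr_shift (L : List (ℤ × ℕ)) :
    Tr q x N L = Tr q x N (L.map (fun p => (p.1 + 1, p.2))) := by
  have key : ∀ (L M : List (ℤ × ℕ)),
      Tr q x N (L ++ M) = Tr q x N (M ++ L.map (fun p => (p.1 + 1, p.2))) := by
    intro L
    induction L with
    | nil => intro M; simp
    | cons p L ih =>
      obtain ⟨l, a⟩ := p
      intro M
      rw [List.cons_append, Tr_rotate, List.append_assoc, ih]
      simp
  have := key L []
  simpa using this

theorem Tr_shift_iter (L : List (ℤ × ℕ)) (k : ℕ) :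
    Tr q x N L = Tr q x N (L.map (fun p => (p.1 + k, p.2))) := by
  induction k with
  | zero => simp
  | succ k ih =>
    rw [ih, Tr_shift, List.map_map]
    congr 1
    refine List.map_congr_left fun p _ => ?_
    simp only [Function.comp]
    push_cast
    ring_nf

/-- shift of all levels. -/
theorem Tr_shift_neg (L : List (ℤ × ℕ)) (k : ℕ) :
    Tr q x N L = Tr q x N (L.map (fun p => (p.1 - k, p.2))) := by
  rw [Tr_shift_iter q x N (L.map (fun p => (p.1 - k, p.2))) k, List.map_map]
  congr 1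
  symm
  conv_rhs => rw [← List.map_id L]
  refine List.map_congr_left fun p _ => ?_
  simp [Function.comp]

/-- anchors without mass disappear. -/
theorem W_zero (K : ℕ) (w : List ℕ) : W q x N K w (fun _ => 0) = Tr q x N (lw w) := by
  have key : ∀ n a (M : List (ℤ × ℕ)),
      Tr q x N (seg a n (fun _ => 0) ++ M) = Tr q x N M := by
    intro n
    induction n with
    | zero => intro a M; simp [seg]
    | succ n ih =>
      intro a M
      have e1 : seg a (n + 1) (fun _ => 0) = (-(a : ℤ), 0) :: seg (a + 1) n (fun _ => 0) := by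
        unfold seg; rw [List.range'_succ]; rfl
      rw [e1, List.cons_append, ← ih (a + 1) M]
      unfold Tr
      rw [wop_cons]
      exact op_zero q x N _ _ _
  exact key _ _ _

/-- the rotation relation at an empty left anchor. -/
theorem W_R0 {K b : ℕ} (hb : b < K) (w : List ℕ) (g : ℕ → ℕ) (h0 : g b = 0) :
    W q x N K (w ++ [b]) g =
      qz q (g (b + 1) + 1) * W q x N K w (Function.update g (b + 1) (g (b + 1) + 1)) := by
  set n := K - 1 - b with hn
  have key : ∀ (g' : ℕ → ℕ), (∀ i, i < b → g' i = g i) → (∀ i, b + 2 ≤ i → g' i = g i) →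
      seg 0 (K + 1) g' = seg 0 b g ++ (-(b : ℤ), g' b) :: (-((b + 1 : ℕ) : ℤ), g' (b + 1)) ::
      seg (b + 2) n g := by
    intro g' h1 h2
    rw [seg_split hb g', seg_congr (a := 0) (n := b) (g := g') (g' := g)
      (fun i _ hi => h1 i (by omega)), seg_congr (a := b + 2) (g := g') (g' := g)
      (fun i hi _ => h2 i hi)]
  have hlv : -((b + 1 : ℕ) : ℤ) + 1 = -(b : ℤ) := by push_cast; ring
  unfold W
  rw [key g (fun _ _ => rfl) (fun _ _ => rfl),
    key (Function.update g (b + 1) (g (b + 1) + 1))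
      (fun i hi => by rw [Function.update_of_ne (by omega)])
      (fun i hi => by rw [Function.update_of_ne (by omega)])]
  have u1 : Function.update g (b + 1) (g (b + 1) + 1) (b + 1) = g (b + 1) + 1 :=
    Function.update_self ..
  have u2 : Function.update g (b + 1) (g (b + 1) + 1) b = g b :=
    Function.update_of_ne (by omega) _ _
  rw [u1, u2, h0]
  have e2 : lw (w ++ [b]) = lw w ++ [(-(b : ℤ), 1)] := by unfold lw; simp
  rw [e2]
  have m3 := Tr_move q x N (-((b + 1 : ℕ) : ℤ)) 1 [] (seg 0 b g)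
    ([(-(b : ℤ), 0), (-((b + 1 : ℕ) : ℤ), g (b + 1))] ++ (seg (b + 2) n g ++ lw w))
    (fun p hp => by
      obtain ⟨i, _, hi, rfl⟩ := mem_seg hp
      refine ⟨?_, ?_, ?_⟩ <;> simp only <;> omega)
  have m4 := Tr_rotate q x N (-((b + 1 : ℕ) : ℤ)) 1 (seg 0 b g ++
    ([(-(b : ℤ), 0), (-((b + 1 : ℕ) : ℤ), g (b + 1))] ++ (seg (b + 2) n g ++ lw w)))
  have hz : ∀ (l : ℤ) (G : Ctx → R), op q x N l 0 G = G := fun l G => by
    funext c; exact op_zero q x N l G c
  have m2 := Tr_context2 q x N
    (w := [(-((b + 1 : ℕ) : ℤ), 1), (-(b : ℤ), 0), (-((b + 1 : ℕ) : ℤ), g (b + 1))])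
    (w1 := [(-(b : ℤ), 0), (-((b + 1 : ℕ) : ℤ), g (b + 1) + 1)])
    (w2 := []) (r1 := qz q (g (b + 1) + 1)) (r2 := 0)
    (fun F c => by
      simp only [wop_cons, wop_nil, hz]
      rw [op_twins, gb_symm1, Nat.add_comm 1 (g (b + 1))]
      ring) (seg 0 b g) (seg (b + 2) n g ++ lw w)
  rw [hlv] at m4
  simp only [List.append_assoc, List.cons_append, List.nil_append] at m2 m3 m4 ⊢
  rw [← m4, m3, m2]
  ring

end Crest.Agent.R059.SP655
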