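import Crest.Agent.R059.StateA655

/-!
The symmetric (`v`) form of the states: relation (R) with the brackets `[m]_v`, `m : ℤ`.
-/

set_option autoImplicit false

namespace Crest.Agent.R059.SP655

open Finset Crest.Agent.R059.OA530
open LaurentPolynomial (T)

/-- `ℤ[v, v⁻¹]`. -/
abbrev LZ : Type := LaurentPolynomial ℤ

/-- `[m]_v`, `m : ℤ`. -/
noncomputable def br (m : ℤ) : LZ :=
  ∑ j ∈ range m.toNat, T (m - 1 - 2 * j) - ∑ j ∈ range (-m).toNat, T (-m - 1 - 2 * j)

theorem br_zero : br 0 = 0 := by simp [br]

theorem br_neg (m : ℤ) : br (-m) = - br m := by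
  unfold br; rw [neg_neg]; ring

theorem T_two_pow (j : ℕ) : (T 2 : LZ) ^ j = T (2 * j) := by
  rw [LaurentPolynomial.T_pow]; congr 1; ring

theorem qz_T (d : ℕ) : qz (T 2 : LZ) d = T ((d : ℤ) - 1) * br d := by
  unfold br qz
  rw [Int.toNat_natCast, show (-(d : ℤ)).toNat = 0 by omega, range_zero, sum_empty, sub_zero,
    mul_sum]
  rw [← sum_range_reflect]
  refine sum_congr rfl fun j hj => ?_
  have := mem_range.1 hj
  rw [T_two_pow, ← LaurentPolynomial.T_add]
  congr 1
  omega

/-- `(a)_q - (b)_q = v^{a+b-1} [a-b]`, `q = v^2`. -/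
theorem qz_sub (a b : ℕ) : qz (T 2 : LZ) a - qz (T 2 : LZ) b = T ((a : ℤ) + b - 1) * br (a - b) := by
  rcases le_total b a with h | h
  · obtain ⟨d, rfl⟩ := Nat.exists_eq_add_of_le h
    rw [qz_add, qz_T d, T_two_pow]
    have e : ((b + d : ℕ) : ℤ) - b = d := by push_cast; ring
    rw [e, add_sub_cancel_left, ← mul_assoc, ← LaurentPolynomial.T_add]
    congr 2
    push_cast; ring
  · obtain ⟨d, rfl⟩ := Nat.exists_eq_add_of_le h
    rw [qz_add, qz_T d, T_two_pow]
    have e : (a : ℤ) - ((a + d : ℕ) : ℤ) = -(d : ℤ) := by push_cast; ring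
    rw [e, br_neg, sub_add_cancel_left, ← mul_assoc, ← LaurentPolynomial.T_add, mul_neg]
    congr 3
    push_cast; ring

/-- the variables. -/
noncomputable def yv (N : ℕ) (i : ℕ) : MvPolynomial (Fin N) LZ :=
  if hi : i < N then MvPolynomial.X ⟨i, hi⟩ else 0

/-- edges between letters. -/
def inn : List ℕ → ℤ
  | [] => 0
  | b :: w => inn w + ((w.countP (fun c => c = b) + w.countP (fun c => c + 1 = b) : ℕ) : ℤ)

/-- number of edges of a state. -/
def de (w : List ℕ) (g : ℕ → ℤ) : ℤ := (w.map (fun b => g b + g (b + 1))).sum + inn w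

/-- one more unit on the anchor `b`. -/
def up (g : ℕ → ℤ) (b : ℕ) : ℕ → ℤ := Function.update g b (g b + 1)

/-- one unit from the anchor `b+1` to the anchor `b`. -/
def mv (g : ℕ → ℤ) (b : ℕ) : ℕ → ℤ :=
  Function.update (Function.update g b (g b + 1)) (b + 1) (g (b + 1) - 1)

theorem inn_append_single (w : List ℕ) (b : ℕ) : inn (w ++ [b]) =
    inn w + ((w.countP (fun c => c = b) + w.countP (fun c => c = b + 1) : ℕ) : ℤ) := by
  induction w with
  | nil => simp [inn]
  | cons a w ih =>
    rw [List.cons_append]
    unfold inn
    rw [ih]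
    simp only [List.countP_append, List.countP_cons, List.countP_nil]
    by_cases h1 : b = a
    · subst h1; simp; ring
    · by_cases h2 : b + 1 = a
      · subst h2; simp; ring
      · have h3 : ¬ a = b := fun h => h1 h.symm
        have h4 : ¬ a = b + 1 := fun h => h2 h.symm
        simp [h1, h2, h3, h4]; ring

theorem sum_up (w : List ℕ) (g : ℕ → ℤ) (b : ℕ) :
    (w.map (fun c => up g b c + up g b (c + 1))).sum =
      (w.map (fun c => g c + g (c + 1))).sum +
      ((w.countP (fun c => c = b) + w.countP (fun c => c + 1 = b) : ℕ) : ℤ) := by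
  induction w with
  | nil => simp
  | cons a w ih =>
    simp only [List.map_cons, List.sum_cons, ih, List.countP_cons]
    unfold up
    by_cases h1 : a = b
    · subst h1
      simp [Function.update_self, Function.update_of_ne]; ring
    · by_cases h2 : a + 1 = b
      · subst h2
        simp [Function.update_self, Function.update_of_ne]; ring
      · rw [Function.update_of_ne h1, Function.update_of_ne h2]
        simp [h1, h2]; ring

theorem sum_dn (w : List ℕ) (g : ℕ → ℤ) (b : ℕ) (c : ℤ) :
    (w.map (fun i => Function.update g b (g b + c) i +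
      Function.update g b (g b + c) (i + 1))).sum =
      (w.map (fun i => g i + g (i + 1))).sum +
      ((w.countP (fun i => i = b) + w.countP (fun i => i + 1 = b) : ℕ) : ℤ) * c := by
  induction w with
  | nil => simp
  | cons a w ih =>
    simp only [List.map_cons, List.sum_cons, ih, List.countP_cons]
    by_cases h1 : a = b
    · subst h1
      simp [Function.update_self, Function.update_of_ne]; ring
    · by_cases h2 : a + 1 = b
      · subst h2
        simp [Function.update_self, Function.update_of_ne]; ring
      · rw [Function.update_of_ne h1, Function.update_of_ne h2]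
        simp [h1, h2]; ring

theorem de_cons (w : List ℕ) (g : ℕ → ℤ) (b : ℕ) :
    de (b :: w) g = g b + g (b + 1) + de w (up g b) := by
  unfold de
  rw [sum_up]
  unfold inn
  simp only [List.map_cons, List.sum_cons]
  rw [inn.eq_def w]
  ring

theorem de_rot (w : List ℕ) (g : ℕ → ℤ) (b : ℕ) :
    de (w ++ [b]) (mv g b) = de (b :: w) g := by
  have e1 : mv g b = Function.update (up g b) (b + 1) (up g b (b + 1) + (-1)) := by
    unfold mv up
    rw [Function.update_of_ne (by omega : b + 1 ≠ b)]
    rfl
  have h1 := sum_dn w (up g b) (b + 1) (-1)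
  rw [← e1] at h1
  have h2 := sum_up w g b
  have u1 : mv g b b = g b + 1 := by
    unfold mv; rw [Function.update_of_ne (by omega), Function.update_self]
  have u2 : mv g b (b + 1) = g (b + 1) - 1 := by unfold mv; rw [Function.update_self]
  unfold de
  rw [inn_append_single, List.map_append, List.sum_append, h1, h2]
  have e3 : inn (b :: w) = inn w +
    ((w.countP (fun c => c = b) + w.countP (fun c => c + 1 = b) : ℕ) : ℤ) := rfl
  rw [e3]
  simp only [List.map_cons, List.map_nil, List.sum_cons, List.sum_nil, u1, u2]
  have e4 : w.countP (fun i => i + 1 = b + 1) = w.countP (fun i => i = b) := by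
    congr 1
    funext i
    simp
  rw [e4]
  push_cast
  ring

/-- the state polynomial. -/
noncomputable def f (K : ℕ) (w : List ℕ) (g : ℕ → ℤ) (N : ℕ) : MvPolynomial (Fin N) LZ :=
  if ∀ i ≤ K, 0 ≤ g i then
    MvPolynomial.C (T (- de w g)) *
      W (MvPolynomial.C (T 2)) (yv N) N K w (fun i => (g i).toNat)
  else 0

theorem f_of_nonneg {K : ℕ} {w : List ℕ} {g : ℕ → ℤ} {N : ℕ} (h : ∀ i ≤ K, 0 ≤ g i) :
    f K w g N = MvPolynomial.C (T (- de w g)) *
      W (MvPolynomial.C (T 2)) (yv N) N K w (fun i => (g i).toNat) := if_pos h

/-- a negative mass kills the state. -/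
theorem f_of_neg {K : ℕ} {w : List ℕ} {g : ℕ → ℤ} {N : ℕ} {i : ℕ} (hi : i ≤ K) (h : g i < 0) :
    f K w g N = 0 := if_neg (fun H => absurd (H i hi) (not_le.2 h))

theorem C_qz (N : ℕ) (k : ℕ) : qz (MvPolynomial.C (T 2) : MvPolynomial (Fin N) LZ) k =
    MvPolynomial.C (qz (T 2) k) := by
  unfold qz; rw [map_sum]; exact sum_congr rfl fun j _ => by rw [map_pow]

theorem toNat_update (g : ℕ → ℤ) (b : ℕ) (c : ℤ) :
    (fun i => (Function.update g b c i).toNat) =
      Function.update (fun i => (g i).toNat) b c.toNat := by
  funext i
  by_cases h : i = b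
  · subst h; rw [Function.update_self, Function.update_self]
  · rw [Function.update_of_ne h, Function.update_of_ne h]

/-- **relation (R)**: `f(bw; g) = [g_b - g_{b+1} + 1] f(w; g+e_b) + f(wb; g+e_b-e_{b+1})`,
for all `g : ℕ → ℤ`. -/
theorem f_R {K b : ℕ} (hb : b < K) (w : List ℕ) (g : ℕ → ℤ) (N : ℕ) :
    f K (b :: w) g N =
      MvPolynomial.C (br (g b - g (b + 1) + 1)) * f K w (up g b) N +
        f K (w ++ [b]) (mv g b) N := by
  have up_b : up g b b = g b + 1 := by unfold up; rw [Function.update_self]
  have up_ne : ∀ i, i ≠ b → up g b i = g i := fun i hi => by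
    unfold up; rw [Function.update_of_ne hi]
  have mv_b : mv g b b = g b + 1 := by
    unfold mv; rw [Function.update_of_ne (by omega), Function.update_self]
  have mv_b1 : mv g b (b + 1) = g (b + 1) - 1 := by unfold mv; rw [Function.update_self]
  have mv_ne : ∀ i, i ≠ b → i ≠ b + 1 → mv g b i = g i := fun i hi hi' => by
    unfold mv; rw [Function.update_of_ne hi', Function.update_of_ne hi]
  by_cases hg : ∀ i ≤ K, i ≠ b → 0 ≤ g i
  · have hg1 := hg (b + 1) (by omega) (by omega)
    by_cases hgb : 0 ≤ g b
    · -- all masses are non-negative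
      have h0 : ∀ i ≤ K, 0 ≤ g i := fun i hi => by
        by_cases h : i = b
        · subst h; exact hgb
        · exact hg i hi h
      have h1 : ∀ i ≤ K, 0 ≤ up g b i := fun i hi => by
        by_cases h : i = b
        · subst h; rw [up_b]; omega
        · rw [up_ne i h]; exact hg i hi h
      have hW := W_R (MvPolynomial.C (T 2)) (yv N) N hb w (fun i => (g i).toNat)
      rw [f_of_nonneg h0, f_of_nonneg h1, hW]
      have e1 : (fun i => (up g b i).toNat) =
          Function.update (fun i => (g i).toNat) b ((g b).toNat + 1) := by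
        unfold up
        rw [toNat_update]
        congr 1
        omega
      have e2 : (fun i => (mv g b i).toNat) =
          Function.update (Function.update (fun i => (g i).toNat) b ((g b).toNat + 1)) (b + 1)
            ((g (b + 1)).toNat - 1) := by
        unfold mv
        rw [toNat_update, toNat_update]
        congr 1
        · congr 1
          omega
        · omega
      have e3 : f K (w ++ [b]) (mv g b) N = MvPolynomial.C (T (- de (b :: w) g)) *
          ((if (g (b + 1)).toNat = 0 then 0 else 1) *
            W (MvPolynomial.C (T 2)) (yv N) N K (w ++ [b]) (fun i => (mv g b i).toNat)) := by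
        by_cases h : (g (b + 1)).toNat = 0
        · rw [if_pos h, zero_mul, mul_zero]
          exact f_of_neg (i := b + 1) (by omega) (by rw [mv_b1]; omega)
        · rw [if_neg h, one_mul, f_of_nonneg, de_rot]
          intro i hi
          by_cases h2 : i = b
          · subst h2; rw [mv_b]; omega
          · by_cases h3 : i = b + 1
            · subst h3; rw [mv_b1]; omega
            · rw [mv_ne i h2 h3]; exact hg i hi h2
      rw [e3, e1, e2, de_cons, C_qz, C_qz, ← map_sub, qz_sub]
      have e4 : (((g b).toNat + 1 : ℕ) : ℤ) = g b + 1 := by push_cast; omega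
      have e5 : (((g (b + 1)).toNat : ℕ) : ℤ) = g (b + 1) := by omega
      rw [e4, e5]
      have e6 : g b + 1 - g (b + 1) = g b - g (b + 1) + 1 := by ring
      rw [e6]
      have e7 : (T (-(g b + g (b + 1) + de w (up g b))) : LZ) * T (g b + 1 + g (b + 1) - 1) =
          T (- de w (up g b)) := by
        rw [← LaurentPolynomial.T_add]; congr 1; ring
      rw [← e7]
      simp only [map_mul]
      ring
    · -- the mass of `b` is negative
      rw [f_of_neg (i := b) (by omega) (by omega)]
      by_cases hgb' : g b = -1
      · by_cases hc : g (b + 1) = 0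
        · rw [hgb', hc]
          rw [f_of_neg (i := b + 1) (w := w ++ [b]) (by omega) (by rw [mv_b1]; omega)]
          simp [br_zero]
        · have h1 : ∀ i ≤ K, 0 ≤ up g b i := fun i hi => by
            by_cases h : i = b
            · subst h; rw [up_b]; omega
            · rw [up_ne i h]; exact hg i hi h
          have h2 : ∀ i ≤ K, 0 ≤ mv g b i := fun i hi => by
            by_cases h2 : i = b
            · subst h2; rw [mv_b]; omega
            · by_cases h3 : i = b + 1
              · subst h3; rw [mv_b1]; omega
              · rw [mv_ne i h2 h3]; exact hg i hi h2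
          have hW := W_R0 (MvPolynomial.C (T 2)) (yv N) N hb w (fun i => (mv g b i).toNat)
            (by simp only [mv_b]; omega)
          have e1 : Function.update (fun i => (mv g b i).toNat) (b + 1)
              ((mv g b (b + 1)).toNat + 1) = (fun i => (up g b i).toNat) := by
            funext i
            by_cases h3 : i = b + 1
            · subst h3
              rw [Function.update_self, mv_b1, up_ne _ (by omega)]; omega
            · rw [Function.update_of_ne h3]
              by_cases h4 : i = b
              · subst h4; rw [mv_b, up_b]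
              · rw [mv_ne i h4 h3, up_ne i h4]
          rw [f_of_nonneg h1, f_of_nonneg h2, de_rot, de_cons, hW, e1, C_qz, qz_T]
          have e4 : (((mv g b (b + 1)).toNat + 1 : ℕ) : ℤ) = g (b + 1) := by
            rw [mv_b1]; push_cast; omega
          rw [e4, hgb']
          have e6 : (-1 : ℤ) - g (b + 1) + 1 = - g (b + 1) := by ring
          rw [e6, br_neg]
          have e7 : (T (-(-1 + g (b + 1) + de w (up g b))) : LZ) * T (g (b + 1) - 1) =
              T (- de w (up g b)) := by
            rw [← LaurentPolynomial.T_add]; congr 1; ring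
          rw [← e7]
          simp only [map_mul, map_neg]
          ring
      · rw [f_of_neg (i := b) (w := w) (by omega) (by rw [up_b]; omega),
          f_of_neg (i := b) (w := w ++ [b]) (by omega) (by rw [mv_b]; omega)]
        ring
  · push Not at hg
    obtain ⟨i, hi, hib, hgi⟩ := hg
    rw [f_of_neg hi hgi, f_of_neg (w := w) hi (by rw [up_ne i hib]; exact hgi)]
    by_cases h3 : i = b + 1
    · subst h3
      rw [f_of_neg (i := b + 1) (w := w ++ [b]) (by omega) (by rw [mv_b1]; omega)]
      ring
    · rw [f_of_neg (w := w ++ [b]) hi (by rw [mv_ne i hib h3]; exact hgi)]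
      ring

end Crest.Agent.R059.SP655
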