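import Crest.Agent.R059.StateB655
import Crest.Agent.R059.Palin
import Crest.Agent.R059.Theta

/-!
Positive families over `ℕ[v, v⁻¹]`; S0081 from positivity of the states `(w; 0)`.
-/

set_option autoImplicit false

namespace Crest.Agent.R059.SP655

open Finset Crest.Agent.R059.OA530 Crest.CombinatoricsR.UnitInterval
open LaurentPolynomial (T)

/-- non-negative coefficients. -/
def NN (c : LZ) : Prop := ∀ i : ℤ, 0 ≤ c.coeff i

theorem NN.zero : NN 0 := fun i => by simp

theorem NN.T (n : ℤ) : NN (T n) := fun i => by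
  rw [LaurentPolynomial.T_apply]; split_ifs <;> norm_num

theorem NN.one : NN 1 := by rw [← LaurentPolynomial.T_zero]; exact NN.T 0

theorem NN.add {a b : LZ} (ha : NN a) (hb : NN b) : NN (a + b) := fun i => by
  rw [AddMonoidAlgebra.coeff_add]; exact add_nonneg (ha i) (hb i)

theorem NN.mul {a b : LZ} (ha : NN a) (hb : NN b) : NN (a * b) := fun i => by
  classical
  rw [AddMonoidAlgebra.coeff_mul]
  refine Finset.sum_nonneg fun j _ => Finset.sum_nonneg fun k _ => ?_
  dsimp only
  split_ifs
  · exact mul_nonneg (ha j) (hb k)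
  · exact le_rfl

theorem NN.sum {ι : Type*} (s : Finset ι) (F : ι → LZ) (h : ∀ i ∈ s, NN (F i)) :
    NN (∑ i ∈ s, F i) := by
  classical
  induction s using Finset.induction_on with
  | empty => simpa using NN.zero
  | insert a s ha ih =>
    rw [Finset.sum_insert ha]
    exact (h a (mem_insert_self a s)).add (ih fun i hi => h i (mem_insert_of_mem hi))

theorem NN.prod {ι : Type*} (s : Finset ι) (F : ι → LZ) (h : ∀ i ∈ s, NN (F i)) :
    NN (∏ i ∈ s, F i) := by
  classical
  induction s using Finset.induction_on with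
  | empty => simpa using NN.one
  | insert a s ha ih =>
    rw [Finset.prod_insert ha]
    exact (h a (mem_insert_self a s)).mul (ih fun i hi => h i (mem_insert_of_mem hi))

theorem NN.br {m : ℤ} (h : 0 ≤ m) : NN (br m) := by
  unfold SP655.br
  rw [show (-m).toNat = 0 by omega, range_zero, sum_empty, sub_zero]
  exact NN.sum _ _ fun i _ => NN.T _

/-- families over `ℤ[v, v⁻¹]`. -/
abbrev VFam : Type := ∀ N : ℕ, MvPolynomial (Fin N) LZ

/-- `e`-positive families of degree `n`, coefficients in `ℕ[v, v⁻¹]`. -/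
def VP (n : ℕ) (F : VFam) : Prop :=
  ∃ c : Nat.Partition n → LZ, (∀ μ, NN (c μ)) ∧ ∀ N : ℕ, F N =
    ∑ μ : Nat.Partition n, MvPolynomial.C (c μ) * MvPolynomial.esymmPart (Fin N) LZ μ

theorem VP.zero (n : ℕ) : VP n (fun _ => 0) := ⟨fun _ => 0, fun _ => NN.zero, fun N => by simp⟩

theorem VP.add {n : ℕ} {F G : VFam} (hF : VP n F) (hG : VP n G) :
    VP n (fun N => F N + G N) := by
  obtain ⟨c, hc0, hc⟩ := hF
  obtain ⟨d, hd0, hd⟩ := hG
  refine ⟨fun μ => c μ + d μ, fun μ => (hc0 μ).add (hd0 μ), fun N => ?_⟩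
  simp only [hc N, hd N, map_add, add_mul, Finset.sum_add_distrib]

theorem VP.smul {n : ℕ} {F : VFam} {a : LZ} (ha : NN a) (hF : VP n F) :
    VP n (fun N => MvPolynomial.C a * F N) := by
  obtain ⟨c, hc0, hc⟩ := hF
  refine ⟨fun μ => a * c μ, fun μ => ha.mul (hc0 μ), fun N => ?_⟩
  simp only [hc N, map_mul, Finset.mul_sum, mul_assoc]

theorem VP.congr {n m : ℕ} {F G : VFam} (hF : VP n F) (hnm : n = m) (h : ∀ N, G N = F N) :
    VP m G := by
  subst hnm
  obtain ⟨c, hc0, hc⟩ := hF
  exact ⟨c, hc0, fun N => by rw [h N, hc N]⟩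

theorem VP.sum {n : ℕ} {ι : Type*} (s : Finset ι) (F : ι → VFam) (hF : ∀ i ∈ s, VP n (F i)) :
    VP n (fun N => ∑ i ∈ s, F i N) := by
  classical
  induction s using Finset.induction_on with
  | empty => simpa using VP.zero n
  | insert a s ha ih =>
    simp only [Finset.sum_insert ha]
    exact (hF a (Finset.mem_insert_self a s)).add
      (ih (fun i hi => hF i (Finset.mem_insert_of_mem hi)))

theorem VP.esymmPart {n : ℕ} (μ : Nat.Partition n) :
    VP n (fun N => MvPolynomial.esymmPart (Fin N) LZ μ) := by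
  classical
  refine ⟨fun ν => if ν = μ then 1 else 0, fun ν => ?_, fun N => ?_⟩
  · dsimp only
    split_ifs
    · exact NN.one
    · exact NN.zero
  · rw [Finset.sum_eq_single μ]
    · simp
    · intro ν _ hν
      simp [hν]
    · intro h; exact absurd (Finset.mem_univ _) h

theorem esymmPart_unionP' {n m N : ℕ} (μ : Nat.Partition n) (ν : Nat.Partition m) :
    MvPolynomial.esymmPart (Fin N) LZ (unionP μ ν) =
      MvPolynomial.esymmPart (Fin N) LZ μ * MvPolynomial.esymmPart (Fin N) LZ ν := by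
  unfold MvPolynomial.esymmPart unionP
  simp [Multiset.map_add, Multiset.prod_add]

theorem VP.mul {n m : ℕ} {F G : VFam} (hF : VP n F) (hG : VP m G) :
    VP (n + m) (fun N => F N * G N) := by
  obtain ⟨c, hc0, hc⟩ := hF
  obtain ⟨d, hd0, hd⟩ := hG
  have h1 : VP (n + m) (fun N => ∑ μ : Nat.Partition n, ∑ ν : Nat.Partition m,
      MvPolynomial.C (c μ * d ν) * MvPolynomial.esymmPart (Fin N) LZ (unionP μ ν)) := by
    apply VP.sum
    intro μ _
    apply VP.sum
    intro ν _
    exact (VP.esymmPart (unionP μ ν)).smul ((hc0 μ).mul (hd0 ν))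
  refine h1.congr rfl (fun N => ?_)
  rw [hc N, hd N, Finset.sum_mul_sum]
  apply Finset.sum_congr rfl
  intro μ _
  apply Finset.sum_congr rfl
  intro ν _
  rw [esymmPart_unionP']
  simp only [map_mul]
  ring

theorem VP.esymm (k : ℕ) : VP k (fun N => MvPolynomial.esymm (Fin N) LZ k) :=
  (VP.esymmPart (Nat.Partition.indiscrete k)).congr rfl
    (fun N => (MvPolynomial.esymmPart_indiscrete (Fin N) LZ k).symm)

theorem VP.one : VP 0 (fun _ => 1) :=
  (VP.esymm 0).congr rfl (fun N => by simp)

/-! ### transfer to `ℕ[q]` -/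

/-- `q ↦ v^2`. -/
noncomputable def phi : Polynomial ℤ →+* LZ := Polynomial.eval₂RingHom (Int.castRingHom LZ) (T 2)

theorem phi_X : phi Polynomial.X = T 2 := by simp [phi]

theorem phi_monomial (k : ℕ) (a : ℤ) : phi (Polynomial.monomial k a) = a • T (2 * (k : ℤ)) := by
  unfold phi
  rw [Polynomial.coe_eval₂RingHom, Polynomial.eval₂_monomial, T_two_pow, zsmul_eq_mul]
  rfl

theorem coeff_zsmul (a : ℤ) (p : LZ) (i : ℤ) : (a • p).coeff i = a * p.coeff i := by
  rw [AddMonoidAlgebra.coeff_smul_apply]; rfl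

theorem phi_even (p : Polynomial ℤ) (k : ℕ) : (phi p).coeff (2 * (k : ℤ)) = p.coeff k := by
  induction p using Polynomial.induction_on' with
  | add p r hp hr =>
    rw [map_add, Polynomial.coeff_add, ← hp, ← hr]; rfl
  | monomial j a =>
    rw [phi_monomial, coeff_zsmul, LaurentPolynomial.T_apply, Polynomial.coeff_monomial]
    by_cases h : j = k
    · subst h; simp
    · rw [if_neg (by omega), if_neg h, mul_zero]

theorem phi_bad (p : Polynomial ℤ) (i : ℤ) (hi : ∀ k : ℕ, i ≠ 2 * (k : ℤ)) :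
    (phi p).coeff i = 0 := by
  induction p using Polynomial.induction_on' with
  | add p r hp hr =>
    rw [map_add]
    change (phi p).coeff i + (phi r).coeff i = 0
    rw [hp, hr, add_zero]
  | monomial j a =>
    rw [phi_monomial, coeff_zsmul, LaurentPolynomial.T_apply, if_neg (fun h => hi j h.symm),
      mul_zero]

theorem phi_inj : Function.Injective phi := by
  intro p r h
  ext k
  rw [← phi_even p k, ← phi_even r k, h]

theorem coeff_esymmPartV {n N : ℕ} (μ : Nat.Partition n) (m : Fin N →₀ ℕ) :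
    MvPolynomial.coeff m (MvPolynomial.esymmPart (Fin N) LZ μ) =
      ((MvPolynomial.coeff m (MvPolynomial.esymmPart (Fin N) ℤ μ) : ℤ) : LZ) := by
  have h1 : MvPolynomial.esymmPart (Fin N) LZ μ =
      MvPolynomial.map (Int.castRingHom LZ) (MvPolynomial.esymmPart (Fin N) ℤ μ) := by
    unfold MvPolynomial.esymmPart
    rw [map_multiset_prod, Multiset.map_map]
    congr 1
    apply Multiset.map_congr rfl
    intro p _
    exact (MvPolynomial.map_esymm (Fin N) ℤ p (Int.castRingHom LZ)).symm
  rw [h1, MvPolynomial.coeff_map]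
  rfl

theorem functionalV {n N : ℕ} (hN : n ≤ N) (c : Nat.Partition n → LZ) (Φ : LZ →+ ℤ)
    (hΦ : ∀ m : Fin N →₀ ℕ,
      Φ (MvPolynomial.coeff m (∑ μ, MvPolynomial.C (c μ) *
        MvPolynomial.esymmPart (Fin N) LZ μ)) = 0) :
    ∀ μ, Φ (c μ) = 0 := by
  apply Palin.esymmPart_indep (R := ℤ) hN
  ext m
  rw [MvPolynomial.coeff_zero, ← hΦ m, MvPolynomial.coeff_sum, MvPolynomial.coeff_sum, map_sum]
  apply Finset.sum_congr rfl
  intro μ _
  rw [MvPolynomial.coeff_C_mul, MvPolynomial.coeff_C_mul, coeff_esymmPartV, mul_comm (c μ),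
    ← zsmul_eq_mul, map_zsmul, mul_comm, smul_eq_mul]

/-- coefficient at `i`. -/
noncomputable def cfi (i : ℤ) : LZ →+ ℤ where
  toFun p := p.coeff i
  map_zero' := rfl
  map_add' _ _ := rfl

/-- **transfer.** -/
theorem EP_of_VP {n : ℕ} {F : Fam} {d : ℤ}
    (h : VP n (fun N => MvPolynomial.C (T d) * MvPolynomial.map phi (F N))) : EP n F := by
  classical
  obtain ⟨c, hc0, hc⟩ := h
  have hc2 : ∀ N, MvPolynomial.C (T d) * MvPolynomial.map phi (F N) =
    ∑ μ : Nat.Partition n, MvPolynomial.C (c μ) * MvPolynomial.esymmPart (Fin N) LZ μ := hc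
  have hc1 : ∀ N, MvPolynomial.map phi (F N) = ∑ μ : Nat.Partition n,
      MvPolynomial.C (T (-d) * c μ) * MvPolynomial.esymmPart (Fin N) LZ μ := by
    intro N
    have h1 : MvPolynomial.map phi (F N) = MvPolynomial.C (T (-d)) *
        (MvPolynomial.C (T d) * MvPolynomial.map phi (F N)) := by
      rw [← mul_assoc, ← map_mul, ← LaurentPolynomial.T_add, neg_add_cancel,
        LaurentPolynomial.T_zero, map_one, one_mul]
    rw [h1, hc2 N, Finset.mul_sum]
    exact Finset.sum_congr rfl fun μ _ => by rw [← mul_assoc, ← map_mul]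
  set c' : Nat.Partition n → LZ := fun μ => T (-d) * c μ with hc'
  have hn0 : ∀ μ, NN (c' μ) := fun μ => (NN.T _).mul (hc0 μ)
  have hbad : ∀ i : ℤ, (∀ k : ℕ, i ≠ 2 * (k : ℤ)) → ∀ μ, (c' μ).coeff i = 0 := by
    intro i hi
    refine functionalV (le_refl n) c' (cfi i) fun m => ?_
    rw [← hc1 n, MvPolynomial.coeff_map]
    exact phi_bad _ i hi
  -- the polynomials over ℕ
  let b : Nat.Partition n → Polynomial ℕ := fun μ =>
    ∑ i ∈ (c' μ).coeff.support, Polynomial.monomial (i / 2).toNat ((c' μ).coeff i).toNat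
  have hb : ∀ μ, phi (cast (b μ)) = c' μ := by
    intro μ
    have h1 : phi (cast (b μ)) = ∑ i ∈ (c' μ).coeff.support,
        ((c' μ).coeff i) • (T (2 * (((i / 2).toNat : ℕ) : ℤ)) : LZ) := by
      simp only [b, cast, Polynomial.map_sum, map_sum, Polynomial.map_monomial]
      refine Finset.sum_congr rfl fun i _ => ?_
      rw [phi_monomial]
      congr 1
      have := hn0 μ i
      simp only [eq_natCast]
      omega
    rw [h1]
    have h2 : ∀ i ∈ (c' μ).coeff.support,
        ((c' μ).coeff i) • (T (2 * (((i / 2).toNat : ℕ) : ℤ)) : LZ) =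
        AddMonoidAlgebra.single i ((c' μ).coeff i) := by
      intro i hi
      have h3 : ∃ k : ℕ, i = 2 * (k : ℤ) := by
        by_contra hcon
        push Not at hcon
        exact (Finsupp.mem_support_iff.1 hi) (hbad i hcon μ)
      obtain ⟨k, rfl⟩ := h3
      have e : 2 * (((2 * (k : ℤ) / 2).toNat : ℕ) : ℤ) = 2 * (k : ℤ) := by omega
      rw [e, LaurentPolynomial.single_eq_C_mul_T, zsmul_eq_mul]
      congr 1
    rw [Finset.sum_congr rfl h2]
    exact AddMonoidAlgebra.sum_coeff_single (c' μ)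
  refine ⟨b, fun N => ?_⟩
  apply MvPolynomial.map_injective phi phi_inj
  rw [hc1 N, map_sum]
  refine Finset.sum_congr rfl fun μ _ => ?_
  have e0 : MvPolynomial.C (T (-d) * c μ) = (MvPolynomial.C (c' μ) : MvPolynomial (Fin N) LZ) := rfl
  rw [RingHom.map_mul (MvPolynomial.map phi), MvPolynomial.map_C, hb μ, e0]
  congr 1
  unfold MvPolynomial.esymmPart
  rw [map_multiset_prod, Multiset.map_map]
  congr 1
  apply Multiset.map_congr rfl
  intro p _
  exact (MvPolynomial.map_esymm (Fin N) (Polynomial ℤ) p phi).symm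

/-! ### the states -/

theorem E_yv (N k : ℕ) : Pieri.E (yv N) N k = MvPolynomial.esymm (Fin N) LZ k := by
  rw [Pieri.E_esymm, MvPolynomial.esymm_eq_multiset_esymm]
  congr 1
  rw [Fin.univ_val_map, ← Multiset.coe_range, Multiset.map_coe]
  congr 1
  rw [List.ofFn_eq_map, ← List.map_coe_finRange_eq_range, List.map_map]
  apply List.map_congr_left
  intro a _
  simp only [Function.comp]
  unfold yv
  rw [dif_pos a.isLt]

/-- no letters. -/
theorem f_nil {K : ℕ} {g : ℕ → ℤ} (h : ∀ i ≤ K, 0 ≤ g i) (N : ℕ) :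
    f K [] g N = ∏ i ∈ range (K + 1), MvPolynomial.esymm (Fin N) LZ (g i).toNat := by
  rw [f_of_nonneg h, W_nil]
  have : de [] g = 0 := by simp [de, inn]
  rw [this, neg_zero, LaurentPolynomial.T_zero, map_one, one_mul]
  exact prod_congr rfl fun i _ => by rw [← E_eq_ea, E_yv]

theorem countP_pair (p : ℕ → Bool) (u w : List ℕ) (b c : ℕ) :
    (u ++ b :: c :: w).countP p = (u ++ c :: b :: w).countP p :=
  ((List.Perm.append_left u (List.Perm.swap c b w))).countP_eq p

theorem inn_comm (u w : List ℕ) (b c : ℕ) (h1 : b ≠ c + 1) (h2 : c ≠ b + 1) :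
    inn (u ++ b :: c :: w) = inn (u ++ c :: b :: w) := by
  induction u with
  | nil =>
    simp only [List.nil_append, inn, List.countP_cons]
    by_cases h3 : b = c
    · subst h3; rfl
    · have h4 : ¬ c = b := fun h => h3 h.symm
      have h5 : ¬ c + 1 = b := fun h => h1 h.symm
      have h6 : ¬ b + 1 = c := fun h => h2 h.symm
      simp [h3, h4, h5, h6]; ring
  | cons a u ih =>
    simp only [List.cons_append, inn, ih]
    rw [countP_pair, countP_pair (fun x => decide (x + 1 = a))]

/-- far letters commute. -/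
theorem f_comm (K : ℕ) (u w : List ℕ) (b c : ℕ) (h1 : b ≠ c + 1) (h2 : c ≠ b + 1)
    (g : ℕ → ℤ) (N : ℕ) : f K (u ++ b :: c :: w) g N = f K (u ++ c :: b :: w) g N := by
  unfold f
  have e1 : de (u ++ b :: c :: w) g = de (u ++ c :: b :: w) g := by
    unfold de
    rw [inn_comm u w b c h1 h2]
    congr 1
    exact List.Perm.sum_eq (List.Perm.map _ (List.Perm.append_left u (List.Perm.swap c b w)))
  rw [e1, W_comm _ _ _ K u w b c h1 h2]

/-- relation to the trace over `ℤ[q]`. -/
theorem f_zero (K : ℕ) (w : List ℕ) (N : ℕ) :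
    f K w (fun _ => 0) N = MvPolynomial.C (T (- de w (fun _ => 0))) *
      MvPolynomial.map phi (TrF (lw w) N) := by
  rw [f_of_nonneg (fun i _ => le_rfl)]
  congr 1
  have h1 : (fun i : ℕ => ((0 : ℤ)).toNat) = (fun _ => 0) := by funext i; rfl
  rw [h1, W_zero]
  unfold TrF
  rw [Tr_map]
  congr 1
  · rw [MvPolynomial.map_C, phi_X]
  · funext i
    unfold yv Pieri.xv
    split_ifs with h
    · rw [MvPolynomial.map_X]
    · rw [map_zero]

/-- **S0081 (in the form `EPos`) follows from the positivity of all states `(w; 0)`.** -/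
theorem EPos_of_statepos
    (H : ∀ (K : ℕ) (w : List ℕ), (∀ b ∈ w, b < K) → VP w.length (f K w (fun _ => 0))) :
    ∀ (n : ℕ) (h : Fin n → ℕ), IsHessenberg h → EPos h := by
  apply EPos_of_PosW
  intro L hL
  -- shift the levels to non-positive integers
  obtain ⟨k, hk⟩ : ∃ k : ℕ, ∀ p ∈ L, p.1 ≤ k := by
    clear hL
    induction L with
    | nil => exact ⟨0, fun p hp => absurd hp (List.not_mem_nil)⟩
    | cons p L ih =>
      obtain ⟨k, hk⟩ := ih
      refine ⟨max k p.1.toNat, fun r hr => ?_⟩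
      rcases List.mem_cons.1 hr with rfl | hr
      · push_cast; omega
      · have := hk r hr
        push_cast; omega
  let w : List ℕ := L.map (fun p => ((k : ℤ) - p.1).toNat)
  have hw : lw w = L.map (fun p => (p.1 - (k : ℤ), p.2)) := by
    unfold lw
    simp only [w, List.map_map]
    refine List.map_congr_left fun p hp => ?_
    have h1 := hk p hp
    have h2 := hL p hp
    simp only [Function.comp]
    rw [h2]
    congr 1
    omega
  obtain ⟨K, hK⟩ : ∃ K : ℕ, ∀ b ∈ w, b < K := by
    refine ⟨w.sum + 1, fun b hb => ?_⟩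
    have := List.single_le_sum (fun x _ => Nat.zero_le x) b hb
    omega
  have h1 := H K w hK
  have h2 : VP w.length (fun N => MvPolynomial.C (T (- de w (fun _ => 0))) *
      MvPolynomial.map phi (TrF L N)) := by
    refine h1.congr rfl fun N => ?_
    rw [f_zero]
    congr 2
    unfold TrF
    rw [hw, ← Tr_shift_neg]
  have h3 := EP_of_VP h2
  refine h3.congr ?_ (fun N => rfl)
  -- sizes
  have : ∀ L : List (ℤ × ℕ), (∀ p ∈ L, p.2 = 1) → sz L = L.length := by
    intro L
    induction L with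
    | nil => intro _; rfl
    | cons p L ih =>
      intro h
      rw [sz_cons, ih (fun p hp => h p (List.mem_cons_of_mem _ hp)),
        h p (List.mem_cons_self ..), List.length_cons]
      omega
  rw [this L hL]
  simp [w]

/-- **S0081 follows from the positivity of all states `(w; 0)`.** -/
theorem result_of_statepos
    (H : ∀ (K : ℕ) (w : List ℕ), (∀ b ∈ w, b < K) → VP w.length (f K w (fun _ => 0))) :
    ∀ (n : ℕ) (h : Fin n → ℕ), IsHessenberg h →
      ∃ θ : {σ : Equiv.Perm (Fin n) // σ ∈ descentSet h} → Nat.Partition n,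
        ∀ N : ℕ, chromaticQSym h N =
          ∑ σ : {σ : Equiv.Perm (Fin n) // σ ∈ descentSet h},
            MvPolynomial.C (Polynomial.X ^ ginv h σ.1) *
              MvPolynomial.esymmPart (Fin N) (Polynomial ℤ) (θ σ) :=
  main_of_EPos (EPos_of_statepos H)

end Crest.Agent.R059.SP655
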