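import Crest.Agent.R059.StateC655

/-!
Splitting of a state at an unused block.
-/

set_option autoImplicit false

namespace Crest.Agent.R059.SP655

open Finset Crest.Agent.R059.OA530
open LaurentPolynomial (T)

section
variable {R : Type*} [CommRing R] (q : R) (x : ℕ → R) (N : ℕ)

/-- a word that does not see the context. -/
theorem wop_blind (M : ℤ) : ∀ (L : List (ℤ × ℕ)), (∀ p ∈ L, p.1 ≤ M) →
    ∀ (c c' : Ctx), (∀ l ≤ M, c l = c' l) →
      wop q x N L (fun _ => (1 : R)) c = wop q x N L (fun _ => 1) c' := by
  intro L
  induction L with
  | nil => intro _ c c' _; rfl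
  | cons p L ih =>
    obtain ⟨l, a⟩ := p
    intro hL c c' h
    have h1 := hL (l, a) (List.mem_cons_self ..)
    simp only at h1
    rw [wop_cons]
    unfold op
    refine sum_congr rfl fun A _ => ?_
    rw [h l h1, h (l - 1) (by omega),
      ih (fun p hp => hL p (List.mem_cons_of_mem _ hp)) (addc c l A) (addc c' l A) ?_]
    intro m hm
    by_cases hml : m = l
    · subst hml; rw [addc_same, addc_same, h m hm]
    · rw [addc_of_ne _ hml, addc_of_ne _ hml, h m hm]

theorem wop_const : ∀ (L : List (ℤ × ℕ)) (P : Ctx → Prop) (F : Ctx → R) (r : R) (c : Ctx),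
    P c → (∀ c, P c → F c = r) → (∀ p ∈ L, ∀ c A, P c → P (addc c p.1 A)) →
    wop q x N L F c = r * wop q x N L (fun _ => 1) c := by
  intro L
  induction L with
  | nil => intro P F r c hc hF _; rw [wop_nil, wop_nil, hF c hc, mul_one]
  | cons p L ih =>
    obtain ⟨l, a⟩ := p
    intro P F r c hc hF hP
    rw [wop_cons, wop_cons]
    unfold op
    rw [mul_sum]
    refine sum_congr rfl fun A _ => ?_
    rw [ih P F r (addc c l A) (hP (l, a) (List.mem_cons_self ..) c A hc) hF
      (fun p hp => hP p (List.mem_cons_of_mem _ hp))]
    ring

/-- `Tr(A ++ B) = Tr A * Tr B` if the levels of `A` are above those of `B`. -/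
theorem Tr_mul (M : ℤ) (A B : List (ℤ × ℕ)) (hA : ∀ p ∈ A, M < p.1) (hB : ∀ p ∈ B, p.1 ≤ M) :
    Tr q x N (A ++ B) = Tr q x N A * Tr q x N B := by
  unfold Tr
  rw [wop_append]
  rw [wop_const q x N A (fun c => ∀ l ≤ M, c l = ∅) _ (wop q x N B (fun _ => 1) (fun _ => ∅))
    (fun _ => ∅) (fun _ _ => rfl) (fun c hc => wop_blind q x N M B hB c _ hc)]
  · ring
  · intro p hp c C hc l hl
    have := hA p hp
    rw [addc_of_ne _ (by omega), hc l hl]

/-- the letters with level `> M` move to the front of the letters. -/
theorem Tr_sort' (M : ℤ) : ∀ (A B w : List (ℤ × ℕ)), (∀ p ∈ B, p.1 ≤ M) →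
    (∀ p ∈ w, p.1 ≠ M + 1) →
    Tr q x N (A ++ (B ++ w)) =
      Tr q x N (A ++ (w.filter (fun p => decide (M < p.1)) ++
        (B ++ w.filter (fun p => decide (p.1 ≤ M))))) := by
  intro A B w
  induction w generalizing A B with
  | nil => intro _ _; simp
  | cons p w ih =>
    intro h2 h3
    have hp := h3 p (List.mem_cons_self ..)
    by_cases hpM : M < p.1
    · have hm := Tr_move q x N p.1 p.2 A B w (fun r hr => by
        have := h2 r hr
        refine ⟨by omega, by omega, by omega⟩)
      have h4 := ih (A ++ [p]) B h2 (fun r hr => h3 r (List.mem_cons_of_mem _ hr))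
      rw [List.filter_cons_of_pos (by simpa using hpM),
        List.filter_cons_of_neg (by simpa using hpM)]
      simp only [List.append_assoc, List.cons_append, List.nil_append] at hm h4 ⊢
      rw [← hm, h4]
    · have h4 := ih A (B ++ [p])
        (fun r hr => by
          rcases List.mem_append.1 hr with hr | hr
          · exact h2 r hr
          · rw [List.mem_singleton.1 hr]; omega)
        (fun r hr => h3 r (List.mem_cons_of_mem _ hr))
      rw [List.filter_cons_of_neg (by simpa using hpM),
        List.filter_cons_of_pos (by simpa using hpM)]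
      simp only [List.append_assoc, List.cons_append, List.nil_append] at h4 ⊢
      rw [h4]

/-- splitting a state at an unused block `b`. -/
theorem W_split {K b : ℕ} (hb : b < K) (w : List ℕ) (hw : ∀ c ∈ w, c ≠ b) (g : ℕ → ℕ) :
    W q x N K w g = W q x N b (w.filter (fun c => decide (c < b))) g *
      W q x N (K - b - 1) ((w.filter (fun c => decide (b < c))).map (fun c => c - (b + 1)))
        (fun i => g (i + (b + 1))) := by
  set M : ℤ := -((b + 1 : ℕ) : ℤ) with hM
  have e1 : seg 0 (K + 1) g = seg 0 (b + 1) g ++ seg (b + 1) (K - b) g := by
    unfold seg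
    rw [← List.map_append]
    congr 1
    have h2 := List.range'_append_1 (s := 0) (m := b + 1) (n := K - b)
    rw [Nat.zero_add] at h2
    rw [h2]
    congr 1
    omega
  have e2 : (lw w).filter (fun p => decide (M < p.1)) = lw (w.filter (fun c => decide (c < b))) := by
    unfold lw
    rw [List.filter_map]
    congr 1
    apply List.filter_congr
    intro c hc
    have := hw c hc
    simp only [Function.comp, decide_eq_decide]
    omega
  have e3 : (lw w).filter (fun p => decide (p.1 ≤ M)) = lw (w.filter (fun c => decide (b < c))) := by
    unfold lw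
    rw [List.filter_map]
    congr 1
    apply List.filter_congr
    intro c hc
    have := hw c hc
    simp only [Function.comp, decide_eq_decide]
    omega
  have h1 : ∀ p ∈ lw w, p.1 ≠ M + 1 := by
    intro p hp
    obtain ⟨c, hc, rfl⟩ := List.mem_map.1 hp
    have := hw c hc
    simp only
    omega
  have hB : ∀ p ∈ seg (b + 1) (K - b) g, p.1 ≤ M := by
    intro p hp
    obtain ⟨i, hi, _, rfl⟩ := mem_seg hp
    simp only
    omega
  have hs := Tr_sort' q x N M (seg 0 (b + 1) g) (seg (b + 1) (K - b) g) (lw w) hB h1
  rw [e2, e3] at hs
  have hmul := Tr_mul q x N M (seg 0 (b + 1) g ++ lw (w.filter (fun c => decide (c < b))))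
    (seg (b + 1) (K - b) g ++ lw (w.filter (fun c => decide (b < c))))
    (fun p hp => by
      rcases List.mem_append.1 hp with hp | hp
      · obtain ⟨i, _, hi, rfl⟩ := mem_seg hp
        simp only
        omega
      · obtain ⟨c, hc, rfl⟩ := List.mem_map.1 hp
        have := (List.mem_filter.1 hc).2
        simp only [decide_eq_true_eq] at this ⊢
        omega)
    (fun p hp => by
      rcases List.mem_append.1 hp with hp | hp
      · exact hB p hp
      · obtain ⟨c, hc, rfl⟩ := List.mem_map.1 hp
        have := (List.mem_filter.1 hc).2
        simp only [decide_eq_true_eq] at this ⊢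
        omega)
  unfold W
  rw [e1]
  simp only [List.append_assoc] at hs hmul ⊢
  rw [hs, hmul]
  congr 1
  rw [Tr_shift_iter q x N _ (b + 1), List.map_append]
  congr 2
  · unfold seg
    rw [List.map_map]
    have e4 : List.range' (b + 1) (K - b) =
        (List.range' 0 (K - b - 1 + 1)).map (fun i => (b + 1) + i) := by
      rw [List.map_add_range', show K - b - 1 + 1 = K - b by omega, Nat.add_zero]
    rw [e4, List.map_map]
    refine List.map_congr_left fun i _ => ?_
    simp only [Function.comp]
    rw [Nat.add_comm (b + 1) i]
    congr 1
    push_cast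
    ring
  · unfold lw
    rw [List.map_map, List.map_map]
    refine List.map_congr_left fun c hc => ?_
    have := (List.mem_filter.1 hc).2
    simp only [decide_eq_true_eq] at this
    simp only [Function.comp]
    congr 1
    omega

end

/-! ### the `v`-form -/

theorem inn_filter (b : ℕ) : ∀ (w : List ℕ), (∀ c ∈ w, c ≠ b) →
    inn w = inn (w.filter (fun c => decide (c < b))) +
      inn ((w.filter (fun c => decide (b < c))).map (fun c => c - (b + 1))) := by
  intro w
  induction w with
  | nil => intro _; simp [inn]
  | cons a w ih =>
    intro hw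
    have ih' := ih (fun c hc => hw c (List.mem_cons_of_mem _ hc))
    have ha := hw a (List.mem_cons_self ..)
    by_cases hab : a < b
    · rw [List.filter_cons_of_pos (by simpa using hab),
        List.filter_cons_of_neg (by simp; omega)]
      simp only [inn]
      rw [ih', List.countP_filter, List.countP_filter]
      have c1 : w.countP (fun c => decide (c = a) && decide (c < b)) =
          w.countP (fun c => decide (c = a)) := by
        refine List.countP_congr fun c _ => ?_
        simp only [Bool.and_eq_true, decide_eq_true_eq]
        constructor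
        · exact fun h => h.1
        · exact fun h => ⟨h, by omega⟩
      have c2 : w.countP (fun c => decide (c + 1 = a) && decide (c < b)) =
          w.countP (fun c => decide (c + 1 = a)) := by
        refine List.countP_congr fun c _ => ?_
        simp only [Bool.and_eq_true, decide_eq_true_eq]
        constructor
        · exact fun h => h.1
        · exact fun h => ⟨h, by omega⟩
      rw [c1, c2]
      ring
    · rw [List.filter_cons_of_neg (by simpa using hab),
        List.filter_cons_of_pos (by simp; omega), List.map_cons]
      simp only [inn]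
      rw [ih', List.countP_map, List.countP_map, List.countP_filter, List.countP_filter]
      have c1 : w.countP (fun c => ((fun c => decide (c = a - (b + 1))) ∘
          (fun c => c - (b + 1))) c && decide (b < c)) =
          w.countP (fun c => decide (c = a)) := by
        refine List.countP_congr fun c _ => ?_
        simp only [Function.comp, Bool.and_eq_true, decide_eq_true_eq]
        omega
      have c2 : w.countP (fun c => ((fun c => decide (c + 1 = a - (b + 1))) ∘
          (fun c => c - (b + 1))) c && decide (b < c)) =
          w.countP (fun c => decide (c + 1 = a)) := by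
        refine List.countP_congr fun c hc => ?_
        have := hw c (List.mem_cons_of_mem _ hc)
        simp only [Function.comp, Bool.and_eq_true, decide_eq_true_eq]
        omega
      rw [c1, c2]
      ring

theorem de_filter (b : ℕ) (g : ℕ → ℤ) (w : List ℕ) (hw : ∀ c ∈ w, c ≠ b) :
    de w g = de (w.filter (fun c => decide (c < b))) g +
      de ((w.filter (fun c => decide (b < c))).map (fun c => c - (b + 1)))
        (fun i => g (i + (b + 1))) := by
  unfold de
  rw [inn_filter b w hw]
  have : (w.map (fun c => g c + g (c + 1))).sum =
      ((w.filter (fun c => decide (c < b))).map (fun c => g c + g (c + 1))).sum +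
      (((w.filter (fun c => decide (b < c))).map (fun c => c - (b + 1))).map
        (fun c => g (c + (b + 1)) + g (c + 1 + (b + 1)))).sum := by
    induction w with
    | nil => simp
    | cons a w ih =>
      have ih' := ih (fun c hc => hw c (List.mem_cons_of_mem _ hc))
      have ha := hw a (List.mem_cons_self ..)
      by_cases hab : a < b
      · rw [List.filter_cons_of_pos (by simpa using hab),
          List.filter_cons_of_neg (by simp; omega)]
        simp only [List.map_cons, List.sum_cons, ih']
        ring
      · rw [List.filter_cons_of_neg (by simpa using hab),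
          List.filter_cons_of_pos (by simp; omega)]
        simp only [List.map_cons, List.sum_cons, ih']
        have e1 : a - (b + 1) + (b + 1) = a := by omega
        have e2 : a - (b + 1) + 1 + (b + 1) = a + 1 := by omega
        rw [e1, e2]
        ring
  rw [this]
  ring

/-- **splitting**: an unused block `b` cuts the state into two independent states. -/
theorem f_split {K b : ℕ} (hb : b < K) (w : List ℕ) (hw : ∀ c ∈ w, c ≠ b) (g : ℕ → ℤ) (N : ℕ) :
    f K w g N = f b (w.filter (fun c => decide (c < b))) g N *
      f (K - b - 1) ((w.filter (fun c => decide (b < c))).map (fun c => c - (b + 1)))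
        (fun i => g (i + (b + 1))) N := by
  by_cases h : ∀ i ≤ K, 0 ≤ g i
  · rw [f_of_nonneg h, f_of_nonneg (fun i hi => h i (by omega)),
      f_of_nonneg (fun i hi => h _ (by omega)), W_split _ _ _ hb w hw, de_filter b g w hw,
      neg_add, LaurentPolynomial.T_add, map_mul]
    ring
  · push Not at h
    obtain ⟨i, hi, hgi⟩ := h
    rw [f_of_neg hi hgi]
    by_cases hib : i ≤ b
    · rw [f_of_neg hib hgi, zero_mul]
    · rw [f_of_neg (i := i - (b + 1)) (K := K - b - 1) (by omega)
        (by rw [show i - (b + 1) + (b + 1) = i by omega]; exact hgi), mul_zero]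

end Crest.Agent.R059.SP655
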