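import Crest.Agent.R059.OE530
import Crest.Agent.R059.Open

/-!
Interface for the states `(w; g)`: thick anchors `0..K`, unit letters `b` (`1 ≤ b ≤ K`) between the
anchors `b-1` and `b`.
-/

set_option autoImplicit false

namespace Crest.Agent.R059.WG353

open Finset Crest.Agent.R059.OA530 Crest.Agent.R059.Pieri

/-! ### Gaussian numbers -/

theorem gbn_succ (n k : ℕ) :
    gbn (n + 1) (k + 1) = Polynomial.X ^ (k + 1) * gbn n (k + 1) + gbn n k := rfl

theorem gbn_lt : ∀ (n k : ℕ), n < k → gbn n k = 0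
  | _, 0, h => absurd h (Nat.not_lt_zero _)
  | 0, k + 1, _ => rfl
  | n + 1, k + 1, h => by
      rw [gbn_succ, gbn_lt n (k + 1) (by omega), gbn_lt n k (by omega)]; ring

theorem gbn_self : ∀ n : ℕ, gbn n n = 1
  | 0 => rfl
  | n + 1 => by rw [gbn_succ, gbn_lt n (n + 1) (by omega), gbn_self n]; ring

/-- `[n] = 1 + q + .. + q^(n-1)`. -/
theorem gbn_one : ∀ n : ℕ, gbn n 1 = ∑ i ∈ range n, Polynomial.X ^ i
  | 0 => rfl
  | n + 1 => by
      rw [gbn_succ, gbn_one n, gbn_zero, sum_range_succ', Finset.mul_sum]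
      simp [pow_succ']

theorem gbn_symm1 : ∀ n : ℕ, gbn (n + 1) n = gbn (n + 1) 1
  | 0 => by rw [gbn_zero, gbn_one]; simp
  | n + 1 => by
      rw [gbn_succ, gbn_self, gbn_symm1 n, gbn_one, gbn_one, sum_range_succ _ (n + 1)]
      ring

theorem cast_one_sub (n : ℕ) :
    (1 - Polynomial.X) * cast (gbn n 1) = (1 - Polynomial.X ^ n : Polynomial ℤ) := by
  have e : cast (gbn n 1) = ∑ i ∈ range n, (Polynomial.X : Polynomial ℤ) ^ i := by
    rw [gbn_one]
    simp [cast, Polynomial.map_sum]
  rw [e]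
  have := mul_neg_geom_sum (Polynomial.X : Polynomial ℤ) n
  exact this

/-! ### equality calculus on traces -/

theorem T_comm {L1 L2 : List (ℤ × ℕ)} {l m : ℤ} {a b : ℕ} (h1 : l ≠ m + 1) (h2 : m ≠ l + 1)
    (h3 : l ≠ m) (N : ℕ) :
    TrF (L1 ++ (l, a) :: (m, b) :: L2) N = TrF (L1 ++ (m, b) :: (l, a) :: L2) N := by
  have := Tr_context (MvPolynomial.C Polynomial.X) (xv N) N (ι := Unit) Finset.univ
    [(l, a), (m, b)] (fun _ => 1) (fun _ => [(m, b), (l, a)]) ?_ L1 L2
  · simpa [TrF] using this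
  · intro F c
    simp only [wop_cons, wop_nil, Finset.univ_unique, Finset.sum_singleton, one_mul]
    rw [op_comm _ _ _ l m h1 h2 h3]

/-- a letter passes a list of far letters. -/
theorem T_pass {l : ℤ} {a : ℕ} (N : ℕ) : ∀ (V L1 L2 : List (ℤ × ℕ)),
    (∀ p ∈ V, p.1 ≠ l ∧ p.1 ≠ l + 1 ∧ l ≠ p.1 + 1) →
    TrF (L1 ++ (V ++ (l, a) :: L2)) N = TrF (L1 ++ (l, a) :: (V ++ L2)) N
  | [], L1, L2, _ => rfl
  | (m, b) :: V, L1, L2, h => by
      have h1 := h (m, b) (List.mem_cons_self ..)
      have h2 := T_pass (l := l) (a := a) N V (L1 ++ [(m, b)]) L2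
        (fun p hp => h p (List.mem_cons_of_mem _ hp))
      rw [show L1 ++ ((m, b) :: V ++ (l, a) :: L2) = (L1 ++ [(m, b)]) ++ (V ++ (l, a) :: L2) by simp,
        h2, show (L1 ++ [(m, b)]) ++ (l, a) :: (V ++ L2) = L1 ++ (m, b) :: (l, a) :: (V ++ L2) by simp,
        T_comm h1.2.1 h1.2.2 h1.1]
      rfl

theorem T_drop {L1 L2 : List (ℤ × ℕ)} {l : ℤ} (N : ℕ) :
    TrF (L1 ++ (l, 0) :: L2) N = TrF (L1 ++ L2) N := by
  have := Tr_context (MvPolynomial.C Polynomial.X) (xv N) N (ι := Unit) Finset.univ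
    [(l, 0)] (fun _ => 1) (fun _ => []) ?_ L1 L2
  · simpa [TrF] using this
  · intro F c
    simp only [wop_cons, wop_nil, Finset.univ_unique, Finset.sum_singleton, one_mul]
    rw [op_zero]

theorem T_rot {k : ℤ} {a : ℕ} {L : List (ℤ × ℕ)} (N : ℕ) :
    TrF ((k, a) :: L) N = TrF (L ++ [(k + 1, a)]) N := Tr_rotate _ _ _ k a L

theorem T_twins {L1 L2 : List (ℤ × ℕ)} {l : ℤ} {a b : ℕ} (N : ℕ) :
    TrF (L1 ++ (l, a) :: (l, b) :: L2) N =
      MvPolynomial.C (cast (gbn (a + b) a)) * TrF (L1 ++ (l, a + b) :: L2) N := by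
  have := Tr_context (MvPolynomial.C Polynomial.X) (xv N) N (ι := Unit) Finset.univ
    [(l, a), (l, b)] (fun _ => MvPolynomial.C (cast (gbn (a + b) a))) (fun _ => [(l, a + b)]) ?_ L1 L2
  · simpa [TrF] using this
  · intro F c
    simp only [wop_cons, wop_nil, Finset.univ_unique, Finset.sum_singleton]
    rw [op_twins, gb_CX]

/-- `E_{k+1}^{(a)} E_k^{(m+1)} E_{k+1}`, case `m ≤ a`. -/
theorem T_dn {L1 L2 : List (ℤ × ℕ)} {k : ℤ} {a m : ℕ} (hm : m ≤ a) (N : ℕ) :
    TrF (L1 ++ (k + 1, a) :: (k, m + 1) :: (k + 1, 1) :: L2) N =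
      MvPolynomial.C (cast (gbn (a - m) 1 * Polynomial.X ^ (m + 1))) *
        TrF (L1 ++ (k + 1, a + 1) :: (k, m + 1) :: L2) N +
      TrF (L1 ++ (k, 1) :: (k + 1, a + 1) :: (k, m) :: L2) N := by
  have := Tr_context (MvPolynomial.C Polynomial.X) (xv N) N (ι := Bool) Finset.univ
    [(k + 1, a), (k, m + 1), (k + 1, 1)]
    (fun i => if i then MvPolynomial.C (cast (gbn (a - m) 1 * Polynomial.X ^ (m + 1))) else 1)
    (fun i => if i then [(k + 1, a + 1), (k, m + 1)] else [(k, 1), (k + 1, a + 1), (k, m)])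
    ?_ L1 L2
  · simpa [TrF] using this
  · intro F c
    simp only [wop_cons, wop_nil, Fintype.sum_bool, if_true, Bool.false_eq_true, if_false]
    rw [op_serre_dn _ _ _ k a (m + 1) 1 (a - m) (by omega)]
    rw [sum_filter, Finset.Nat.sum_antidiagonal_eq_sum_range_succ
      (f := fun i j => if i ≤ m + 1 then
        gb (MvPolynomial.C Polynomial.X : MvPolynomial (Fin N) (Polynomial ℤ)) (a - m) j *
          MvPolynomial.C Polynomial.X ^ ((m + 1 - i) * j) *
          op (MvPolynomial.C Polynomial.X) (xv N) N k i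
            (op (MvPolynomial.C Polynomial.X) (xv N) N (k + 1) (a + 1)
              (op (MvPolynomial.C Polynomial.X) (xv N) N k (m + 1 - i) F)) c else 0)]
    rw [sum_range_succ, sum_range_one]
    simp only [Nat.zero_le, if_true, Nat.sub_zero, mul_one, Nat.sub_self, mul_zero, pow_zero,
      Nat.le_add_left, Nat.add_sub_cancel, one_mul]
    rw [op_zero, gb_CX, gb_zero_right, one_mul]
    simp [cast]

/-- `E_{k+1}^{(a)} E_k^{(m+1)} E_{k+1}`, case `a ≤ m`. -/
theorem T_up {L1 L2 : List (ℤ × ℕ)} {k : ℤ} {a m : ℕ} (hm : a ≤ m) (N : ℕ) :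
    TrF (L1 ++ (k, 1) :: (k + 1, a + 1) :: (k, m) :: L2) N =
      MvPolynomial.C (cast (gbn (m - a) 1 * Polynomial.X ^ (a + 1))) *
        TrF (L1 ++ (k + 1, a + 1) :: (k, m + 1) :: L2) N +
      TrF (L1 ++ (k + 1, a) :: (k, m + 1) :: (k + 1, 1) :: L2) N := by
  have := Tr_context (MvPolynomial.C Polynomial.X) (xv N) N (ι := Bool) Finset.univ
    [(k, 1), (k + 1, a + 1), (k, m)]
    (fun i => if i then MvPolynomial.C (cast (gbn (m - a) 1 * Polynomial.X ^ (a + 1))) else 1)
    (fun i => if i then [(k + 1, a + 1), (k, m + 1)] else [(k + 1, a), (k, m + 1), (k + 1, 1)])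
    ?_ L1 L2
  · simpa [TrF] using this
  · intro F c
    simp only [wop_cons, wop_nil, Fintype.sum_bool, if_true, Bool.false_eq_true, if_false]
    rw [op_serre_up _ _ _ k 1 (a + 1) m (m - a) (by omega)]
    rw [sum_filter, Finset.Nat.sum_antidiagonal_eq_sum_range_succ
      (f := fun i j => if i ≤ a + 1 then
        gb (MvPolynomial.C Polynomial.X : MvPolynomial (Fin N) (Polynomial ℤ)) (m - a) j *
          MvPolynomial.C Polynomial.X ^ ((a + 1 - i) * j) *
          op (MvPolynomial.C Polynomial.X) (xv N) N (k + 1) (a + 1 - i)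
            (op (MvPolynomial.C Polynomial.X) (xv N) N k (1 + m)
              (op (MvPolynomial.C Polynomial.X) (xv N) N (k + 1) i F)) c else 0)]
    rw [sum_range_succ, sum_range_one]
    simp only [Nat.zero_le, if_true, Nat.sub_zero, mul_one, Nat.sub_self, mul_zero, pow_zero,
      Nat.le_add_left, Nat.add_sub_cancel, one_mul, Nat.add_comm 1 m]
    rw [gb_CX, gb_zero_right, one_mul]
    have e : (fun c => op (MvPolynomial.C Polynomial.X) (xv N) N (k + 1) 0 F c) = F := by
      funext c; exact op_zero _ _ _ _ _ _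
    have e' : op (MvPolynomial.C Polynomial.X) (xv N) N (k + 1) 0 F = F := e
    rw [e']
    simp [cast]

/-! ### states -/

/-- anchors `s+d-1, .., s`. -/
def blk (g : ℕ → ℕ) (s : ℕ) : ℕ → List (ℤ × ℕ)
  | 0 => []
  | d + 1 => (((s + d : ℕ) : ℤ), g (s + d)) :: blk g s d

theorem blk_add (g : ℕ → ℕ) (s e : ℕ) : ∀ d, blk g s (e + d) = blk g (s + e) d ++ blk g s e
  | 0 => rfl
  | d + 1 => by
      show (((s + (e + d) : ℕ) : ℤ), g (s + (e + d))) :: blk g s (e + d) = _
      rw [blk_add g s e d]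
      show _ = (((s + e + d : ℕ) : ℤ), g (s + e + d)) :: blk g (s + e) d ++ blk g s e
      rw [Nat.add_assoc]; rfl

theorem mem_blk {g : ℕ → ℕ} {s : ℕ} {p : ℤ × ℕ} : ∀ {d}, p ∈ blk g s d →
    ∃ i, s ≤ i ∧ i < s + d ∧ p = ((i : ℤ), g i)
  | 0, h => by simp [blk] at h
  | d + 1, h => by
      rcases List.mem_cons.1 h with h | h
      · exact ⟨s + d, by omega, by omega, h⟩
      · obtain ⟨i, h1, h2, h3⟩ := mem_blk h
        exact ⟨i, h1, by omega, h3⟩

theorem blk_congr {g g' : ℕ → ℕ} {s : ℕ} : ∀ {d}, (∀ i, s ≤ i → i < s + d → g i = g' i) →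
    blk g s d = blk g' s d
  | 0, _ => rfl
  | d + 1, h => by
      show (((s + d : ℕ) : ℤ), g (s + d)) :: blk g s d = (((s + d : ℕ) : ℤ), g' (s + d)) :: blk g' s d
      rw [h (s + d) (by omega) (by omega), blk_congr (fun i h1 h2 => h i h1 (by omega))]

/-- the unit letters. -/
def lets (w : List ℕ) : List (ℤ × ℕ) := w.map (fun b : ℕ => ((b : ℤ), 1))

/-- the word of the state `(w; g)` on the anchors `0..K`. -/
def stw (K : ℕ) (g : ℕ → ℕ) (w : List ℕ) : List (ℤ × ℕ) := blk g 0 (K + 1) ++ lets w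

/-- the value of the state. -/
noncomputable def f (K : ℕ) (g : ℕ → ℕ) (w : List ℕ) : Fam := TrF (stw K g w)

/-- positivity of the state. -/
def PosS (K : ℕ) (g : ℕ → ℕ) (w : List ℕ) : Prop := PosW (stw K g w)

/-- one unit more on `b`. -/
def inc (g : ℕ → ℕ) (b : ℕ) : ℕ → ℕ := Function.update g b (g b + 1)

/-- one unit less on `b`. -/
def dec (g : ℕ → ℕ) (b : ℕ) : ℕ → ℕ := Function.update g b (g b - 1)

theorem split_stw {K c : ℕ} (hc : c + 1 ≤ K) (g : ℕ → ℕ) :
    blk g 0 (K + 1) = blk g (c + 2) (K - c - 1) ++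
      (((c : ℤ) + 1, g (c + 1)) :: ((c : ℤ), g c) :: blk g 0 c) := by
  have e : K + 1 = (c + 2) + (K - c - 1) := by omega
  rw [e, blk_add g 0 (c + 2) (K - c - 1), Nat.zero_add]
  congr 1
  show (((0 + (c + 1) : ℕ) : ℤ), g (0 + (c + 1))) :: (((0 + c : ℕ) : ℤ), g (0 + c)) :: blk g 0 c = _
  rw [Nat.zero_add, Nat.zero_add]
  push_cast
  rfl

variable {K c : ℕ} {g : ℕ → ℕ} {w : List ℕ}

/-- normal forms of the three states in (R). -/
theorem f_cons (hc : c + 1 ≤ K) (N : ℕ) :
    f K g ((c + 1) :: w) N = TrF (blk g (c + 2) (K - c - 1) ++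
      (((c : ℤ) + 1, g (c + 1)) :: ((c : ℤ), g c) :: ((c : ℤ) + 1, 1) :: (blk g 0 c ++ lets w))) N := by
  unfold f stw
  rw [split_stw hc g]
  have e : lets ((c + 1) :: w) = ((c : ℤ) + 1, 1) :: lets w := by
    unfold lets; rw [List.map_cons]; push_cast; rfl
  rw [e]
  have h := T_pass (l := (c : ℤ) + 1) (a := 1) N (blk g 0 c)
    (blk g (c + 2) (K - c - 1) ++ [((c : ℤ) + 1, g (c + 1)), ((c : ℤ), g c)]) (lets w) (by
      intro p hp
      obtain ⟨i, _, h2, rfl⟩ := mem_blk hp
      simp only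
      refine ⟨?_, ?_, ?_⟩ <;> omega)
  simpa using h

theorem f_inc (hc : c + 1 ≤ K) (N : ℕ) :
    f K (inc g (c + 1)) w N = TrF (blk g (c + 2) (K - c - 1) ++
      (((c : ℤ) + 1, g (c + 1) + 1) :: ((c : ℤ), g c) :: (blk g 0 c ++ lets w))) N := by
  unfold f stw
  rw [split_stw hc (inc g (c + 1))]
  have e1 : blk (inc g (c + 1)) (c + 2) (K - c - 1) = blk g (c + 2) (K - c - 1) :=
    blk_congr (fun i h1 _ => Function.update_of_ne (by omega) _ _)
  have e2 : blk (inc g (c + 1)) 0 c = blk g 0 c :=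
    blk_congr (fun i _ h2 => Function.update_of_ne (by omega) _ _)
  have e3 : inc g (c + 1) (c + 1) = g (c + 1) + 1 := Function.update_self ..
  have e4 : inc g (c + 1) c = g c := Function.update_of_ne (by omega) _ _
  rw [e1, e2, e3, e4]
  simp

theorem f_inc' (hc : c + 1 ≤ K) (N : ℕ) :
    f K (inc g c) w N = TrF (blk g (c + 2) (K - c - 1) ++
      (((c : ℤ) + 1, g (c + 1)) :: ((c : ℤ), g c + 1) :: (blk g 0 c ++ lets w))) N := by
  unfold f stw
  rw [split_stw hc (inc g c)]
  have e1 : blk (inc g c) (c + 2) (K - c - 1) = blk g (c + 2) (K - c - 1) :=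
    blk_congr (fun i h1 _ => Function.update_of_ne (by omega) _ _)
  have e2 : blk (inc g c) 0 c = blk g 0 c :=
    blk_congr (fun i _ h2 => Function.update_of_ne (by omega) _ _)
  have e3 : inc g c (c + 1) = g (c + 1) := Function.update_of_ne (by omega) _ _
  have e4 : inc g c c = g c + 1 := Function.update_self ..
  rw [e1, e2, e3, e4]
  simp

/-- the state with the letter `c+1` at the end, seen from the front. -/
theorem f_last (hc : c + 1 ≤ K) (N : ℕ) :
    f K g (w ++ [c + 1]) N = TrF (blk g (c + 2) (K - c - 1) ++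
      (((c : ℤ), 1) :: ((c : ℤ) + 1, g (c + 1)) :: ((c : ℤ), g c) :: (blk g 0 c ++ lets w))) N := by
  unfold f stw
  have e : lets (w ++ [c + 1]) = lets w ++ [((c : ℤ) + 1, 1)] := by
    unfold lets; rw [List.map_append]; simp
  rw [e, ← List.append_assoc, ← T_rot]
  have h := T_pass (l := (c : ℤ)) (a := 1) N (blk g (c + 2) (K - c - 1)) []
    (((c : ℤ) + 1, g (c + 1)) :: ((c : ℤ), g c) :: (blk g 0 c ++ lets w)) (by
      intro p hp
      obtain ⟨i, h1, _, rfl⟩ := mem_blk hp
      simp only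
      refine ⟨?_, ?_, ?_⟩ <;> omega)
  rw [List.nil_append] at h
  rw [h, split_stw hc g]
  simp

/-- shift of one unit from the anchor `c` to `c + 1`. -/
def mv (g : ℕ → ℕ) (c : ℕ) : ℕ → ℕ := dec (inc g (c + 1)) c

/-- **(R), case `g c ≤ g (c+1) + 1`**, `g c ≥ 1`. -/
theorem f_R (hc : c + 1 ≤ K) (h0 : 1 ≤ g c) (h : g c ≤ g (c + 1) + 1) (N : ℕ) :
    f K g ((c + 1) :: w) N =
      MvPolynomial.C (cast (gbn (g (c + 1) + 1 - g c) 1 * Polynomial.X ^ (g c))) *
        f K (inc g (c + 1)) w N + f K (mv g c) (w ++ [c + 1]) N := by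
  rw [f_cons hc, f_inc hc]
  obtain ⟨m, hm⟩ : ∃ m, g c = m + 1 := ⟨g c - 1, by omega⟩
  rw [hm, T_dn (by omega), f_last hc]
  have e1 : blk (mv g c) (c + 2) (K - c - 1) = blk g (c + 2) (K - c - 1) :=
    blk_congr (fun i h1 _ => by
      unfold mv dec inc
      rw [Function.update_of_ne (by omega), Function.update_of_ne (by omega)])
  have e2 : blk (mv g c) 0 c = blk g 0 c :=
    blk_congr (fun i _ h2 => by
      unfold mv dec inc
      rw [Function.update_of_ne (by omega), Function.update_of_ne (by omega)])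
  have e3 : mv g c (c + 1) = g (c + 1) + 1 := by
    unfold mv dec inc
    rw [Function.update_of_ne (by omega), Function.update_self]
  have e4 : mv g c c = m := by
    unfold mv dec inc
    rw [Function.update_self, Function.update_of_ne (by omega), hm]; rfl
  rw [e1, e2, e3, e4, show g (c + 1) + 1 - (m + 1) = g (c + 1) - m by omega]

/-- **(R), case `g (c+1) + 1 ≤ g c`** (the coefficient is `≤ 0`, so it is on the other side). -/
theorem f_R' (hc : c + 1 ≤ K) (h : g (c + 1) + 1 ≤ g c) (N : ℕ) :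
    f K (mv g c) (w ++ [c + 1]) N =
      MvPolynomial.C (cast (gbn (g c - (g (c + 1) + 1)) 1 * Polynomial.X ^ (g (c + 1) + 1))) *
        f K (inc g (c + 1)) w N + f K g ((c + 1) :: w) N := by
  rw [f_cons hc, f_inc hc]
  obtain ⟨m, hm⟩ : ∃ m, g c = m + 1 := ⟨g c - 1, by omega⟩
  rw [hm, f_last hc]
  have e1 : blk (mv g c) (c + 2) (K - c - 1) = blk g (c + 2) (K - c - 1) :=
    blk_congr (fun i h1 _ => by
      unfold mv dec inc
      rw [Function.update_of_ne (by omega), Function.update_of_ne (by omega)])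
  have e2 : blk (mv g c) 0 c = blk g 0 c :=
    blk_congr (fun i _ h2 => by
      unfold mv dec inc
      rw [Function.update_of_ne (by omega), Function.update_of_ne (by omega)])
  have e3 : mv g c (c + 1) = g (c + 1) + 1 := by
    unfold mv dec inc
    rw [Function.update_of_ne (by omega), Function.update_self]
  have e4 : mv g c c = m := by
    unfold mv dec inc
    rw [Function.update_self, Function.update_of_ne (by omega), hm]; rfl
  rw [e1, e2, e3, e4, T_up (by omega), show m + 1 - (g (c + 1) + 1) = m - g (c + 1) by omega]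

/-- **(R), case `g c = 0`**: the letter is absorbed. -/
theorem f_R0 (hc : c + 1 ≤ K) (h0 : g c = 0) (N : ℕ) :
    f K g ((c + 1) :: w) N =
      MvPolynomial.C (cast (gbn (g (c + 1) + 1) 1)) * f K (inc g (c + 1)) w N := by
  rw [f_cons hc, f_inc hc, h0]
  have h1 := T_drop (l := (c : ℤ)) (L1 := blk g (c + 2) (K - c - 1) ++ [((c : ℤ) + 1, g (c + 1))])
    (L2 := ((c : ℤ) + 1, 1) :: (blk g 0 c ++ lets w)) N
  have h2 := T_drop (l := (c : ℤ)) (L1 := blk g (c + 2) (K - c - 1) ++ [((c : ℤ) + 1, g (c + 1) + 1)])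
    (L2 := (blk g 0 c ++ lets w)) N
  have h3 := T_twins (l := (c : ℤ) + 1) (a := g (c + 1)) (b := 1)
    (L1 := blk g (c + 2) (K - c - 1)) (L2 := (blk g 0 c ++ lets w)) N
  have h4 := gbn_symm1 (g (c + 1))
  simp only [List.append_assoc, List.cons_append, List.nil_append] at h1 h2 h3 ⊢
  rw [h1, h2, h3, h4]

/-- **(R) as one equation**, `g c ≥ 1`. -/
theorem f_R_eq (hc : c + 1 ≤ K) (h0 : 1 ≤ g c) (N : ℕ) :
    MvPolynomial.C (1 - Polynomial.X) *
        (f K g ((c + 1) :: w) N - f K (mv g c) (w ++ [c + 1]) N) =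
      MvPolynomial.C (Polynomial.X ^ (g c) - Polynomial.X ^ (g (c + 1) + 1)) *
        f K (inc g (c + 1)) w N := by
  rcases Nat.le_total (g c) (g (c + 1) + 1) with h | h
  · rw [f_R hc h0 h, add_sub_cancel_right, ← mul_assoc, ← MvPolynomial.C_mul]
    congr 2
    have e : cast (gbn (g (c + 1) + 1 - g c) 1 * Polynomial.X ^ (g c)) =
        cast (gbn (g (c + 1) + 1 - g c) 1) * Polynomial.X ^ (g c) := by simp [cast]
    rw [e, ← mul_assoc, cast_one_sub, sub_mul, one_mul, ← pow_add, Nat.sub_add_cancel h]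
  · have e : cast (gbn (g c - (g (c + 1) + 1)) 1 * Polynomial.X ^ (g (c + 1) + 1)) =
        cast (gbn (g c - (g (c + 1) + 1)) 1) * Polynomial.X ^ (g (c + 1) + 1) := by simp [cast]
    have e2 : (MvPolynomial.C (1 - Polynomial.X) : MvPolynomial (Fin N) (Polynomial ℤ)) *
        MvPolynomial.C (cast (gbn (g c - (g (c + 1) + 1)) 1 * Polynomial.X ^ (g (c + 1) + 1))) =
        - MvPolynomial.C (Polynomial.X ^ (g c) - Polynomial.X ^ (g (c + 1) + 1)) := by
      rw [e, ← MvPolynomial.C_mul, ← mul_assoc, cast_one_sub, sub_mul, one_mul, ← pow_add,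
        Nat.sub_add_cancel h, ← map_neg, neg_sub]
    rw [f_R' hc h]
    linear_combination (-(f K (inc g (c + 1)) w N)) * e2

/-- **(R) as one equation**, `g c = 0`. -/
theorem f_R0_eq (hc : c + 1 ≤ K) (h0 : g c = 0) (N : ℕ) :
    MvPolynomial.C (1 - Polynomial.X) * f K g ((c + 1) :: w) N =
      MvPolynomial.C (1 - Polynomial.X ^ (g (c + 1) + 1)) * f K (inc g (c + 1)) w N := by
  rw [f_R0 hc h0, ← mul_assoc, ← MvPolynomial.C_mul, cast_one_sub]

/-- base: no letters. -/
theorem f_nil (g : ℕ → ℕ) (N : ℕ) : ∀ K : ℕ,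
    f K g [] N = ∏ c ∈ range (K + 1), MvPolynomial.esymm (Fin N) (Polynomial ℤ) (g c) := by
  have key : ∀ d : ℕ, TrF (blk g 0 d) N =
      ∏ c ∈ range d, MvPolynomial.esymm (Fin N) (Polynomial ℤ) (g c) := by
    intro d
    induction d with
    | zero => rfl
    | succ d ih =>
      rw [prod_range_succ, mul_comm, ← ih]
      show TrF ((((0 + d : ℕ) : ℤ), g (0 + d)) :: blk g 0 d) N = _
      rw [Nat.zero_add]
      unfold TrF
      rw [Tr_decouple _ _ _ _ _ _ (by
        intro p hp
        obtain ⟨i, _, h2, rfl⟩ := mem_blk hp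
        simp only
        constructor <;> omega), ← E_eq_ea, E_xv]
  intro K
  unfold f stw
  have e : lets [] = [] := rfl
  rw [e, List.append_nil, key]

/-! ### the rules -/

theorem sz_blk (g : ℕ → ℕ) (s d : ℕ) : sz (blk g s d) = ∑ i ∈ range d, g (s + i) := by
  induction d with
  | zero => rfl
  | succ d ih =>
    show sz ((((s + d : ℕ) : ℤ), g (s + d)) :: blk g s d) = _
    rw [sz_cons, ih, sum_range_succ]; simp only; omega

theorem PosS.nil (K : ℕ) (g : ℕ → ℕ) : PosS K g [] := by
  have key : ∀ d : ℕ, PosW (blk g 0 d) := by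
    intro d
    induction d with
    | zero => exact PosW.nil
    | succ d ih =>
      show PosW ((((0 + d : ℕ) : ℤ), g (0 + d)) :: blk g 0 d)
      rw [Nat.zero_add]
      refine PosW.dec ?_ ih
      intro p hp
      obtain ⟨i, _, h2, rfl⟩ := mem_blk hp
      simp only
      constructor <;> omega
  unfold PosS stw
  have e : lets [] = [] := rfl
  rw [e, List.append_nil]
  exact key _

/-- total size of a state. -/
theorem sz_stw (K : ℕ) (g : ℕ → ℕ) (w : List ℕ) :
    sz (stw K g w) = (∑ i ∈ range (K + 1), g i) + w.length := by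
  unfold stw
  rw [sz_append, sz_blk]
  congr 1
  · simp
  · unfold lets sz
    rw [List.map_map]
    induction w with
    | nil => rfl
    | cons b w ih =>
      rw [List.map_cons, List.sum_cons, ih, List.length_cons]
      simp only [Function.comp]
      omega

theorem sum_inc (g : ℕ → ℕ) {b n : ℕ} (hb : b < n) :
    ∑ i ∈ range n, inc g b i = (∑ i ∈ range n, g i) + 1 := by
  unfold inc
  rw [← Finset.add_sum_erase _ _ (mem_range.2 hb), ← Finset.add_sum_erase (range n) g (mem_range.2 hb),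
    Function.update_self]
  have : ∑ x ∈ (range n).erase b, Function.update g b (g b + 1) x =
      ∑ x ∈ (range n).erase b, g x :=
    sum_congr rfl fun x hx => Function.update_of_ne (ne_of_mem_erase hx) _ _
  rw [this]; omega

theorem sum_mv (g : ℕ → ℕ) {c n : ℕ} (hb : c + 1 < n) (h0 : 1 ≤ g c) :
    ∑ i ∈ range n, mv g c i = ∑ i ∈ range n, g i := by
  unfold mv dec
  have h1 : inc g (c + 1) c = g c := Function.update_of_ne (by omega) _ _
  have h2 := sum_inc g hb
  rw [← Finset.add_sum_erase _ _ (mem_range.2 (by omega : c < n))] at h2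
  rw [← Finset.add_sum_erase _ _ (mem_range.2 (by omega : c < n)), Function.update_self]
  have : ∑ x ∈ (range n).erase c, Function.update (inc g (c + 1)) c (inc g (c + 1) c - 1) x =
      ∑ x ∈ (range n).erase c, inc g (c + 1) x :=
    sum_congr rfl fun x hx => Function.update_of_ne (ne_of_mem_erase hx) _ _
  rw [this]
  rw [h1] at h2 ⊢
  omega

/-- **forward rule**: `M = g (c+1) + 1 - g c ≥ 0`. -/
theorem PosS.fwd (hc : c + 1 ≤ K) (h : g c ≤ g (c + 1) + 1) (h1 : PosS K (inc g (c + 1)) w)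
    (h2 : 1 ≤ g c → PosS K (mv g c) (w ++ [c + 1])) : PosS K g ((c + 1) :: w) := by
  have s0 := sz_stw K g ((c + 1) :: w)
  have s1 := sz_stw K (inc g (c + 1)) w
  rw [sum_inc g (by omega)] at s1
  rw [List.length_cons] at s0
  by_cases h0 : g c = 0
  · refine EP.congr (EP.smul (gbn (g (c + 1) + 1) 1) h1) (by rw [s0, s1]; omega) (fun N => ?_)
    exact f_R0 hc h0 N
  · have s2 := sz_stw K (mv g c) (w ++ [c + 1])
    rw [sum_mv g (by omega) (by omega), List.length_append, List.length_singleton] at s2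
    have h3 := h2 (by omega)
    unfold PosS PosW at h1 h3
    rw [s1] at h1
    rw [s2] at h3
    refine EP.congr (EP.add (EP.smul (gbn (g (c + 1) + 1 - g c) 1 * Polynomial.X ^ (g c)) h1)
      (h3.congr (by omega) (fun N => rfl))) (by rw [s0]; omega) (fun N => ?_)
    exact f_R hc (by omega) h N

/-- **backward rule**: `g (c+1) ≤ g c + 1`. -/
theorem PosS.bwd (hc : c + 1 ≤ K) (h : g (c + 1) ≤ g c + 1) (h1 : PosS K (inc g c) w)
    (h2 : 1 ≤ g (c + 1) → PosS K (inc (dec g (c + 1)) c) ((c + 1) :: w)) :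
    PosS K g (w ++ [c + 1]) := by
  have s0 := sz_stw K g (w ++ [c + 1])
  have s1 := sz_stw K (inc g c) w
  rw [sum_inc g (by omega)] at s1
  rw [List.length_append, List.length_singleton] at s0
  rcases Nat.eq_zero_or_pos (g (c + 1)) with h0 | h0
  · -- absorbed by the anchor `c`
    refine EP.congr (EP.smul (gbn (g c + 1) 1) h1) (by rw [s0, s1]; omega) (fun N => ?_)
    show f K g (w ++ [c + 1]) N = _ * f K (inc g c) w N
    rw [f_last hc, f_inc' hc, h0]
    have t1 := T_drop (l := (c : ℤ) + 1) (L1 := blk g (c + 2) (K - c - 1) ++ [((c : ℤ), 1)])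
      (L2 := ((c : ℤ), g c) :: (blk g 0 c ++ lets w)) N
    have t2 := T_drop (l := (c : ℤ) + 1) (L1 := blk g (c + 2) (K - c - 1))
      (L2 := ((c : ℤ), g c + 1) :: (blk g 0 c ++ lets w)) N
    have t3 := T_twins (l := (c : ℤ)) (a := 1) (b := g c)
      (L1 := blk g (c + 2) (K - c - 1)) (L2 := (blk g 0 c ++ lets w)) N
    simp only [List.append_assoc, List.cons_append, List.nil_append] at t1 t2 t3 ⊢
    rw [t1, t2, t3, Nat.add_comm 1 (g c)]
  · set g' : ℕ → ℕ := inc (dec g (c + 1)) c with hg'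
    have e1 : g' c = g c + 1 := by
      rw [hg']; unfold inc dec
      rw [Function.update_self, Function.update_of_ne (by omega)]
    have e2 : g' (c + 1) = g (c + 1) - 1 := by
      rw [hg']; unfold inc dec
      rw [Function.update_of_ne (by omega), Function.update_self]
    have e3 : mv g' c = g := by
      funext i
      unfold mv dec inc
      by_cases hi : i = c
      · subst hi
        rw [Function.update_self, Function.update_of_ne (by omega), e1]; rfl
      · rw [Function.update_of_ne hi]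
        by_cases hi' : i = c + 1
        · subst hi'
          rw [Function.update_self, e2]; omega
        · rw [Function.update_of_ne hi', hg']
          unfold inc dec
          rw [Function.update_of_ne hi, Function.update_of_ne hi']
    have e4 : inc g' (c + 1) = inc g c := by
      funext i
      by_cases hi : i = c
      · subst hi
        unfold inc at *
        rw [Function.update_of_ne (by omega), Function.update_self, e1]
      · by_cases hi' : i = c + 1
        · subst hi'
          unfold inc at *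
          rw [Function.update_self, e2, Function.update_of_ne (by omega)]; omega
        · unfold inc
          rw [Function.update_of_ne hi', Function.update_of_ne hi, hg']
          unfold inc dec
          rw [Function.update_of_ne hi, Function.update_of_ne hi']
    have h3 := h2 (by omega)
    have s2 := sz_stw K g' ((c + 1) :: w)
    have s3 : ∑ i ∈ range (K + 1), g' i = ∑ i ∈ range (K + 1), g i := by
      rw [← sum_mv g' (c := c) (n := K + 1) (by omega) (by omega), e3]
    rw [s3, List.length_cons] at s2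
    unfold PosS PosW at h1 h3
    rw [s1] at h1
    rw [s2] at h3
    refine EP.congr (EP.add
      (EP.smul (gbn (g' c - (g' (c + 1) + 1)) 1 * Polynomial.X ^ (g' (c + 1) + 1)) h1)
      (h3.congr (by omega) (fun N => rfl))) (by rw [s0]; omega) (fun N => ?_)
    have := f_R' (w := w) (g := g') hc (by omega) N
    rw [e3, e4] at this
    exact this

/-- far letters commute. -/
theorem PosS.comm {u v : List ℕ} {a b : ℕ} (h1 : a ≠ b + 1) (h2 : b ≠ a + 1)
    (h : PosS K g (u ++ b :: a :: v)) : PosS K g (u ++ a :: b :: v) := by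
  unfold PosS stw lets at *
  rw [List.map_append, List.map_cons, List.map_cons, ← List.append_assoc] at *
  exact PosW.comm (by omega) (by omega) h

/-! ### the link to S0081 -/

/-- all colours shifted by one. -/
def sh (L : List (ℤ × ℕ)) : List (ℤ × ℕ) := L.map (fun p => (p.1 + 1, p.2))

theorem PosW.unshift1 : ∀ (L1 L2 : List (ℤ × ℕ)), PosW (L2 ++ sh L1) → PosW (L1 ++ L2)
  | [], L2, h => by simpa [sh] using h
  | (k, a) :: L1, L2, h => by
      refine PosW.rot (L := L1 ++ L2) ?_
      rw [List.append_assoc]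
      refine PosW.unshift1 L1 (L2 ++ [(k + 1, a)]) ?_
      simpa [sh] using h

theorem PosW.unshift (L : List (ℤ × ℕ)) : ∀ m : ℕ,
    PosW (L.map (fun p => (p.1 + (m : ℤ), p.2))) → PosW L
  | 0, h => by simpa using h
  | m + 1, h => by
      refine PosW.unshift L m ?_
      have := PosW.unshift1 (L.map (fun p => (p.1 + (m : ℤ), p.2))) [] (by
        rw [List.nil_append]
        unfold sh
        rw [List.map_map]
        convert h using 2
        funext p
        simp only [Function.comp, Prod.mk.injEq, and_true]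
        push_cast
        ring)
      simpa using this

/-- **S0081 (all Hessenberg functions) follows from positivity of all states without masses.** -/
theorem EPos_of_PosS (H : ∀ (K : ℕ) (w : List ℕ), (∀ b ∈ w, 1 ≤ b ∧ b ≤ K) →
    PosS K (fun _ => 0) w) : ∀ (n : ℕ) (h : Fin n → ℕ),
      Crest.CombinatoricsR.UnitInterval.IsHessenberg h →
      Crest.Agent.R059.EPos h := by
  refine EPos_of_PosW (fun L hL => ?_)
  -- shift such that all colours are positive
  obtain ⟨m, hm⟩ : ∃ m : ℕ, ∀ p ∈ L, 1 ≤ p.1 + (m : ℤ) := by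
    clear hL
    induction L with
    | nil => exact ⟨0, by simp⟩
    | cons q L ih =>
      obtain ⟨m, hm⟩ := ih
      refine ⟨m + (1 - q.1).toNat, ?_⟩
      intro p hp
      rcases List.mem_cons.1 hp with rfl | hp
      · push_cast; have := Int.self_le_toNat (1 - p.1); omega
      · have := hm p hp
        push_cast
        omega
  refine PosW.unshift L m ?_
  set w : List ℕ := L.map (fun p => (p.1 + (m : ℤ)).toNat) with hw
  have e : L.map (fun p => (p.1 + (m : ℤ), p.2)) = lets w := by
    rw [hw]; unfold lets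
    rw [List.map_map]
    refine List.map_congr_left (fun p hp => ?_)
    have h1 := hm p hp
    have h2 := hL p hp
    simp only [Function.comp, Prod.mk.injEq]
    exact ⟨by omega, h2⟩
  rw [e]
  have hK : ∀ b ∈ w, 1 ≤ b ∧ b ≤ w.sum := by
    intro b hb
    refine ⟨?_, List.le_sum_of_mem hb⟩
    rw [hw] at hb
    obtain ⟨p, hp, rfl⟩ := List.mem_map.1 hb
    have := hm p hp
    omega
  have h := H w.sum w hK
  unfold PosS stw at h
  -- drop the empty anchors
  have key : ∀ d : ℕ, PosW (blk (fun _ => 0) 0 d ++ lets w) → PosW (lets w) := by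
    intro d
    induction d with
    | zero => intro h; exact h
    | succ d ih =>
      intro h
      refine ih ?_
      exact PosW.undrop (L1 := []) (l := ((0 + d : ℕ) : ℤ)) h
  exact key _ h

/-- **interface theorem**: S0081 from positivity of the states `(w; 0)`. -/
theorem result_of_statepos (H : ∀ (K : ℕ) (w : List ℕ), (∀ b ∈ w, 1 ≤ b ∧ b ≤ K) →
    PosS K (fun _ => 0) w) :
    ∀ (n : ℕ) (h : Fin n → ℕ), Crest.CombinatoricsR.UnitInterval.IsHessenberg h →
      ∃ θ : {σ : Equiv.Perm (Fin n) // σ ∈ Crest.CombinatoricsR.UnitInterval.descentSet h} →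
          Nat.Partition n,
        ∀ N : ℕ, Crest.CombinatoricsR.UnitInterval.chromaticQSym h N =
          ∑ σ : {σ : Equiv.Perm (Fin n) // σ ∈ Crest.CombinatoricsR.UnitInterval.descentSet h},
            MvPolynomial.C (Polynomial.X ^ Crest.CombinatoricsR.UnitInterval.ginv h σ.1) *
              MvPolynomial.esymmPart (Fin N) (Polynomial ℤ) (θ σ) :=
  Crest.Agent.R059.main_of_EPos (EPos_of_PosS H)

/-! ### uniqueness: (R) and the base determine the states -/

/-- potential that drops with a forward rotation. -/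
def pot (K : ℕ) (g : ℕ → ℕ) : ℕ := ∑ i ∈ range (K + 1), (K - i) * g i

theorem pot_mv {K c : ℕ} (hc : c + 1 ≤ K) (g : ℕ → ℕ) (h0 : 1 ≤ g c) :
    pot K (mv g c) < pot K g := by
  have hne : c + 1 ≠ c := by omega
  have m1 : c ∈ range (K + 1) := mem_range.2 (by omega)
  have m2 : c + 1 ∈ (range (K + 1)).erase c := mem_erase.2 ⟨hne, mem_range.2 (by omega)⟩
  unfold pot
  rw [← Finset.add_sum_erase _ _ m1, ← Finset.add_sum_erase _ _ m2,
    ← Finset.add_sum_erase (range (K + 1)) (fun i => (K - i) * g i) m1,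
    ← Finset.add_sum_erase _ (fun i => (K - i) * g i) m2]
  have e1 : mv g c c = g c - 1 := by
    unfold mv dec inc
    rw [Function.update_self, Function.update_of_ne (by omega)]
  have e2 : mv g c (c + 1) = g (c + 1) + 1 := by
    unfold mv dec inc
    rw [Function.update_of_ne (by omega), Function.update_self]
  have e3 : ∑ i ∈ ((range (K + 1)).erase c).erase (c + 1), (K - i) * mv g c i =
      ∑ i ∈ ((range (K + 1)).erase c).erase (c + 1), (K - i) * g i := by
    refine sum_congr rfl fun i hi => ?_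
    have h1 := ne_of_mem_erase hi
    have h2 := ne_of_mem_erase (mem_of_mem_erase hi)
    unfold mv dec inc
    rw [Function.update_of_ne h2, Function.update_of_ne h1]
  rw [e1, e2, e3]
  obtain ⟨m, hm⟩ : ∃ m, g c = m + 1 := ⟨g c - 1, by omega⟩
  obtain ⟨t, ht⟩ : ∃ t, K - c = t + 1 := ⟨K - c - 1, by omega⟩
  have ht' : K - (c + 1) = t := by omega
  rw [hm, ht, ht', Nat.add_sub_cancel]
  nlinarith

/-- **uniqueness**: every solution of (R) with the right base is `f`. -/
theorem f_unique (K : ℕ) (G : (ℕ → ℕ) → List ℕ → Fam)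
    (hnil : ∀ g N, G g [] N = ∏ c ∈ range (K + 1), MvPolynomial.esymm (Fin N) (Polynomial ℤ) (g c))
    (hR : ∀ (g : ℕ → ℕ) (c : ℕ) (w : List ℕ), c + 1 ≤ K → 1 ≤ g c → ∀ N,
      MvPolynomial.C (1 - Polynomial.X) *
        (G g ((c + 1) :: w) N - G (mv g c) (w ++ [c + 1]) N) =
      MvPolynomial.C (Polynomial.X ^ (g c) - Polynomial.X ^ (g (c + 1) + 1)) *
        G (inc g (c + 1)) w N)
    (hR0 : ∀ (g : ℕ → ℕ) (c : ℕ) (w : List ℕ), c + 1 ≤ K → g c = 0 → ∀ N,
      MvPolynomial.C (1 - Polynomial.X) * G g ((c + 1) :: w) N =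
      MvPolynomial.C (1 - Polynomial.X ^ (g (c + 1) + 1)) * G (inc g (c + 1)) w N) :
    ∀ (w : List ℕ) (g : ℕ → ℕ), (∀ b ∈ w, 1 ≤ b ∧ b ≤ K) → ∀ N, G g w N = f K g w N := by
  have hne : ∀ N, (MvPolynomial.C (1 - Polynomial.X) : MvPolynomial (Fin N) (Polynomial ℤ)) ≠ 0 := by
    intro N h
    rw [MvPolynomial.C_eq_zero] at h
    have := congrArg (fun p : Polynomial ℤ => p.coeff 0) h
    simp at this
  have key : ∀ n P (w : List ℕ) (g : ℕ → ℕ), w.length = n → pot K g = P →
      (∀ b ∈ w, 1 ≤ b ∧ b ≤ K) → ∀ N, G g w N = f K g w N := by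
    intro n
    induction n with
    | zero =>
      intro P w g hw _ _ N
      obtain rfl := List.eq_nil_of_length_eq_zero hw
      rw [hnil, f_nil]
    | succ n ih =>
      intro P
      induction P using Nat.strong_induction_on with
      | _ P ihP =>
        intro w g hw hP hb N
        obtain ⟨b, w, rfl⟩ : ∃ b w', w = b :: w' := by
          cases w with
          | nil => simp at hw
          | cons b w' => exact ⟨b, w', rfl⟩
        have hb1 := hb b (List.mem_cons_self ..)
        obtain ⟨c, rfl⟩ : ∃ c, b = c + 1 := ⟨b - 1, by omega⟩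
        have hw' : w.length = n := by simpa using hw
        have hbw : ∀ b ∈ w, 1 ≤ b ∧ b ≤ K := fun b h => hb b (List.mem_cons_of_mem _ h)
        have h1 := ih _ w (inc g (c + 1)) hw' rfl hbw N
        refine mul_left_cancel₀ (hne N) ?_
        rcases Nat.eq_zero_or_pos (g c) with h0 | h0
        · rw [hR0 g c w hb1.2 h0 N, f_R0_eq hb1.2 h0 N, h1]
        · have h2 := ihP _ (hP ▸ pot_mv hb1.2 g h0) (w ++ [c + 1]) (mv g c) (by simp [hw']) rfl (by
            intro b h
            rcases List.mem_append.1 h with h | h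
            · exact hbw b h
            · rw [List.mem_singleton.1 h]; exact hb1) N
          have e1 := hR g c w hb1.2 h0 N
          have e2 := f_R_eq (w := w) (g := g) hb1.2 h0 N
          rw [h1, h2] at e1
          rw [mul_sub] at e1 e2
          linear_combination e1 - e2
  intro w g hb N
  exact key _ _ w g rfl rfl hb N

end Crest.Agent.R059.WG353
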